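import Crest.Agent.R66.Lat

set_option autoImplicit false

namespace Crest.Agent.R66

open Finset

namespace Setup

variable {F V : Type} [Field F] [AddCommGroup V] [Module F V] {n : ℕ} (S : Setup F V n)

variable {S} {u w : Submodule F V}

theorem val_t (g : S.Aut) (a : ℤ) (v : V) :
    S.val g ((S.t ^ a : V ≃ₗ[F] V) v) = (S.t ^ a : V ≃ₗ[F] V) (S.val g v) := by
  have h : Commute (S.val g) S.t := g.2.1
  rw [← LinearEquiv.mul_apply, (h.zpow_right a).eq, LinearEquiv.mul_apply]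

theorem val_mem_M (g : S.Aut) (v : V) : S.val g v ∈ S.M ↔ v ∈ S.M := g.2.2 v

theorem val_injective : Function.Injective S.val := S.autSub.subtype_injective

theorem mem_smul (g : S.Aut) (v : V) : S.val g v ∈ g • u ↔ v ∈ u := by
  rw [smul_def]
  constructor
  · rintro ⟨x, hx, e⟩
    rwa [← (S.val g).injective e]
  · exact fun h => ⟨v, h, rfl⟩

theorem smul_M (g : S.Aut) : g • S.M = S.M := by
  ext v
  obtain ⟨x, rfl⟩ := (S.val g).surjective v
  rw [mem_smul, val_mem_M]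

theorem smul_tr (g : S.Aut) (a : ℤ) (u : Submodule F V) : g • S.tr a u = S.tr a (g • u) := by
  ext v
  obtain ⟨x, rfl⟩ := (S.val g).surjective v
  rw [mem_smul, mem_tr, mem_tr, ← val_t, mem_smul]

theorem smul_le_smul_iff (g : S.Aut) : g • u ≤ g • w ↔ u ≤ w :=
  Submodule.map_le_map_iff_of_injective (S.val g).injective u w

theorem smul_sup (g : S.Aut) (u w : Submodule F V) : g • (u ⊔ w) = g • u ⊔ g • w :=
  Submodule.map_sup u w _

theorem smul_inf (g : S.Aut) (u w : Submodule F V) : g • (u ⊓ w) = g • u ⊓ g • w :=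
  Submodule.map_inf _ (S.val g).injective

namespace AutAux

theorem smul_iSup (g : S.Aut) (f : ℕ → Submodule F V) : g • ⨆ i, f i = ⨆ i, g • f i :=
  Submodule.map_iSup _ f

theorem tr_one_M : S.tr 1 S.M ≤ S.M := by
  simpa only [tr_zero] using S.tr_M_anti (zero_le_one : (0 : ℤ) ≤ 1)

theorem tr_le_M (i : ℕ) : S.tr i S.M ≤ S.M := by
  simpa only [tr_zero] using S.tr_M_anti (Int.natCast_nonneg i)

theorem le_tr_neg_iff (a : ℤ) : u ≤ S.tr (-a) w ↔ S.tr a u ≤ w := by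
  rw [← S.tr_le_tr_iff a, tr_tr, add_neg_cancel, tr_zero]

/-- Splitting off the lowest term of a polynomial vector. -/
theorem split (h : u ⊔ S.M = ⊤) {x : V} (hx : x ∈ S.M) :
    ∃ a ∈ S.tr 1 u ⊓ S.M, x - a ∈ S.tr 1 S.M := by
  have h1 : x ∈ S.tr 1 u ⊔ S.tr 1 S.M := by
    rw [← tr_sup, h, tr_top]
    trivial
  obtain ⟨a, ha, b, hb, rfl⟩ := Submodule.mem_sup.1 h1
  refine ⟨a, ⟨ha, ?_⟩, by simpa using hb⟩
  simpa using sub_mem hx (tr_one_M hb)

theorem key (hu : S.Lat u) (h : u ⊔ S.M = ⊤) (m : ℕ) (W : Submodule F V)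
    (hW : ∀ j : ℕ, j ≤ m → S.tr j (S.tr 1 u ⊓ S.M) ≤ W) : S.tr (m + 1) u ⊓ S.M ≤ W := by
  induction m generalizing W with
  | zero => simpa [tr_zero] using hW 0 le_rfl
  | succ m ih =>
    have h0 : S.tr 1 u ⊓ S.M ≤ W := by simpa [tr_zero] using hW 0 (Nat.zero_le _)
    have h1 : S.tr (m + 1) u ⊓ S.M ≤ S.tr (-1) W := ih _ fun j hj => by
      rw [le_tr_neg_iff, tr_tr]
      have := hW (j + 1) (by omega)
      rwa [Nat.cast_add, Nat.cast_one, add_comm] at this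
    rw [le_tr_neg_iff, tr_inf, tr_tr] at h1
    rintro x ⟨hx, hx'⟩
    obtain ⟨a, ha, hb⟩ := split h hx'
    have h2 : x - a ∈ S.tr (1 + (m + 1)) u := by
      refine sub_mem ?_ (hu.tr_mono (by omega) ha.1)
      rwa [Nat.cast_add, Nat.cast_one, add_comm] at hx
    simpa using add_mem (h0 ha) (h1 ⟨h2, hb⟩)

end AutAux

open AutAux

/-- A lattice without first cohomology is determined by the sections of its first translate. -/
theorem Lat.eq_iSup (hu : S.Lat u) (h : u ⊔ S.M = ⊤) :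
    u = ⨆ i : ℕ, S.tr (-(i + 1 : ℤ)) (S.tr 1 u ⊓ S.M) := by
  refine le_antisymm (fun x hx => ?_) (iSup_le fun i => ?_)
  · obtain ⟨m, hm⟩ := S.exists_mem_tr_M x
    have h1 := key hu h m (S.tr (m + 1) (⨆ i : ℕ, S.tr (-(i + 1 : ℤ)) (S.tr 1 u ⊓ S.M)))
      fun j hj => by
        have e : (j : ℤ) = (m + 1) + -(((m - j : ℕ) : ℤ) + 1) := by omega
        rw [e, ← tr_tr, tr_le_tr_iff]
        exact le_iSup (fun i : ℕ => S.tr (-(i + 1 : ℤ)) (S.tr 1 u ⊓ S.M)) (m - j)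
    rw [← S.tr_le_tr_iff (-(m + 1 : ℤ)), tr_inf, tr_tr, tr_tr, neg_add_cancel, tr_zero,
      tr_zero] at h1
    exact h1 ⟨hx, S.tr_M_anti (by omega) hm⟩
  · refine ((S.tr_le_tr_iff _).2 inf_le_left).trans ?_
    rw [tr_tr]
    simpa only [tr_zero] using hu.tr_mono (a := -(i + 1 : ℤ) + 1) (b := 0) (by omega)

/-- The polynomial vectors are generated by the sections of a trivial bundle. -/
theorem Lat.M_eq_iSup (hu : S.Lat u) (h : u ⊔ S.M = ⊤) :
    S.M = ⨆ i : ℕ, S.tr i (S.tr 1 u ⊓ S.M) := by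
  refine le_antisymm (fun x hx => ?_) (iSup_le fun i => ?_)
  · obtain ⟨m, hm⟩ := hu.exists_mem_tr x
    exact key hu h m _ (fun j _ => le_iSup (fun i : ℕ => S.tr i (S.tr 1 u ⊓ S.M)) j)
      ⟨hu.tr_mono (by omega) hm, hx⟩
  · exact ((S.tr_le_tr_iff _).2 inf_le_right).trans (tr_le_M i)

theorem Lat.isCompl_sections (hu : S.Lat u) (h : IsCompl u S.M) :
    S.tr 1 u ⊓ S.M ⊓ S.tr 1 S.M = ⊥ ∧ (S.tr 1 u ⊓ S.M) ⊔ S.tr 1 S.M = S.M := by
  have _ := hu
  constructor
  · refine le_bot_iff.1 ((inf_le_inf_right _ inf_le_left).trans ?_)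
    rw [← tr_inf, h.inf_eq_bot, tr_bot]
  · refine le_antisymm (sup_le inf_le_right tr_one_M) fun x hx => ?_
    obtain ⟨a, ha, hb⟩ := split h.sup_eq_top hx
    exact Submodule.mem_sup.2 ⟨a, ha, x - a, hb, by simp⟩

namespace AutAux

theorem exists_le_tr_of_fin (hu : S.Lat u) (W : Submodule F V) [FiniteDimensional F W] :
    ∃ c : ℕ, W ≤ S.tr c u := by
  obtain ⟨s, hs⟩ : W.FG := Module.Finite.iff_fg.1 inferInstance
  choose a ha using hu.exists_mem_tr
  refine ⟨s.sup a, ?_⟩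
  rw [← hs, Submodule.span_le]
  intro v hv
  exact hu.tr_mono (by exact_mod_cast Finset.le_sup (f := a) hv) (ha v)

theorem smul_L0_le (g : S.Aut) : ∃ c : ℕ, g • S.L0 ≤ S.tr c S.L0 := by
  have h0 := S.lat_L0
  have := (h0.tr 1).finite_inf
  have : FiniteDimensional F ↥(g • (S.tr 1 S.L0 ⊓ S.M)) := by
    rw [smul_def]
    infer_instance
  obtain ⟨c, hc⟩ := exists_le_tr_of_fin h0 (g • (S.tr 1 S.L0 ⊓ S.M))
  refine ⟨c, ?_⟩
  conv_lhs => rw [h0.eq_iSup S.compl.sup_eq_top, smul_iSup]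
  refine iSup_le fun i => ?_
  rw [smul_tr]
  refine ((S.tr_le_tr_iff _).2 hc).trans ?_
  rw [tr_tr]
  exact h0.tr_mono (by omega)

end AutAux

theorem Lat.smul (hu : S.Lat u) (g : S.Aut) : S.Lat (g • u) := by
  obtain ⟨h1, a, h2, h3⟩ := hu
  obtain ⟨c, hc⟩ := smul_L0_le g
  obtain ⟨c', hc'⟩ := smul_L0_le g⁻¹
  refine ⟨by rw [← smul_tr, smul_le_smul_iff]; exact h1, a + c + c', ?_, ?_⟩
  · rw [← smul_le_smul_iff g, smul_inv_smul, smul_tr] at hc'
    rw [← smul_le_smul_iff g, smul_tr] at h2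
    refine le_trans ?_ h2
    refine (S.lat_L0.tr_mono (b := -(a : ℤ) + -c') (by push_cast; omega)).trans ?_
    rw [← tr_tr, tr_le_tr_iff, ← S.tr_le_tr_iff c', tr_tr, add_neg_cancel, tr_zero]
    exact hc'
  · rw [← smul_le_smul_iff g, smul_tr] at h3
    refine h3.trans (((S.tr_le_tr_iff _).2 hc).trans ?_)
    rw [tr_tr]
    exact S.lat_L0.tr_mono (by push_cast; omega)

theorem h0_smul (g : S.Aut) (u : Submodule F V) : S.h0 (g • u) = S.h0 u := by
  unfold h0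
  conv_lhs => rw [← smul_M g, ← smul_inf, smul_def]
  exact LinearEquiv.finrank_map_eq _ _

theorem h1_smul (g : S.Aut) (u : Submodule F V) : S.h1 (g • u) = S.h1 u := by
  unfold h1
  refine (Submodule.Quotient.equiv (u ⊔ S.M) (g • u ⊔ S.M) (S.val g) ?_).finrank_eq.symm
  rw [← smul_def, smul_sup, smul_M]

theorem chi_smul (g : S.Aut) (u : Submodule F V) : S.chi (g • u) = S.chi u := by
  rw [chi, chi, h0_smul, h1_smul]

theorem ty_smul (g : S.Aut) (u : Submodule F V) : S.ty (g • u) = S.ty u := by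
  simp only [ty, chi_smul]

theorem pts_smul (g : S.Aut) (u : Submodule F V) : S.Pts (g • u) = S.Pts u := by
  simp only [Pts, ← smul_tr, h0_smul, h1_smul]

theorem inv_B : Inv S.Aut S.B := by
  rintro g σ ⟨h1, h2⟩
  constructor
  · intro u hu
    obtain ⟨u, hu', rfl⟩ := Finset.mem_image.1 hu
    refine ⟨(h1 u hu').1.smul g, ?_⟩
    rw [chi_smul]
    exact (h1 u hu').2
  · intro u hu w hw a
    obtain ⟨u, hu', rfl⟩ := Finset.mem_image.1 hu
    obtain ⟨w, hw', rfl⟩ := Finset.mem_image.1 hw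
    rw [← smul_tr, smul_le_smul_iff, smul_le_smul_iff]
    exact h2 u hu' w hw' a

namespace AutAux

/-- Laurent expansions with coefficients in `L`. -/
noncomputable def expand (S : Setup F V n) (L : Submodule F V) : (ℤ →₀ L) →ₗ[F] V :=
  Finsupp.lsum F fun a => ((S.t ^ a : V ≃ₗ[F] V) : V →ₗ[F] V) ∘ₗ L.subtype

theorem expand_single (L : Submodule F V) (a : ℤ) (x : L) :
    expand S L (Finsupp.single a x) = (S.t ^ a : V ≃ₗ[F] V) x := by
  simp [expand]

theorem zpow_mem_tr {a : ℤ} {x : V} : (S.t ^ a : V ≃ₗ[F] V) x ∈ S.tr a u ↔ x ∈ u := by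
  rw [mem_tr, ← LinearEquiv.mul_apply, ← zpow_add, neg_add_cancel, zpow_zero]
  rfl

theorem expand_bijective (hu : S.Lat u) (hu' : IsCompl u S.M) :
    Function.Bijective (expand S (S.tr 1 u ⊓ S.M)) := by
  constructor
  · rw [injective_iff_map_eq_zero]
    intro f hf
    by_contra h0
    have hne : f.support.Nonempty := Finsupp.support_nonempty_iff.2 h0
    set a := f.support.min' hne with ha
    have hmem : a ∈ f.support := Finset.min'_mem _ _
    have h1 : expand S _ f = ∑ b ∈ f.support, (S.t ^ b : V ≃ₗ[F] V) (f b) := by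
      simp [expand, Finsupp.sum]
    rw [hf, ← Finset.add_sum_erase _ _ hmem] at h1
    have h2 : (S.t ^ a : V ≃ₗ[F] V) (f a) ∈ S.tr a (S.tr 1 S.M) := by
      rw [eq_neg_of_add_eq_zero_left h1.symm, tr_tr]
      refine neg_mem (Submodule.sum_mem _ fun b hb => ?_)
      obtain ⟨hb1, hb2⟩ := Finset.mem_erase.1 hb
      have := Finset.min'_le _ b hb2
      exact S.tr_M_anti (b := b) (by omega) (zpow_mem_tr.2 (f b).2.2)
    have h3 : (f a : V) ∈ S.tr 1 u ⊓ S.M ⊓ S.tr 1 S.M := ⟨(f a).2, zpow_mem_tr.1 h2⟩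
    rw [(hu.isCompl_sections hu').1, Submodule.mem_bot] at h3
    exact Finsupp.mem_support_iff.1 hmem (Subtype.ext h3)
  · have h1 : ∀ a : ℤ, S.tr a (S.tr 1 u ⊓ S.M) ≤ LinearMap.range (expand S (S.tr 1 u ⊓ S.M)) := by
      rintro a _ ⟨x, hx, rfl⟩
      exact ⟨_, expand_single _ a ⟨x, hx⟩⟩
    rw [← LinearMap.range_eq_top, eq_top_iff, ← hu'.sup_eq_top]
    exact sup_le ((hu.eq_iSup hu'.sup_eq_top).le.trans (iSup_le fun i => h1 _))
      ((hu.M_eq_iSup hu'.sup_eq_top).le.trans (iSup_le fun i => h1 _))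

end AutAux

/-- A linear isomorphism between the sections of two trivial bundles extends to an automorphism. -/
theorem exists_aut (hu : S.Lat u) (hw : S.Lat w) (hu' : IsCompl u S.M) (hw' : IsCompl w S.M)
    (φ : ↥(S.tr 1 u ⊓ S.M) ≃ₗ[F] ↥(S.tr 1 w ⊓ S.M)) :
    ∃ g : S.Aut, (∀ x : ↥(S.tr 1 u ⊓ S.M), S.val g (x : V) = (φ x : V)) ∧ g • u = w := by
  let eu := LinearEquiv.ofBijective _ (expand_bijective hu hu')
  let ew := LinearEquiv.ofBijective _ (expand_bijective hw hw')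
  let g : V ≃ₗ[F] V := eu.symm ≪≫ₗ Finsupp.mapRange.linearEquiv φ ≪≫ₗ ew
  have hg : ∀ (a : ℤ) (x : ↥(S.tr 1 u ⊓ S.M)),
      g ((S.t ^ a : V ≃ₗ[F] V) x) = (S.t ^ a : V ≃ₗ[F] V) (φ x) := by
    intro a x
    have h1 : eu.symm ((S.t ^ a : V ≃ₗ[F] V) x) = Finsupp.single a x := by
      rw [LinearEquiv.symm_apply_eq]
      exact (expand_single _ a x).symm
    simp only [g, LinearEquiv.trans_apply, h1, Finsupp.mapRange.linearEquiv_apply,
      Finsupp.mapRange_single]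
    exact expand_single _ a _
  have hcomm : g * S.t = S.t * g := by
    ext v
    obtain ⟨f, rfl⟩ := (expand_bijective hu hu').2 v
    induction f using Finsupp.induction_linear with
    | zero => simp
    | add f f' hf hf' => simp only [map_add, hf, hf']
    | single a x =>
      rw [expand_single, LinearEquiv.mul_apply, LinearEquiv.mul_apply, hg,
        ← LinearEquiv.mul_apply S.t, ← LinearEquiv.mul_apply S.t, ← zpow_one_add, hg]
  have hmap : ∀ a : ℤ, (S.tr a (S.tr 1 u ⊓ S.M)).map (g : V →ₗ[F] V) =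
      S.tr a (S.tr 1 w ⊓ S.M) := by
    intro a
    refine le_antisymm ?_ ?_
    · rintro _ ⟨_, ⟨x, hx, rfl⟩, rfl⟩
      exact ⟨φ ⟨x, hx⟩, (φ ⟨x, hx⟩).2, (hg a ⟨x, hx⟩).symm⟩
    · rintro _ ⟨y, hy, rfl⟩
      refine ⟨_, ⟨φ.symm ⟨y, hy⟩, (φ.symm ⟨y, hy⟩).2, rfl⟩, (hg a _).trans ?_⟩
      rw [LinearEquiv.apply_symm_apply]
      rfl
  have hM : S.M.map (g : V →ₗ[F] V) = S.M := by
    conv_lhs => rw [hu.M_eq_iSup hu'.sup_eq_top, Submodule.map_iSup]
    simp only [hmap]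
    exact (hw.M_eq_iSup hw'.sup_eq_top).symm
  refine ⟨⟨g, hcomm, fun v => ?_⟩, fun x => show g x = φ x by simpa using hg 0 x, ?_⟩
  · constructor
    · intro h
      rw [← hM] at h
      obtain ⟨x, hx, e⟩ := h
      rwa [← g.injective e]
    · intro h
      rw [← hM]
      exact ⟨v, h, rfl⟩
  · change u.map (g : V →ₗ[F] V) = w
    conv_lhs => rw [hu.eq_iSup hu'.sup_eq_top, Submodule.map_iSup]
    simp only [hmap]
    exact (hw.eq_iSup hw'.sup_eq_top).symm

instance (k : ℕ) : (S.N k).Normal := by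
  refine ⟨fun g hg h v hv => ?_⟩
  have h1 := hg (S.val h⁻¹ v) ((val_mem_M _ _).2 hv)
  have h2 : S.val h (S.val h⁻¹ v) = v := by
    rw [← LinearEquiv.mul_apply, ← map_mul, mul_inv_cancel, map_one]
    rfl
  rw [← mem_smul h, smul_tr, smul_M, map_sub, h2] at h1
  rw [map_mul, map_mul]
  exact h1

theorem N_anti {k k' : ℕ} (h : k ≤ k') : S.N k' ≤ S.N k :=
  fun _ hg v hv => S.tr_M_anti (by exact_mod_cast h) (hg v hv)

end Setup

end Crest.Agent.R66
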