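import Crest.Agent.R66.Chain

set_option autoImplicit false

namespace Crest.Agent.R66

open Finset

variable {V : Type} [DecidableEq V] {K : Set (Finset V)} {b : ℕ}

namespace MorseAux

lemma f2_eq : ∀ {a c : F2}, (a ≠ 0 ↔ c ≠ 0) → a = c := by decide

lemma eq_add_of_add_eq {x y z : Ch V} (h : x + y = z) : x = z + y := by
  rw [← h, add_assoc, ch_add_self, add_zero]

lemma star_apply (u : V) (x : Ch V) (σ : Finset V) :
    cone u (lkc u x) σ = if u ∈ σ then x σ else 0 := by
  refine f2_eq ?_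
  rw [← Finsupp.mem_support_iff, mem_support_cone, mem_support_lkc]
  by_cases h : u ∈ σ
  · simp [h, insert_erase h]
  · simp [h]

lemma card_support_sum_le {ι : Type} (U : Finset ι) (y : ι → Ch V) {R : ℕ}
    (h : ∀ u ∈ U, (y u).support.card ≤ R) : (∑ u ∈ U, y u).support.card ≤ U.card * R := by
  classical
  induction U using Finset.induction_on with
  | empty => simp
  | insert a U ha ih =>
    rw [sum_insert ha, card_insert_of_notMem ha, add_mul, one_mul, add_comm (U.card * R)]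
    exact (card_support_add_le _ _).trans
      (add_le_add (h a (mem_insert_self _ _)) (ih fun u hu => h u (mem_insert_of_mem hu)))

lemma lc_bd_single (h : Finset V → Ch V) (ρ : Finset V) :
    Finsupp.linearCombination F2 h (bd (Finsupp.single ρ 1)) = ∑ v ∈ ρ, h (ρ.erase v) := by
  simp [bd_single]

end MorseAux

open MorseAux

/-- Pushing a cycle down to height zero. -/
theorem morse (hK : Down K) (δ : V → ℕ)
    (H : ∀ u, 0 < δ u → ∀ z ∈ Cb (lk K {u}) b, bd z = 0 →
      (∀ σ ∈ z.support, ∀ w ∈ σ, δ w ≤ δ u) →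
      ∃ y ∈ Cb (lk K {u}) (b + 1), bd y = z ∧
        ∀ σ ∈ y.support, ∀ w ∈ σ, δ w < δ u ∨ ∃ τ ∈ z.support, w ∈ τ)
    {x : Ch V} (hx : x ∈ Cb K (b + 1)) (hbd : bd x = 0) :
    ∃ z ∈ Cb K (b + 2), ∀ σ ∈ (x + bd z).support, ∀ w ∈ σ, δ w = 0 := by
  have key : ∀ (m : ℕ) (x : Ch V), x ∈ Cb K (b + 1) → bd x = 0 →
      (∀ σ ∈ x.support, ∀ w ∈ σ, δ w ≤ m) →
      ∃ z ∈ Cb K (b + 2), ∀ σ ∈ (x + bd z).support, ∀ w ∈ σ, δ w = 0 := by
    intro m
    induction m with
    | zero =>
      intro x _ _ h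
      exact ⟨0, zero_mem _, fun σ hσ w hw => Nat.le_zero.1 (h σ (by simpa using hσ) w hw)⟩
    | succ m ih =>
      have key2 : ∀ (S : Finset V) (x : Ch V), x ∈ Cb K (b + 1) → bd x = 0 →
          (∀ σ ∈ x.support, ∀ w ∈ σ, δ w ≤ m ∨ (δ w = m + 1 ∧ w ∈ S)) →
          ∃ z ∈ Cb K (b + 2), ∀ σ ∈ (x + bd z).support, ∀ w ∈ σ, δ w = 0 := by
        intro S
        induction S using Finset.induction_on with
        | empty =>
          intro x hx hbd h
          exact ih x hx hbd fun σ hσ w hw => (h σ hσ w hw).resolve_right (by simp)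
        | insert u S _ ihS =>
          intro x hx hbd h
          by_cases hu : δ u = m + 1
          · obtain ⟨y, hy, hy1, hy2⟩ := H u (by omega) (lkc u x) (lkc_mem_Cb u hx)
              (by rw [← lkc_bd, hbd, map_zero]) (fun σ hσ w hw => by
                have := h _ (mem_support_lkc.1 hσ).2 w (mem_insert_of_mem hw)
                omega)
            have hs := swap_eq hy1
            obtain ⟨z, hz, hz1⟩ := ihS (off u x + y)
              (add_mem (off_mem_Cb u hx) (Cb_lk_le hK _ hy))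
              (by rw [← hs, map_add, hbd, bd_bd, add_zero]) (fun σ hσ w hw => by
                rcases mem_union.1 (Finsupp.support_add hσ) with h1 | h1
                · obtain ⟨h2, h3⟩ := mem_support_off.1 h1
                  refine (h σ h2 w hw).imp_right fun h4 => ⟨h4.1, ?_⟩
                  exact (mem_insert.1 h4.2).resolve_left fun e => h3 (e ▸ hw)
                · rcases hy2 σ h1 w hw with h2 | ⟨τ, h2, h3⟩
                  · left; omega
                  · obtain ⟨h4, h5⟩ := mem_support_lkc.1 h2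
                    refine (h _ h5 w (mem_insert_of_mem h3)).imp_right fun h6 => ⟨h6.1, ?_⟩
                    exact (mem_insert.1 h6.2).resolve_left fun e => h4 (e ▸ h3))
            refine ⟨cone u y + z, add_mem (cone_mem_Cb_of_lk hy) hz, ?_⟩
            rwa [map_add, ← add_assoc, hs]
          · refine ihS x hx hbd fun σ hσ w hw => (h σ hσ w hw).imp_right fun h4 => ⟨h4.1, ?_⟩
            exact (mem_insert.1 h4.2).resolve_left fun e => hu (e ▸ h4.1)
      intro x hx hbd h
      refine key2 (x.support.biUnion id) x hx hbd fun σ hσ w hw => ?_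
      have := h σ hσ w hw
      by_cases h1 : δ w ≤ m
      · exact Or.inl h1
      · exact Or.inr ⟨by omega, mem_biUnion.2 ⟨σ, hσ, hw⟩⟩
  exact key ((x.support.biUnion id).sup δ) x hx hbd fun σ hσ w hw =>
    le_sup (f := δ) (mem_biUnion.2 ⟨σ, hσ, hw⟩)

/-- Removing, with control of sizes, all vertices of a set `T` that meets each face at most once. -/
theorem round (hK : Down K) (T : Set V) (hT : ∀ σ ∈ K, ∀ u ∈ σ, ∀ w ∈ σ, u ∈ T → w ∈ T → u = w)
    (Q : Finset V → Prop) {s R : ℕ} {x : Ch V} (hx : x ∈ Cb K (b + 1)) (hbd : bd x = 0)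
    (hs : x.support.card ≤ s)
    (H : ∀ u ∈ T, (∃ σ ∈ x.support, u ∈ σ) → ∃ y ∈ Cb (lk K {u}) (b + 1), bd y = lkc u x ∧
      y.support.card ≤ R ∧ ∀ σ ∈ y.support, Q σ) :
    ∃ z ∈ Cb K (b + 2), z.support.card ≤ s * R ∧ (x + bd z).support.card ≤ s + s * R ∧
      ∀ σ ∈ (x + bd z).support, (∀ w ∈ σ, w ∉ T) ∧ (σ ∈ x.support ∨ Q σ) := by
  classical
  have _ := hK
  have _ := hbd
  set U := (x.support.biUnion id).filter (· ∈ T) with hUdef
  have hU : ∀ u, u ∈ U ↔ u ∈ T ∧ ∃ σ ∈ x.support, u ∈ σ := fun u => by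
    simp only [hUdef, mem_filter, mem_biUnion, id, and_comm]
  choose! y hy hy1 hy2 hy3 using H
  have hxK : ∀ σ ∈ x.support, σ ∈ K := fun σ hσ => (mem_Cb.1 hx σ hσ).1
  have hcard : U.card ≤ s := by
    have h : ∀ u ∈ U, ∃ σ ∈ x.support, u ∈ σ := fun u hu => ((hU u).1 hu).2
    choose! f hf hf' using h
    refine (card_le_card_of_injOn f (fun u hu => hf u hu) fun u hu u' hu' e => ?_).trans hs
    exact hT _ (hxK _ (hf u hu)) u (hf' u hu) u' (e ▸ hf' u' hu') ((hU u).1 hu).1 ((hU u').1 hu').1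
  have hw : ∀ σ ∈ (x + ∑ u ∈ U, cone u (lkc u x)).support, σ ∈ x.support ∧ ∀ w ∈ σ, w ∉ T := by
    intro σ hσ
    rw [Finsupp.mem_support_iff, Finsupp.add_apply, Finsupp.finsetSum_apply] at hσ
    simp only [star_apply] at hσ
    have h1 : σ ∈ x.support := by
      rw [Finsupp.mem_support_iff]
      intro h0
      simp [h0] at hσ
    refine ⟨h1, fun w hw hwT => hσ ?_⟩
    rw [sum_eq_single w, if_pos hw, CharTwo.add_self_eq_zero]
    · intro u hu hne
      exact if_neg fun h => hne (hT σ (hxK σ h1) u h w hw ((hU u).1 hu).1 hwT)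
    · intro h
      exact absurd ((hU w).2 ⟨hwT, σ, h1, hw⟩) h
  have heq : x + bd (∑ u ∈ U, cone u (y u)) =
      (x + ∑ u ∈ U, cone u (lkc u x)) + ∑ u ∈ U, y u := by
    rw [map_sum, add_assoc, ← sum_add_distrib]
    congr 1
    refine sum_congr rfl fun u hu => ?_
    rw [eq_add_of_add_eq (bd_cone u (y u)), hy1 u ((hU u).1 hu).1 ((hU u).1 hu).2, add_comm]
  have hR : U.card * R ≤ s * R := Nat.mul_le_mul_right _ hcard
  refine ⟨∑ u ∈ U, cone u (y u), Submodule.sum_mem _ fun u hu =>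
    cone_mem_Cb_of_lk (hy u ((hU u).1 hu).1 ((hU u).1 hu).2), ?_, ?_, ?_⟩
  · exact (card_support_sum_le U _ fun u hu => (card_support_cone_le u _).trans
      (hy2 u ((hU u).1 hu).1 ((hU u).1 hu).2)).trans hR
  · rw [heq]
    refine (card_support_add_le _ _).trans (add_le_add ?_ ?_)
    · exact (card_le_card fun σ hσ => (hw σ hσ).1).trans hs
    · exact (card_support_sum_le U _ fun u hu =>
        hy2 u ((hU u).1 hu).1 ((hU u).1 hu).2).trans hR
  · rw [heq]
    intro σ hσ
    rcases mem_union.1 (Finsupp.support_add hσ) with h1 | h1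
    · exact ⟨(hw σ h1).2, Or.inl (hw σ h1).1⟩
    · obtain ⟨u, hu, h2⟩ := mem_biUnion.1 (Finsupp.support_finsetSum h1)
      obtain ⟨h3, h4⟩ := (hU u).1 hu
      refine ⟨fun w hw hwT => ?_, Or.inr (hy3 u h3 h4 σ h2)⟩
      obtain ⟨h5, h6⟩ := (mem_Cb.1 (hy u h3 h4) σ h2).1
      have := hT _ h6 w (mem_union_left _ hw) u (mem_union_right _ (mem_singleton_self u)) hwT h3
      exact disjoint_singleton_right.1 h5 (this ▸ hw)

theorem Fill.mono {s s' R R' : ℕ} (h : Fill K b s R) (hs : s' ≤ s) (hR : R ≤ R') :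
    Fill K b s' R' := by
  intro x hx h0 h1
  obtain ⟨y, hy, h2, h3⟩ := h x hx h0 (h1.trans hs)
  exact ⟨y, hy, h2, h3.trans hR⟩

theorem Cone.mono {c c' R R' : ℕ} (h : Cone K c R) (hc : c' ≤ c) (hR : R ≤ R') : Cone K c' R' := by
  obtain ⟨f, hf⟩ := h
  refine ⟨f, fun ρ hρ h1 => ?_⟩
  obtain ⟨h2, h3, h4⟩ := hf ρ hρ (h1.trans_le hc)
  exact ⟨h2, h3.trans hR, h4⟩

theorem Cone.sEx {c R : ℕ} (h : Cone K c R) (hK : Down K) (hb : b < c) : SEx K b := by
  have _ := hK
  obtain ⟨f, hf⟩ := h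
  have key : ∀ x ∈ Cb K b, Finsupp.linearCombination F2 f x ∈ Cb K (b + 1) ∧
      bd (Finsupp.linearCombination F2 f x) + Finsupp.linearCombination F2 f (bd x) = x := by
    intro x hx
    have hx' : x ∈ Submodule.span F2
        ((fun σ => Finsupp.single σ (1 : F2)) '' {σ | σ ∈ K ∧ σ.card = b}) := by
      rw [← Finsupp.supported_eq_span_single]; exact hx
    clear hx
    induction hx' using Submodule.span_induction with
    | mem x hx =>
      obtain ⟨σ, ⟨h1, rfl⟩, rfl⟩ := hx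
      obtain ⟨h2, -, h4⟩ := hf σ h1 hb
      rw [Finsupp.linearCombination_single, one_smul]
      exact ⟨h2, h4⟩
    | zero => simp
    | add x y _ _ h1 h2 =>
      simp only [map_add]
      exact ⟨add_mem h1.1 h2.1, by rw [add_add_add_comm, h1.2, h2.2]⟩
    | smul a x _ h1 =>
      simp only [map_smul]
      exact ⟨Submodule.smul_mem _ _ h1.1, by rw [← smul_add, h1.2]⟩
  intro x hx h0
  obtain ⟨h1, h2⟩ := key x hx
  rw [h0, map_zero, add_zero] at h2
  exact ⟨_, h1, h2⟩

/-- Bounded fillings give a bounded contraction. -/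
theorem cone_of_fill (c : ℕ) (φ : ℕ → ℕ) : ∃ s R : ℕ, ∀ (V : Type) [DecidableEq V]
    (K : Set (Finset V)), Down K → (∀ b < c, ∀ s' ≤ s, Fill K b s' (φ s')) → Cone K c R := by
  induction c with
  | zero => exact ⟨0, 0, fun V _ K _ _ => ⟨0, fun ρ _ h => absurd h (Nat.not_lt_zero _)⟩⟩
  | succ c ih =>
    obtain ⟨s, R, ih⟩ := ih
    refine ⟨max s (1 + c * R), max R (φ (1 + c * R)), fun V _ K hK hF => ?_⟩
    obtain ⟨h, hh⟩ := ih V K hK fun b hb s' hs' =>
      hF b (by omega) s' (hs'.trans (le_max_left _ _))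
    have hfill : ∀ ρ ∈ K, ρ.card = c → ∃ y ∈ Cb K (c + 1),
        bd y = Finsupp.single ρ 1 + ∑ v ∈ ρ, h (ρ.erase v) ∧
          y.support.card ≤ φ (1 + c * R) := by
      intro ρ hρ hc
      have h1 : ∀ v ∈ ρ, (ρ.erase v).card + 1 = c := fun v hv => hc ▸ card_erase_add_one hv
      have h2 := fun v hv => hh (ρ.erase v) (hK ρ hρ _ (erase_subset v ρ))
        (Nat.lt_of_succ_le (h1 v hv).le)
      refine hF c c.lt_succ_self _ (le_max_right _ _) _ (add_mem (single_mem_Cb hρ hc)
        (Submodule.sum_mem _ fun v hv => h1 v hv ▸ (h2 v hv).1)) ?_ ?_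
      · have h3 : ∑ v ∈ ρ, bd (h (ρ.erase v)) = bd (Finsupp.single ρ 1) := by
          rw [sum_congr rfl fun v hv => eq_add_of_add_eq (h2 v hv).2.2, sum_add_distrib,
            ← map_sum, ← map_sum, ← bd_single, bd_bd, map_zero, add_zero]
        rw [map_add, map_sum, h3, ch_add_self]
      · refine (card_support_add_le _ _).trans (add_le_add ?_ ?_)
        · exact (card_le_card Finsupp.support_single_subset).trans (card_singleton _).le
        · exact hc ▸ card_support_sum_le ρ _ fun v hv => (h2 v hv).2.1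
    choose! y hy hy1 hy2 using hfill
    refine ⟨fun ρ => if ρ.card = c then y ρ else h ρ, fun ρ hρ hc => ?_⟩
    have h1 : ∑ v ∈ ρ, (if (ρ.erase v).card = c then y (ρ.erase v) else h (ρ.erase v)) =
        ∑ v ∈ ρ, h (ρ.erase v) := sum_congr rfl fun v hv => if_neg (by
      have := card_erase_add_one hv
      omega)
    rw [lc_bd_single, h1]
    by_cases h2 : ρ.card = c
    · simp only [if_pos h2]
      refine ⟨h2 ▸ hy ρ hρ h2, (hy2 ρ hρ h2).trans (le_max_right _ _), ?_⟩
      rw [hy1 ρ hρ h2, add_assoc, ch_add_self, add_zero]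
    · simp only [if_neg h2]
      obtain ⟨h3, h4, h5⟩ := hh ρ hρ (by omega)
      exact ⟨h3, h4.trans (le_max_left _ _), lc_bd_single h ρ ▸ h5⟩

end Crest.Agent.R66
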