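import Crest.Agent.R66.Lat
import Crest.Agent.R66.Morse

set_option autoImplicit false

namespace Crest.Agent.R66

open Finset

namespace Setup

variable {F V : Type} [Field F] [AddCommGroup V] [Module F V] {n : ℕ} (S : Setup F V n)

namespace Bacyc

variable {S} {u w : Submodule F V}

theorem exists_least (hu : S.Lat u) :
    ∃ a : ℤ, S.L0 ≤ S.tr a u ∧ ∀ c : ℤ, S.L0 ≤ S.tr c u → a ≤ c := by
  refine Int.exists_least_of_bdd (P := fun a => S.L0 ≤ S.tr a u) ⟨-|S.chi u|, fun a ha => ?_⟩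
    ((hu.exists_le_tr S.lat_L0).imp' _ fun _ h => h)
  have h1 := S.lat_L0.chi_mono (hu.tr a) ha
  rw [chi_L0, hu.chi_tr] at h1
  have h2 : (1 : ℤ) ≤ n := by exact_mod_cast S.pos
  have h3 := le_abs_self (S.chi u)
  have h4 := abs_nonneg (S.chi u)
  by_contra hc
  nlinarith

open Classical in
variable (S) in
/-- The smallest translate that contains the base lattice. -/
noncomputable def st (u : Submodule F V) : Submodule F V :=
  if hu : S.Lat u then S.tr (exists_least hu).choose u else S.L0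

theorem st_spec (hu : S.Lat u) : ∃ a : ℤ, st S u = S.tr a u ∧ S.L0 ≤ S.tr a u ∧
    ∀ c : ℤ, S.L0 ≤ S.tr c u → a ≤ c :=
  ⟨_, dif_pos hu, (exists_least hu).choose_spec⟩

theorem lat_st (hu : S.Lat u) : S.Lat (st S u) := by
  obtain ⟨a, h, -⟩ := st_spec hu
  exact h ▸ hu.tr a

theorem le_st (hu : S.Lat u) : S.L0 ≤ st S u := by
  obtain ⟨a, h, h', -⟩ := st_spec hu
  exact h ▸ h'

theorem not_le_st (hu : S.Lat u) : ¬S.L0 ≤ S.tr (-1) (st S u) := by
  obtain ⟨a, h, -, h'⟩ := st_spec hu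
  rw [h, tr_tr]
  intro hc
  have := h' _ hc
  omega

theorem st_eq (hu : S.Lat u) {a : ℤ} (h₁ : S.L0 ≤ S.tr a u) (h₂ : ¬S.L0 ≤ S.tr (-1) (S.tr a u)) :
    st S u = S.tr a u := by
  obtain ⟨c, h, h', h''⟩ := st_spec hu
  have h3 := h'' a h₁
  rw [tr_tr] at h₂
  have h4 : a ≤ c := by
    by_contra hc
    exact h₂ (h'.trans (hu.tr_mono (by omega)))
  rw [h, le_antisymm h3 h4]

theorem comp_st (hu : S.Lat u) (hw : S.Lat w) : S.Comp (st S u) (st S w) ↔ S.Comp u w := by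
  obtain ⟨a, h, -⟩ := st_spec hu
  obtain ⟨c, h', -⟩ := st_spec hw
  rw [h, h', comp_tr_left, comp_tr_right]

theorem chi_st_nonneg (hu : S.Lat u) : 0 ≤ S.chi (st S u) := by
  have := S.lat_L0.chi_mono (lat_st hu) (le_st hu)
  rwa [chi_L0] at this

theorem vert_L0 : S.Vert S.L0 :=
  ⟨S.lat_L0, chi_L0.ge, by rw [chi_L0]; exact_mod_cast S.pos⟩

theorem eq_L0 (hu : S.Vert u) (h : S.chi (st S u) ≤ 0) : u = S.L0 := by
  have h1 : S.L0 = st S u := by
    by_contra hne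
    have := S.lat_L0.chi_lt (lat_st hu.1) (lt_of_le_of_ne (le_st hu.1) hne)
    rw [chi_L0] at this
    omega
  obtain ⟨a, h2, -⟩ := st_spec hu.1
  rw [← hu.nm_tr a, ← h2, ← h1]
  simpa [tr_zero] using (vert_L0 (S := S)).nm_tr 0

theorem sup_lt (hu : S.Lat u) (h₁ : S.L0 ≤ u) (h : 0 < S.chi u) : S.tr (-1) u ⊔ S.L0 < u := by
  have h2 : S.tr (-1) u ≤ u := by simpa [tr_zero] using hu.tr_mono (a := -1) (b := 0) (by omega)
  refine lt_of_le_of_ne (sup_le h2 h₁) fun e => ?_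
  have h3 : ∀ k : ℕ, u ≤ S.tr (-k) u ⊔ S.L0 := by
    intro k
    induction k with
    | zero => simp [tr_zero]
    | succ k ih =>
      have h4 := (S.tr_le_tr_iff (-1)).2 ih
      rw [tr_sup, tr_tr] at h4
      have h5 : S.tr (-1) S.L0 ≤ S.L0 := by
        simpa [tr_zero] using S.lat_L0.tr_mono (a := -1) (b := 0) (by omega)
      have h6 : (-1 + -(k : ℤ)) = -((k + 1 : ℕ) : ℤ) := by
        push_cast
        ring
      rw [h6] at h4
      exact e.ge.trans (sup_le (h4.trans (sup_le_sup_left h5 _)) le_sup_right)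
  obtain ⟨k, hk⟩ := S.lat_L0.exists_le_tr hu
  have h4 := (S.tr_le_tr_iff (-k)).2 hk
  rw [tr_tr, neg_add_cancel, tr_zero] at h4
  have h5 := hu.chi_mono S.lat_L0 ((h3 k).trans (sup_le h4 le_rfl))
  rw [chi_L0] at h5
  omega

/-- The lower vertex. -/
theorem exists_lower (hu : S.Vert u) (h : 0 < S.chi (st S u)) :
    ∃ v, S.Vert v ∧ S.chi (st S v) < S.chi (st S u) ∧
      ∀ w, S.Vert w → S.Comp u w → S.chi (st S w) ≤ S.chi (st S u) → S.Comp v w := by
  have hs := lat_st hu.1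
  have hlt := sup_lt hs (le_st hu.1) h
  set u' := S.tr (-1) (st S u) ⊔ S.L0 with hu'
  have e : S.tr 1 (S.tr (-1) (st S u)) = st S u := by rw [tr_tr, add_neg_cancel, tr_zero]
  have hl : S.Lat u' := (hs.tr (-1)).of_between le_sup_left (by rw [e]; exact hlt.le)
  have e' : S.tr (S.chi u' / n) (S.nm u') = u' := by rw [nm, tr_tr, add_neg_cancel, tr_zero]
  have hst : st S (S.nm u') = u' := by
    rw [st_eq hl.vert_nm.1 (a := S.chi u' / n) (by rw [e']; exact le_sup_right), e']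
    rw [e']
    exact fun hc => not_le_st hu.1 (hc.trans ((S.tr_le_tr_iff (-1)).2 hlt.le))
  refine ⟨S.nm u', hl.vert_nm, by rw [hst]; exact hl.chi_lt hs hlt, fun w hw hc hle => ?_⟩
  have hc' := (comp_st hu.1 hw.1).2 hc
  have h1 : st S w ≤ st S u := hc'.symm.le_of_chi (lat_st hw.1) hs hle
  have h2 : S.tr (-1) (st S u) ≤ st S w :=
    (hc' (-1)).resolve_right fun h3 => not_le_st hu.1 ((le_st hw.1).trans h3)
  rw [← comp_st hl.vert_nm.1 hw.1, hst]
  refine hl.comp_of_le (sup_le h2 (le_st hw.1)) (h1.trans ?_)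
  rw [← e]
  exact (S.tr_le_tr_iff 1).2 le_sup_left

theorem fill_L0 {b : ℕ} {x : Ch (Submodule F V)} (hx : x ∈ Cb S.B b) (hbd : bd x = 0)
    (h : ∀ σ ∈ x.support, ∀ w ∈ σ, w = S.L0) : ∃ y ∈ Cb S.B (b + 1), bd y = x := by
  refine ⟨cone S.L0 x, cone_mem_Cb fun σ hσ => ⟨(mem_Cb.1 hx σ hσ).2, fun _ => ?_⟩, ?_⟩
  · have : ∀ w ∈ insert S.L0 σ, w = S.L0 := fun w hw =>
      (Finset.mem_insert.1 hw).elim id (h σ hσ w)
    refine ⟨fun w hw => this w hw ▸ vert_L0, fun w hw w' hw' => ?_⟩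
    rw [this w hw, this w' hw']
    exact S.lat_L0.comp_self
  · have := bd_cone S.L0 x
    rwa [hbd, map_zero, add_zero] at this

end Bacyc

open Bacyc

/-- The building is acyclic. -/
theorem sEx_B (b : ℕ) : SEx S.B b := by
  intro x hx hbd
  rcases b with _ | b
  · refine fill_L0 hx hbd fun σ hσ w hw => ?_
    rw [Finset.card_eq_zero.1 (mem_Cb.1 hx σ hσ).2] at hw
    exact absurd hw (Finset.notMem_empty w)
  refine (morse (down_B (S := S)) (fun u => (S.chi (st S u)).toNat) (b := b) ?_ hx hbd).elim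
    fun z hz => ?_
  swap
  · obtain ⟨hz, hδ⟩ := hz
    have hx' : x + bd z ∈ Cb S.B (b + 1) := add_mem hx (bd_mem_Cb down_B hz)
    obtain ⟨y, hy, hy'⟩ := fill_L0 hx' (by rw [map_add, hbd, bd_bd, add_zero])
      fun σ hσ w hw => eq_L0 ((mem_Cb.1 hx' σ hσ).1.1 w hw) (by
        have := hδ σ hσ w hw
        omega)
    exact ⟨y + z, add_mem hy hz, by rw [map_add, hy', add_assoc, ch_add_self, add_zero]⟩
  intro u hu z hz hbz hle
  by_cases h0 : z = 0
  · exact ⟨0, zero_mem _, by rw [h0, map_zero], by simp⟩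
  obtain ⟨σ₀, hσ₀⟩ := Finsupp.support_nonempty_iff.2 h0
  have hv : S.Vert u := (mem_Cb.1 hz σ₀ hσ₀).1.2.1 u (by simp)
  obtain ⟨v, hv1, hv2, hv3⟩ := exists_lower hv (by omega)
  have hv0 := chi_st_nonneg hv1.1
  refine ⟨cone v z, cone_mem_Cb fun σ hσ => ⟨(mem_Cb.1 hz σ hσ).2, fun _ => ?_⟩, ?_, ?_⟩
  · obtain ⟨hd, hB⟩ := (mem_Cb.1 hz σ hσ).1
    have hc : ∀ w ∈ σ ∪ {u}, S.Comp v w := fun w hw => by
      refine hv3 w (hB.1 w hw) (hB.2 u (by simp) w hw) ?_
      rcases Finset.mem_union.1 hw with hw | hw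
      · have := hle σ hσ w hw
        omega
      · rw [Finset.mem_singleton.1 hw]
    refine ⟨?_, ?_⟩
    · rw [Finset.disjoint_insert_left, Finset.mem_singleton]
      refine ⟨fun e => ?_, hd⟩
      rw [e] at hv2
      exact lt_irrefl _ hv2
    · rw [Finset.insert_union]
      refine ⟨fun w hw => (Finset.mem_insert.1 hw).elim (fun e => e ▸ hv1) (hB.1 w),
        fun w hw w' hw' => ?_⟩
      rcases Finset.mem_insert.1 hw with e | h1 <;> rcases Finset.mem_insert.1 hw' with e' | h2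
      · rw [e, e']
        exact hv1.1.comp_self
      · exact e ▸ hc _ h2
      · exact e' ▸ (hc _ h1).symm
      · exact hB.2 _ h1 _ h2
  · have := bd_cone v z
    rwa [hbz, map_zero, add_zero] at this
  · intro σ hσ w hw
    by_cases e : w = v
    · left
      rw [e]
      omega
    · exact Or.inr ⟨_, (mem_support_cone.1 hσ).2, Finset.mem_erase.2 ⟨e, hw⟩⟩

end Setup

end Crest.Agent.R66
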