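import Crest.Agent.R66.Odd

set_option autoImplicit false

namespace Crest.Agent.R66

open Finset Polynomial

namespace BridgeAux

open LaurentPolynomial

variable {F : Type} [Field F] {n : ℕ}

lemma coeff_T_mul (a : ℤ) (f : F[T;T⁻¹]) (m : ℤ) : (T a * f).coeff m = f.coeff (m - a) := by
  have := AddMonoidAlgebra.coeff_single_mul_add f (1 : F) a (m - a)
  rwa [add_sub_cancel, one_mul] at this

lemma coeff_toL_nat (f : F[X]) (k : ℕ) : (toLaurent f).coeff k = f.coeff k :=
  Finsupp.mapDomain_apply (Nat.castEmbedding (R := ℤ)).injective _ k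

lemma coeff_toL_neg (f : F[X]) {m : ℤ} (hm : m < 0) : (toLaurent f).coeff m = 0 := by
  rw [coeff_toLaurent, Finsupp.mapDomain_of_notMem_range]
  rintro ⟨k, rfl⟩
  simp at hm
  omega

lemma coeff_toL_trunc (f : F[T;T⁻¹]) {m : ℤ} (hm : 0 ≤ m) :
    (toLaurent (trunc f)).coeff m = f.coeff m := by
  lift m to ℕ using hm
  rw [coeff_toL_nat]
  rfl

/-- The unit `T`. -/
noncomputable def tU (F : Type) [Field F] : F[T;T⁻¹]ˣ := (isUnit_T 1).unit

lemma tU_zpow (a : ℤ) : ((tU F ^ a : F[T;T⁻¹]ˣ) : F[T;T⁻¹]) = T a := by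
  have h1 : ((tU F : F[T;T⁻¹]ˣ) : F[T;T⁻¹]) = T 1 := rfl
  have h2 : (((tU F)⁻¹ : F[T;T⁻¹]ˣ) : F[T;T⁻¹]) = T (-1) :=
    Units.inv_eq_of_mul_eq_one_right (by rw [h1, ← T_add]; simp)
  induction a with
  | zero => simp
  | succ i ih => rw [zpow_add_one, Units.val_mul, ih, h1, T_add]
  | pred i ih => rw [zpow_sub_one, Units.val_mul, ih, h2, T_sub]

/-- The shift. -/
noncomputable def sh (F : Type) [Field F] (n : ℕ) :
    (Fin n → F[T;T⁻¹]) ≃ₗ[F] (Fin n → F[T;T⁻¹]) :=
  DistribMulAction.toModuleAut F _ (tU F)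

lemma sh_zpow (a : ℤ) (v : Fin n → F[T;T⁻¹]) : (sh F n ^ a) v = (T a : F[T;T⁻¹]) • v := by
  rw [sh, ← map_zpow, ← tU_zpow]
  rfl

/-- Vectors whose coefficients vanish on a set of exponents. -/
def cut (F : Type) [Field F] (n : ℕ) (P : ℤ → Prop) : Submodule F (Fin n → F[T;T⁻¹]) where
  carrier := {v | ∀ i m, P m → (v i).coeff m = 0}
  add_mem' := by
    intro a b ha hb i m hm
    simp [ha i m hm, hb i m hm]
  zero_mem' := by
    intro i m _
    simp
  smul_mem' := by
    intro c a ha i m hm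
    simp [ha i m hm]

lemma mem_cut {P : ℤ → Prop} {v : Fin n → F[T;T⁻¹]} :
    v ∈ cut F n P ↔ ∀ i m, P m → (v i).coeff m = 0 := Iff.rfl

lemma mem_map_cut {P : ℤ → Prop} (a : ℤ) {v : Fin n → F[T;T⁻¹]} :
    v ∈ (cut F n P).map ((sh F n ^ a : _ ≃ₗ[F] _) : _ →ₗ[F] _) ↔
      ∀ i m, P (m - a) → (v i).coeff m = 0 := by
  rw [Submodule.mem_map_equiv]
  have h1 : (sh F n ^ a).symm v = (T (-a) : F[T;T⁻¹]) • v := by
    rw [← sh_zpow, zpow_neg]
    rfl
  rw [h1, mem_cut]
  simp only [Pi.smul_apply, smul_eq_mul, coeff_T_mul]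
  refine forall_congr' fun i => ⟨fun h m hm => ?_, fun h m hm => ?_⟩
  · simpa using h _ hm
  · exact h _ (by simpa using hm)

lemma mem_map_cut_one {P : ℤ → Prop} {v : Fin n → F[T;T⁻¹]} :
    v ∈ (cut F n P).map (sh F n : _ →ₗ[F] _) ↔ ∀ i m, P (m - 1) → (v i).coeff m = 0 := by
  rw [← mem_map_cut, zpow_one]

lemma toL_mem (w : Fin n → F[X]) : (fun i => toLaurent (w i)) ∈ cut F n (· < 0) :=
  fun i _ hm => coeff_toL_neg (w i) hm

lemma eq_toL {v : Fin n → F[T;T⁻¹]} (hv : v ∈ cut F n (· < 0)) :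
    v = fun i => toLaurent (trunc (v i)) := by
  funext i
  ext m
  rcases lt_or_ge m 0 with h | h
  · rw [hv i m h, coeff_toL_neg _ h]
  · rw [coeff_toL_trunc _ h]

lemma exists_bound (v : Fin n → F[T;T⁻¹]) :
    ∃ a : ℕ, ∀ i m, a ≤ m.natAbs → (v i).coeff m = 0 := by
  refine ⟨(univ.biUnion fun i => (v i).coeff.support).sup Int.natAbs + 1, fun i m hm => ?_⟩
  by_contra h
  have := le_sup (f := Int.natAbs) (mem_biUnion.2 ⟨i, mem_univ i, Finsupp.mem_support_iff.2 h⟩ :
    m ∈ univ.biUnion fun i => (v i).coeff.support)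
  omega

lemma finrank_cut : Module.finrank F (cut F n (· ≠ 0)) = n := by
  let φ : (Fin n → F) →ₗ[F] (Fin n → F[T;T⁻¹]) :=
    LinearMap.compLeft (Algebra.linearMap F F[T;T⁻¹]) (Fin n)
  have h0 : ∀ c i, φ c i = LaurentPolynomial.C (c i) := fun _ _ => rfl
  have h1 : Function.Injective φ := by
    intro c c' h
    funext i
    have := congrArg (fun v => (v i).coeff 0) h
    simpa [h0] using this
  have h2 : cut F n (· ≠ 0) = LinearMap.range φ := by
    ext v
    constructor
    · intro hv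
      refine ⟨fun i => (v i).coeff 0, ?_⟩
      funext i
      ext m
      rw [h0, C_apply]
      split_ifs with h
      · rw [h]
      · exact (hv i m h).symm
    · rintro ⟨c, rfl⟩ i m hm
      rw [h0, C_apply, if_neg hm]
  rw [h2, LinearMap.finrank_range_of_inj h1]
  simp

/-- The Laurent model. -/
noncomputable def model (F : Type) [Field F] {n : ℕ} (hn : 1 ≤ n) :
    Setup F (Fin n → F[T;T⁻¹]) n where
  t := sh F n
  M := cut F n (· < 0)
  L0 := cut F n (0 ≤ ·)
  pos := hn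
  tM := fun _ hv i m hm => mem_map_cut_one.1 hv i m (by omega)
  tL := fun _ hv => mem_map_cut_one.2 fun i m hm => hv i m (by omega)
  compl := by
    constructor
    · rw [Submodule.disjoint_def]
      intro v h1 h2
      funext i
      ext m
      rcases lt_or_ge m 0 with h | h
      · exact h2 i m h
      · exact h1 i m h
    · rw [codisjoint_iff, eq_top_iff]
      intro v _
      refine Submodule.mem_sup.2 ⟨v - fun i => toLaurent (trunc (v i)), fun i m hm => ?_, _,
        toL_mem _, sub_add_cancel _ _⟩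
      simp [-coeff_toLaurent, coeff_toL_trunc _ hm]
  exhL := fun v => by
    obtain ⟨a, ha⟩ := exists_bound v
    refine ⟨a, ?_⟩
    rw [← zpow_natCast]
    exact (mem_map_cut _).2 fun i m hm => ha i m (by omega)
  exhM := fun v => by
    obtain ⟨a, ha⟩ := exists_bound v
    refine ⟨a, fun i m hm => ?_⟩
    rw [← zpow_natCast, sh_zpow, Pi.smul_apply, smul_eq_mul, coeff_T_mul]
    exact ha i _ (by omega)
  fin := by
    have : (cut F n (0 ≤ ·)).map (sh F n : _ →ₗ[F] _) ⊓ cut F n (· < 0) = cut F n (· ≠ 0) := by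
      ext v
      rw [Submodule.mem_inf, mem_map_cut_one, mem_cut, mem_cut]
      refine ⟨fun h i m hm => ?_, fun h => ⟨fun i m hm => h i m (by omega),
        fun i m hm => h i m (by omega)⟩⟩
      rcases lt_or_ge m 0 with h1 | h1
      · exact h.2 i m h1
      · exact h.1 i m (by omega)
    rw [this, finrank_cut]

/-- The action of polynomial matrices. -/
noncomputable def act (F : Type) [Field F] (n : ℕ) :
    GL (Fin n) F[X] →* ((Fin n → F[T;T⁻¹]) ≃ₗ[F] (Fin n → F[T;T⁻¹])) :=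
  (DistribMulAction.toModuleAut F _).comp (Matrix.GeneralLinearGroup.map toLaurent)

lemma act_apply (g : GL (Fin n) F[X]) (v : Fin n → F[T;T⁻¹]) :
    act F n g v = ((g : Matrix (Fin n) (Fin n) F[X]).map toLaurent).mulVec v := rfl

lemma act_toL (g : GL (Fin n) F[X]) (w : Fin n → F[X]) :
    act F n g (fun i => toLaurent (w i)) = fun i => toLaurent ((g • w) i) := by
  funext i
  exact (RingHom.map_mulVec toLaurent _ w i).symm

lemma act_mem {g : GL (Fin n) F[X]} {v : Fin n → F[T;T⁻¹]} (hv : v ∈ cut F n (· < 0)) :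
    act F n g v ∈ cut F n (· < 0) := by
  rw [eq_toL hv, act_toL]
  exact toL_mem _

lemma mat_ext {A B : Matrix (Fin n) (Fin n) F[X]}
    (h : ∀ v, (A.map toLaurent).mulVec v = (B.map toLaurent).mulVec v) : A = B :=
  Matrix.map_injective toLaurent_injective (Matrix.mulVec_injective (funext h))

lemma exists_mat (ψ : (Fin n → F[T;T⁻¹]) ≃ₗ[F] (Fin n → F[T;T⁻¹]))
    (h1 : ψ * sh F n = sh F n * ψ) (h2 : ∀ v ∈ cut F n (· < 0), ψ v ∈ cut F n (· < 0)) :
    ∃ A : Matrix (Fin n) (Fin n) F[X], ∀ v, ψ v = (A.map toLaurent).mulVec v := by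
  have h3 : ∀ (f : F[T;T⁻¹]) v, ψ (f • v) = f • ψ v := by
    intro f v
    induction f using LaurentPolynomial.induction_on' with
    | add p q hp hq => rw [add_smul, map_add, hp, hq, add_smul]
    | C_mul_T m a =>
      rw [← LaurentPolynomial.smul_eq_C_mul, smul_assoc, smul_assoc, map_smul, ← sh_zpow, ← sh_zpow]
      exact congrArg (fun φ => a • φ v) (Commute.zpow_right h1 m).eq
  have h4 : ∀ j, (Pi.single j 1 : Fin n → F[T;T⁻¹]) ∈ cut F n (· < 0) := by
    intro j
    convert toL_mem (Pi.single j (1 : F[X])) using 2 with i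
    simp [Pi.single_apply, apply_ite toLaurent]
  refine ⟨Matrix.of fun i j => trunc (ψ (Pi.single j 1) i), fun v => ?_⟩
  conv_lhs => rw [pi_eq_sum_univ' v]
  funext i
  simp only [map_sum, h3, Finset.sum_apply, Pi.smul_apply, smul_eq_mul, Matrix.mulVec, dotProduct,
    Matrix.map_apply, Matrix.of_apply]
  exact sum_congr rfl fun j _ => by rw [mul_comm, ← congrFun (eq_toL (h2 _ (h4 j))) i]

lemma act_mem_autSub (hn : 1 ≤ n) (g : GL (Fin n) F[X]) : act F n g ∈ (model F hn).autSub := by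
  refine ⟨?_, fun v => ⟨fun h => ?_, act_mem⟩⟩
  · ext1 v
    change act F n g (sh F n v) = sh F n (act F n g v)
    rw [← zpow_one (sh F n), sh_zpow, sh_zpow, act_apply, act_apply, Matrix.mulVec_smul]
  · have := act_mem (g := g⁻¹) h
    rwa [← LinearEquiv.mul_apply, ← map_mul, inv_mul_cancel, map_one] at this

lemma act_bijective (hn : 1 ≤ n) :
    Function.Bijective ((act F n).codRestrict _ (act_mem_autSub hn)) := by
  constructor
  · intro g g' h
    have h1 : act F n g = act F n g' := congrArg Subtype.val h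
    exact Units.ext (mat_ext fun v => by rw [← act_apply, ← act_apply, h1])
  · intro ψ
    obtain ⟨A, hA⟩ := exists_mat ψ.1 ψ.2.1 fun v => (ψ.2.2 v).2
    obtain ⟨B, hB⟩ := exists_mat ψ⁻¹.1 ψ⁻¹.2.1 fun v => (ψ⁻¹.2.2 v).2
    refine ⟨⟨A, B, mat_ext fun v => ?_, mat_ext fun v => ?_⟩, Subtype.ext ?_⟩
    · rw [Matrix.map_mul, ← Matrix.mulVec_mulVec, ← hB, ← hA]
      simp
    · rw [Matrix.map_mul, ← Matrix.mulVec_mulVec, ← hA, ← hB]
      simp
    · ext1 v
      exact (hA v).symm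

end BridgeAux

open BridgeAux in
/-- The model. -/
theorem bridge (F : Type) [Field F] {n : ℕ} (hn : 1 ≤ n) :
    ∃ (V : Type) (_ : AddCommGroup V) (_ : Module F V) (S : Setup F V n)
      (e : GL (Fin n) F[X] ≃* S.Aut), ∀ k g, g ∈ Ncg F n k ↔ e g ∈ S.N k := by
  refine ⟨_, _, _, model F hn, MulEquiv.ofBijective _ (act_bijective hn), fun k g => ?_⟩
  rw [mem_Ncg_iff_smul]
  change _ ↔ ∀ v ∈ cut F n (· < 0), act F n g v - v ∈
    (cut F n (· < 0)).map ((sh F n ^ (k : ℤ) : _ ≃ₗ[F] _) : _ →ₗ[F] _)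
  simp only [mem_map_cut, X_pow_dvd_iff]
  constructor
  · intro h v hv i m hm
    rw [eq_toL hv, act_toL, Pi.sub_apply, ← map_sub]
    rcases lt_or_ge m 0 with h1 | h1
    · exact coeff_toL_neg _ h1
    · lift m to ℕ using h1
      rw [coeff_toL_nat]
      exact h _ i m (by omega)
  · intro h w i d hd
    have := h _ (toL_mem w) i d (by omega)
    rwa [act_toL, Pi.sub_apply, ← map_sub, coeff_toL_nat] at this

end Crest.Agent.R66
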