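import Crest.Agent.R66.Defs

set_option autoImplicit false

namespace Crest.Agent.R66

open Finset

variable {V : Type} [DecidableEq V] {K : Set (Finset V)} {b : ℕ}

theorem ch_add_self (x : Ch V) : x + x = 0 := by
  ext σ
  simp [CharTwo.add_self_eq_zero]

theorem bd_single (σ : Finset V) :
    bd (Finsupp.single σ (1 : F2)) = ∑ v ∈ σ, Finsupp.single (σ.erase v) (1 : F2) := by
  simp [bd]

namespace ChainAux

theorem ch_ind {p : Ch V → Prop} (x : Ch V) (h0 : p 0) (hadd : ∀ x y, p x → p y → p (x + y))
    (h1 : ∀ σ, p (Finsupp.single σ 1)) : p x := by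
  induction x using Finsupp.induction_linear with
  | zero => exact h0
  | add x y hx hy => exact hadd x y hx hy
  | single σ r =>
    have : r = 0 ∨ r = 1 := by revert r; decide
    rcases this with rfl | rfl
    · simpa using h0
    · exact h1 σ

theorem cone_single (v : V) (σ : Finset V) : cone v (Finsupp.single σ (1 : F2)) =
    if v ∈ σ then 0 else Finsupp.single (insert v σ) (1 : F2) := by
  simp [cone]

theorem lkc_single (v : V) (σ : Finset V) : lkc v (Finsupp.single σ (1 : F2)) =
    if v ∈ σ then Finsupp.single (σ.erase v) (1 : F2) else 0 := by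
  simp [lkc]

theorem off_single (v : V) (σ : Finset V) : off v (Finsupp.single σ (1 : F2)) =
    if v ∈ σ then 0 else Finsupp.single σ (1 : F2) := by
  simp [off]

theorem off_apply (v : V) (x : Ch V) (σ : Finset V) :
    off v x σ = if v ∈ σ then 0 else x σ := by
  induction x using ch_ind with
  | h0 => simp
  | hadd x y hx hy => rw [map_add, Finsupp.add_apply, hx, hy]; split_ifs <;> simp
  | h1 τ =>
    rw [off_single]
    by_cases h : τ = σ
    · subst h; split_ifs <;> simp
    · split_ifs <;> simp [Finsupp.single_apply, h]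

theorem lkc_apply (v : V) (x : Ch V) (σ : Finset V) :
    lkc v x σ = if v ∈ σ then 0 else x (insert v σ) := by
  induction x using ch_ind with
  | h0 => simp
  | hadd x y hx hy => rw [map_add, Finsupp.add_apply, hx, hy]; split_ifs <;> simp
  | h1 τ =>
    rw [lkc_single]
    split_ifs with h1 h2 h2
    · rw [Finsupp.single_apply, if_neg]
      rintro rfl
      exact Finset.notMem_erase v τ h2
    · simp only [Finsupp.single_apply]
      congr 1
      apply propext
      constructor
      · rintro rfl
        exact (Finset.insert_erase h1).symm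
      · rintro rfl
        exact Finset.erase_insert h2
    · simp
    · rw [Finsupp.single_apply, if_neg]
      · simp
      · rintro rfl
        exact h1 (Finset.mem_insert_self _ _)

theorem cone_apply (v : V) (x : Ch V) (σ : Finset V) :
    cone v x σ = if v ∈ σ then x (σ.erase v) else 0 := by
  induction x using ch_ind with
  | h0 => simp
  | hadd x y hx hy => rw [map_add, Finsupp.add_apply, hx, hy]; split_ifs <;> simp
  | h1 τ =>
    rw [cone_single]
    split_ifs with h1 h2 h2
    · rw [Finsupp.single_apply, if_neg]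
      · simp
      · rintro rfl
        exact Finset.notMem_erase v σ h1
    · simp
    · simp only [Finsupp.single_apply]
      congr 1
      apply propext
      constructor
      · rintro rfl
        exact (Finset.erase_insert h1).symm
      · rintro rfl
        exact Finset.insert_erase h2
    · rw [Finsupp.single_apply, if_neg]
      rintro rfl
      exact h2 (Finset.mem_insert_self _ _)

/-- A symmetric double sum over ordered pairs of distinct points vanishes in characteristic two. -/
theorem sum_erase_erase {A : Type} [AddCommGroup A] (hA : ∀ a : A, a + a = 0)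
    (g : Finset V → A) (σ : Finset V) :
    ∑ v ∈ σ, ∑ w ∈ σ.erase v, g ((σ.erase v).erase w) = 0 := by
  rw [Finset.sum_sigma']
  refine Finset.sum_involution (fun p _ => ⟨p.2, p.1⟩) ?_ ?_ ?_ ?_
  · rintro ⟨v, w⟩ _
    simp only
    rw [Finset.erase_right_comm (a := w)]
    exact hA _
  · rintro ⟨v, w⟩ hp _ h
    simp only [Finset.mem_sigma, Finset.mem_erase] at hp
    exact hp.2.1 (congrArg Sigma.fst h)
  · rintro ⟨v, w⟩ hp
    simp only [Finset.mem_sigma, Finset.mem_erase] at hp ⊢
    exact ⟨hp.2.2, fun e => hp.2.1 e.symm, hp.1⟩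
  · rintro ⟨v, w⟩ _
    rfl

end ChainAux

open ChainAux

theorem bd_bd (x : Ch V) : bd (bd x) = 0 := by
  induction x using ch_ind with
  | h0 => simp
  | hadd x y hx hy => simp [hx, hy]
  | h1 σ =>
    rw [bd_single, map_sum]
    simp only [bd_single]
    exact sum_erase_erase ch_add_self (fun τ => Finsupp.single τ (1 : F2)) σ

theorem bd_cone (v : V) (x : Ch V) : bd (cone v x) + cone v (bd x) = x := by
  induction x using ch_ind with
  | h0 => simp
  | hadd x y hx hy =>
    simp only [map_add]
    conv_rhs => rw [← hx, ← hy]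
    abel
  | h1 σ =>
    rw [cone_single, bd_single, map_sum]
    simp only [cone_single]
    split_ifs with h
    · rw [map_zero, zero_add, Finset.sum_eq_single_of_mem v h]
      · rw [if_neg (Finset.notMem_erase v σ), Finset.insert_erase h]
      · intro w _ hw
        rw [if_pos (Finset.mem_erase.2 ⟨hw.symm, h⟩)]
    · rw [bd_single, Finset.sum_insert h, Finset.erase_insert h, add_assoc]
      have : ∑ w ∈ σ, (if v ∈ σ.erase w then (0 : Ch V) else
          Finsupp.single (insert v (σ.erase w)) 1) =
          ∑ w ∈ σ, Finsupp.single ((insert v σ).erase w) (1 : F2) := by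
        refine Finset.sum_congr rfl fun w hw => ?_
        rw [if_neg fun h' => h (Finset.mem_of_mem_erase h'),
          Finset.erase_insert_of_ne fun e : v = w => h (e ▸ hw)]
      rw [this, ch_add_self, add_zero]

theorem off_add_cone_lkc (v : V) (x : Ch V) : off v x + cone v (lkc v x) = x := by
  ext σ
  rw [Finsupp.add_apply, off_apply, cone_apply, lkc_apply]
  split_ifs with h1 h2
  · exact absurd h2 (Finset.notMem_erase v σ)
  · rw [zero_add, Finset.insert_erase h1]
  · rw [add_zero]

theorem lkc_bd (v : V) (x : Ch V) : lkc v (bd x) = bd (lkc v x) := by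
  induction x using ch_ind with
  | h0 => simp
  | hadd x y hx hy => simp [hx, hy]
  | h1 σ =>
    rw [lkc_single, bd_single, map_sum]
    simp only [lkc_single]
    split_ifs with h
    · rw [bd_single, ← Finset.add_sum_erase σ _ h, if_neg (Finset.notMem_erase v σ), zero_add]
      refine Finset.sum_congr rfl fun w hw => ?_
      rw [if_pos (Finset.mem_erase.2 ⟨(Finset.ne_of_mem_erase hw).symm, h⟩),
        Finset.erase_right_comm]
    · rw [map_zero]
      exact Finset.sum_eq_zero fun w _ => if_neg fun h' => h (Finset.mem_of_mem_erase h')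

theorem mem_Cb {x : Ch V} : x ∈ Cb K b ↔ ∀ σ ∈ x.support, σ ∈ K ∧ σ.card = b := by
  rw [Cb, Finsupp.mem_supported]
  exact Iff.rfl

theorem single_mem_Cb {σ : Finset V} (h : σ ∈ K) (hb : σ.card = b) :
    Finsupp.single σ (1 : F2) ∈ Cb K b := by
  exact Finsupp.single_mem_supported F2 _ ⟨h, hb⟩

theorem mem_support_off {v : V} {x : Ch V} {σ : Finset V} :
    σ ∈ (off v x).support ↔ σ ∈ x.support ∧ v ∉ σ := by
  rw [Finsupp.mem_support_iff, Finsupp.mem_support_iff, off_apply]
  split_ifs with h <;> simp [h]

theorem mem_support_lkc {v : V} {x : Ch V} {σ : Finset V} :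
    σ ∈ (lkc v x).support ↔ v ∉ σ ∧ insert v σ ∈ x.support := by
  rw [Finsupp.mem_support_iff, Finsupp.mem_support_iff, lkc_apply]
  split_ifs with h <;> simp [h]

theorem mem_support_cone {v : V} {x : Ch V} {σ : Finset V} :
    σ ∈ (cone v x).support ↔ v ∈ σ ∧ σ.erase v ∈ x.support := by
  rw [Finsupp.mem_support_iff, Finsupp.mem_support_iff, cone_apply]
  split_ifs with h <;> simp [h]

theorem exists_of_mem_support_bd {x : Ch V} {σ : Finset V} (h : σ ∈ (bd x).support) :
    ∃ τ ∈ x.support, ∃ v ∈ τ, σ = τ.erase v := by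
  rw [bd, Finsupp.linearCombination_apply, Finsupp.sum] at h
  obtain ⟨τ, hτ, h⟩ := Finset.mem_biUnion.1 (Finsupp.support_finsetSum h)
  obtain ⟨v, hv, h⟩ := Finset.mem_biUnion.1
    (Finsupp.support_finsetSum (Finsupp.support_smul h))
  exact ⟨τ, hτ, v, hv, Finset.mem_singleton.1 (Finsupp.support_single_subset h)⟩

theorem card_support_off_le (v : V) (x : Ch V) : (off v x).support.card ≤ x.support.card := by
  exact Finset.card_le_card fun σ h => (mem_support_off.1 h).1

theorem card_support_lkc_le (v : V) (x : Ch V) : (lkc v x).support.card ≤ x.support.card := by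
  refine Finset.card_le_card_of_injOn (insert v) (fun σ h => (mem_support_lkc.1 h).2) ?_
  intro σ h τ h' e
  have := congrArg (fun s : Finset V => s.erase v) e
  simpa only [Finset.erase_insert (mem_support_lkc.1 h).1,
    Finset.erase_insert (mem_support_lkc.1 h').1] using this

theorem card_support_cone_le (v : V) (x : Ch V) : (cone v x).support.card ≤ x.support.card := by
  refine Finset.card_le_card_of_injOn (fun σ => σ.erase v)
    (fun σ h => (mem_support_cone.1 h).2) ?_
  intro σ h τ h' e
  have := congrArg (insert v) e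
  simpa only [Finset.insert_erase (mem_support_cone.1 h).1,
    Finset.insert_erase (mem_support_cone.1 h').1] using this

theorem card_support_add_le (x y : Ch V) :
    (x + y).support.card ≤ x.support.card + y.support.card := by
  exact (Finset.card_le_card Finsupp.support_add).trans (Finset.card_union_le _ _)

theorem bd_mem_Cb (hK : Down K) {x : Ch V} (hx : x ∈ Cb K (b + 1)) : bd x ∈ Cb K b := by
  rw [mem_Cb] at hx ⊢
  intro σ hσ
  obtain ⟨τ, hτ, v, hv, rfl⟩ := exists_of_mem_support_bd hσ
  obtain ⟨h1, h2⟩ := hx τ hτ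
  exact ⟨hK τ h1 _ (Finset.erase_subset _ _), by rw [Finset.card_erase_of_mem hv, h2]; rfl⟩

theorem off_mem_Cb (v : V) {x : Ch V} (hx : x ∈ Cb K b) : off v x ∈ Cb K b := by
  rw [mem_Cb] at hx ⊢
  exact fun σ hσ => hx σ (mem_support_off.1 hσ).1

theorem lkc_mem_Cb (v : V) {x : Ch V} (hx : x ∈ Cb K (b + 1)) : lkc v x ∈ Cb (lk K {v}) b := by
  rw [mem_Cb] at hx ⊢
  intro σ hσ
  obtain ⟨h1, h2⟩ := mem_support_lkc.1 hσ
  obtain ⟨h3, h4⟩ := hx _ h2
  rw [Finset.card_insert_of_notMem h1] at h4
  refine ⟨⟨Finset.disjoint_singleton_right.2 h1, ?_⟩, by omega⟩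
  rwa [Finset.union_comm, ← Finset.insert_eq]

theorem cone_mem_Cb {v : V} {x : Ch V}
    (hx : ∀ σ ∈ x.support, σ.card = b ∧ (v ∉ σ → insert v σ ∈ K)) : cone v x ∈ Cb K (b + 1) := by
  rw [mem_Cb]
  intro σ hσ
  obtain ⟨h1, h2⟩ := mem_support_cone.1 hσ
  obtain ⟨h3, h4⟩ := hx _ h2
  have h5 := h4 (Finset.notMem_erase v σ)
  rw [Finset.insert_erase h1] at h5
  exact ⟨h5, by rw [← h3, Finset.card_erase_add_one h1]⟩

theorem cone_mem_Cb_of_lk {v : V} {y : Ch V} (hy : y ∈ Cb (lk K {v}) b) :
    cone v y ∈ Cb K (b + 1) := by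
  rw [mem_Cb] at hy
  refine cone_mem_Cb fun σ hσ => ⟨(hy σ hσ).2, fun _ => ?_⟩
  have := (hy σ hσ).1.2
  rwa [Finset.union_comm, ← Finset.insert_eq] at this

theorem Cb_lk_le (hK : Down K) (σ : Finset V) : Cb (lk K σ) b ≤ Cb K b := by
  intro x hx
  rw [mem_Cb] at hx ⊢
  exact fun τ hτ => ⟨hK _ (hx τ hτ).1.2 _ Finset.subset_union_left, (hx τ hτ).2⟩

/-- Replacing the star of `u` in a cycle by a filling of the link cycle. -/
theorem swap_eq {u : V} {x y : Ch V} (hy : bd y = lkc u x) :
    x + bd (cone u y) = off u x + y := by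
  have h1 := bd_cone u y
  have h2 := off_add_cone_lkc u x
  rw [hy] at h1
  calc x + bd (cone u y) = (off u x + cone u (lkc u x)) + bd (cone u y) := by rw [h2]
    _ = off u x + (bd (cone u y) + cone u (lkc u x)) := by abel
    _ = off u x + y := by rw [h1]

theorem Down.lk (hK : Down K) (σ : Finset V) : Down (lk K σ) := by
  rintro ρ ⟨h1, h2⟩ τ hτ
  exact ⟨h1.mono_left hτ, hK _ h2 _ (Finset.union_subset_union hτ le_rfl)⟩

theorem lk_empty (K : Set (Finset V)) : lk K ∅ = K := by
  ext ρ
  simp [lk]

theorem lk_lk (K : Set (Finset V)) {σ τ : Finset V} (h : Disjoint τ σ) :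
    lk (lk K σ) τ = lk K (τ ∪ σ) := by
  ext ρ
  simp only [lk, Set.mem_ofPred_eq, Finset.disjoint_union_left, Finset.disjoint_union_right,
    Finset.union_assoc]
  tauto

theorem pair_bd (f : Finset V → F2) (x : Ch V) :
    Finsupp.linearCombination F2 f (bd x) = Finsupp.linearCombination F2 (cob f) x := by
  induction x using ch_ind with
  | h0 => simp
  | hadd x y hx hy => simp only [map_add, hx, hy]
  | h1 σ =>
    rw [bd_single, map_sum]
    simp [cob]

theorem cob_cob (f : Finset V → F2) : cob (cob f) = 0 := by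
  funext τ
  exact sum_erase_erase CharTwo.add_self_eq_zero f τ

theorem cob_add (f g : Finset V → F2) : cob (f + g) = cob f + cob g := by
  funext τ
  simp [cob, Finset.sum_add_distrib]

/-- A function that is constant along edges of a connected complex is constant. -/
theorem SEx.const (h : SEx K 1) {β : Type} (φ : V → β)
    (hφ : ∀ x y, {x, y} ∈ K → φ x = φ y) {x y : V} (hx : {x} ∈ K) (hy : {y} ∈ K) :
    φ x = φ y := by
  classical
  have hc : bd (Finsupp.single {x} (1 : F2) + Finsupp.single {y} 1) = 0 := by
    rw [map_add, bd_single, bd_single]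
    simp only [Finset.sum_singleton, Finset.erase_singleton]
    exact ch_add_self _
  obtain ⟨z, hz, hz'⟩ := h _ (add_mem (single_mem_Cb hx (Finset.card_singleton x))
    (single_mem_Cb hy (Finset.card_singleton y))) hc
  let f : Finset V → F2 := fun s => ∑ w ∈ s, if φ w = φ x then 1 else 0
  have h1 := pair_bd f z
  have h2 : Finsupp.linearCombination F2 (cob f) z = 0 := by
    rw [Finsupp.linearCombination_apply, Finsupp.sum]
    refine Finset.sum_eq_zero fun τ hτ => ?_
    obtain ⟨h3, h4⟩ := mem_Cb.1 hz τ hτ
    obtain ⟨a, c, hac, rfl⟩ := Finset.card_eq_two.1 h4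
    have h5 : cob f {a, c} = 0 := by
      rw [cob, Finset.sum_pair hac, Finset.erase_insert (by simpa using hac), Finset.pair_comm,
        Finset.erase_insert (by simpa using hac.symm)]
      simp only [f, Finset.sum_singleton, hφ a c h3]
      exact CharTwo.add_self_eq_zero _
    rw [h5, smul_zero]
  rw [hz', h2, map_add] at h1
  simp only [Finsupp.linearCombination_single, one_smul, f, Finset.sum_singleton, if_true] at h1
  by_contra hne
  rw [if_neg fun e => hne e.symm, add_zero] at h1
  exact one_ne_zero h1

end Crest.Agent.R66
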