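import Crest.Agent.R66.Defs

set_option autoImplicit false

namespace Crest.Agent.R66

open Finset

variable {H H' : Type} [Group H] [Group H']

namespace CompAux

theorem odd_nsmul {A : Type} [AddCommGroup A] [Module F2 A] {n : ℕ} (h : Odd n) (x : A) :
    n • x = x := by
  rw [← Nat.cast_smul_eq_nsmul F2, ZMod.natCast_eq_one_iff_odd.2 h, one_smul]

theorem map_mem_I {c c' : Cx H} {a a' : ℕ} (h : c.X a →ₗ[F2] c'.X a')
    (hh : ∀ g x, h (c.ρ a g x) = c'.ρ a' g (h x)) {S : Subgroup H} {x : c.X a}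
    (hx : x ∈ c.I S a) : h x ∈ c'.I S a' := by
  refine (Submodule.span_le (p := (c'.I S a').comap h)).2 ?_ hx
  rintro _ ⟨g, hg, x, rfl⟩
  rw [SetLike.mem_coe, Submodule.mem_comap, map_sub, hh]
  exact Submodule.subset_span ⟨g, hg, _, rfl⟩

end CompAux

theorem perm_single {S : Type} [MulAction H S] (g : H) (s : S) (r : F2) :
    perm H S g (Finsupp.single s r) = Finsupp.single (g • s) r := by
  simp [perm]

/-- Permutation representations on free sets are projective. -/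
theorem lift_perm {S : Type} [MulAction H S] (φ : H' →* H)
    (hfree : ∀ (g : H') (s : S), φ g • s = s → g = 1) : Lift ((perm H S).comp φ) := by
  intro E E' _ _ _ _ τ τ' π f hπ hf hr
  let R : Setoid S := ⟨fun s t => ∃ g : H', φ g • t = s, fun s => ⟨1, by simp⟩,
    fun ⟨g, hg⟩ => ⟨g⁻¹, by rw [← hg, map_inv, inv_smul_smul]⟩,
    fun ⟨g, hg⟩ ⟨g', hg'⟩ => ⟨g * g', by rw [map_mul, mul_smul, hg', hg]⟩⟩
  let r : S → S := fun s => (Quotient.mk R s).out
  have hk : ∀ s, ∃ g : H', φ g • r s = s := fun s => R.symm (Quotient.mk_out (s := R) s)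
  choose k hk using hk
  have hr' : ∀ g s, r (φ g • s) = r s := fun g s =>
    congrArg Quotient.out (Quotient.sound (s := R) ⟨g, rfl⟩)
  have hk' : ∀ g s, k (φ g • s) = g * k s := fun g s => by
    have h1 := hk (φ g • s)
    rw [hr'] at h1
    have h2 := hfree ((g * k s)⁻¹ * k (φ g • s)) (r s) (by
      rw [map_mul, mul_smul, h1, map_inv, inv_smul_eq_iff, map_mul, mul_smul, hk])
    exact (inv_mul_eq_one.1 h2).symm
  choose e he using fun s => hr (Finsupp.single s 1)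
  have hρ : ∀ g s, ((perm H S).comp φ : Representation F2 H' _) g (Finsupp.single s 1) =
      Finsupp.single (φ g • s) 1 := fun g s => perm_single (φ g) s 1
  refine ⟨Finsupp.linearCombination F2 fun s => τ (k s) (e (r s)), fun g x => ?_, fun x => ?_⟩
  · induction x using Finsupp.induction_linear with
    | zero => simp
    | add x y hx hy => simp only [map_add, hx, hy]
    | single s a =>
      rw [← Finsupp.smul_single_one]
      simp only [map_smul, hρ, Finsupp.linearCombination_single, one_smul, hr', hk', map_mul,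
        Module.End.mul_apply]
  · induction x using Finsupp.induction_linear with
    | zero => simp
    | add x y hx hy => simp only [map_add, hx, hy]
    | single s a =>
      rw [← Finsupp.smul_single_one]
      simp only [map_smul, Finsupp.linearCombination_single, one_smul, hπ, he, ← hf, hρ, hk]

/-- Projectivity can be tested on a normal subgroup of odd index. -/
theorem Lift.of_odd {A : Type} [AddCommGroup A] [Module F2 A] {ρ : Representation F2 H A}
    (N : Subgroup H) [N.Normal] (hodd : Odd N.index) (h : Lift (ρ.comp N.subtype)) : Lift ρ := by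
  intro E E' _ _ _ _ τ τ' π f hπ hf hr
  obtain ⟨f', h1, h2⟩ := h E E' (τ.comp N.subtype) (τ'.comp N.subtype) π f
    (fun g x => hπ g x) (fun g x => hf g x) hr
  have : N.FiniteIndex := ⟨fun h0 => by simp [h0] at hodd⟩
  have := Fintype.ofFinite (H ⧸ N)
  let F : H → A →ₗ[F2] E := fun a => τ a ∘ₗ f' ∘ₗ ρ a⁻¹
  have hF : ∀ a b : H, (a : H ⧸ N) = b → F a = F b := fun a b hab => by
    obtain ⟨n, rfl⟩ : ∃ n : N, b = a * n := ⟨⟨a⁻¹ * b, QuotientGroup.eq.1 hab⟩, by simp⟩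
    ext x
    have h3 : f' (ρ (n : H) (ρ (n : H)⁻¹ (ρ a⁻¹ x))) = τ (n : H) (f' (ρ (n : H)⁻¹ (ρ a⁻¹ x))) :=
      h1 n _
    rw [Representation.self_inv_apply] at h3
    simp only [F, LinearMap.comp_apply, mul_inv_rev, map_mul, Module.End.mul_apply, h3]
  refine ⟨∑ q : H ⧸ N, F q.out, fun g x => ?_, fun x => ?_⟩
  · rw [LinearMap.sum_apply, LinearMap.sum_apply, map_sum,
      ← Equiv.sum_comp (MulAction.toPerm g)]
    refine Finset.sum_congr rfl fun q _ => ?_
    rw [hF _ (g * q.out) (by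
      rw [QuotientGroup.out_eq', MulAction.toPerm_apply, ← smul_eq_mul,
        ← MulAction.Quotient.smul_mk, QuotientGroup.out_eq'])]
    simp only [F, LinearMap.comp_apply, mul_inv_rev, map_mul, Module.End.mul_apply,
      Representation.inv_self_apply]
  · rw [LinearMap.sum_apply, map_sum]
    simp only [F, LinearMap.comp_apply, hπ, h2, ← hf, Representation.self_inv_apply]
    rw [Finset.sum_const, Finset.card_univ, ← Nat.card_eq_fintype_card,
      ← Subgroup.index_eq_card, CompAux.odd_nsmul hodd]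

namespace Cx

theorem comap_I (c : Cx H) (φ : H' →* H) (S : Subgroup H') (b : ℕ) :
    (c.comap φ).I S b = c.I (S.map φ) b := by
  refine congrArg (Submodule.span F2) (Set.ext fun z => ⟨?_, ?_⟩)
  · rintro ⟨g, hg, x, rfl⟩
    exact ⟨φ g, ⟨g, hg, rfl⟩, x, rfl⟩
  · rintro ⟨_, ⟨g, hg, rfl⟩, x, rfl⟩
    exact ⟨g, hg, x, rfl⟩

theorem comap_Z (c : Cx H) (φ : H' →* H) (S : Subgroup H') (b : ℕ) :
    (c.comap φ).Z S b = c.Z (S.map φ) b := by
  unfold Z
  rw [comap_I]
  rfl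

theorem comap_Bd (c : Cx H) (φ : H' →* H) (S : Subgroup H') (b : ℕ) :
    (c.comap φ).Bd S b = c.Bd (S.map φ) b := by
  unfold Bd
  rw [comap_I]
  rfl

theorem comap_Van (c : Cx H) (φ : H' →* H) (S : Subgroup H') (b : ℕ) :
    (c.comap φ).Van S b ↔ c.Van (S.map φ) b := by
  unfold Van
  rw [comap_Z, comap_Bd]
  rfl

theorem comap_Ex (c : Cx H) (φ : H' →* H) (b : ℕ) : (c.comap φ).Ex b ↔ c.Ex b := by
  cases b <;> rfl

theorem I_mono (c : Cx H) {S S' : Subgroup H} (h : S ≤ S') (b : ℕ) : c.I S b ≤ c.I S' b := by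
  refine Submodule.span_mono ?_
  rintro _ ⟨g, hg, x, rfl⟩
  exact ⟨g, h hg, x, rfl⟩

theorem Z_mono (c : Cx H) {S S' : Subgroup H} (h : S ≤ S') (b : ℕ) : c.Z S b ≤ c.Z S' b := by
  exact Submodule.comap_mono (c.I_mono h b)

theorem Bd_mono (c : Cx H) {S S' : Subgroup H} (h : S ≤ S') (b : ℕ) : c.Bd S b ≤ c.Bd S' b := by
  exact sup_le_sup_left (c.I_mono h (b + 1)) _

theorem sub_mem_I (c : Cx H) {S : Subgroup H} {g : H} (hg : g ∈ S) (b : ℕ) (x : c.X b) :
    c.ρ b g x - x ∈ c.I S b := by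
  exact Submodule.subset_span ⟨g, hg, x, rfl⟩

theorem d_mem_I (c : Cx H) {S : Subgroup H} {b : ℕ} {x : c.X (b + 1)} (hx : x ∈ c.I S (b + 1)) :
    c.d b x ∈ c.I S b := by
  exact CompAux.map_mem_I (c.d b) (c.d_ρ b) hx

theorem I_zero (c : Cx H) (S : Subgroup H) : c.I S 0 = ⊥ := by
  refine Submodule.span_eq_bot.2 ?_
  rintro _ ⟨g, -, x, rfl⟩
  rw [c.ρ_zero, sub_self]

theorem van_zero (c : Cx H) (h : c.Ex 1) (S : Subgroup H) : c.Van S 0 := by
  intro x hx
  have h1 : c.d 0 x ∈ c.I S 0 := hx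
  rw [I_zero, Submodule.mem_bot] at h1
  exact Submodule.mem_sup_left (h x h1)

theorem ρ_mem_I (c : Cx H) {S S' : Subgroup H} {g : H} (hg : ∀ s ∈ S, g * s * g⁻¹ ∈ S') {b : ℕ}
    {x : c.X b} (hx : x ∈ c.I S b) : c.ρ b g x ∈ c.I S' b := by
  refine (Submodule.span_le (p := (c.I S' b).comap (c.ρ b g))).2 ?_ hx
  rintro _ ⟨s, hs, x, rfl⟩
  have := c.sub_mem_I (hg s hs) b (c.ρ b g x)
  simp only [map_mul, Module.End.mul_apply, Representation.inv_self_apply] at this
  simpa only [SetLike.mem_coe, Submodule.mem_comap, map_sub] using this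

theorem ρ_mem_Z (c : Cx H) {S S' : Subgroup H} {g : H} (hg : ∀ s ∈ S, g * s * g⁻¹ ∈ S') {b : ℕ}
    {x : c.X (b + 1)} (hx : x ∈ c.Z S b) : c.ρ (b + 1) g x ∈ c.Z S' b := by
  change c.d b (c.ρ (b + 1) g x) ∈ c.I S' b
  rw [c.d_ρ]
  exact c.ρ_mem_I hg hx

theorem ρ_mem_Bd (c : Cx H) {S S' : Subgroup H} {g : H} (hg : ∀ s ∈ S, g * s * g⁻¹ ∈ S') {b : ℕ}
    {x : c.X (b + 1)} (hx : x ∈ c.Bd S b) : c.ρ (b + 1) g x ∈ c.Bd S' b := by
  obtain ⟨_, ⟨w, rfl⟩, i, hi, rfl⟩ := Submodule.mem_sup.1 hx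
  rw [map_add, ← c.d_ρ]
  exact Submodule.add_mem_sup ⟨_, rfl⟩ (c.ρ_mem_I hg hi)

/-- Existence of chain maps. -/
theorem exists_isMap (c c' : Cx H) (m : ℕ) (hl : ∀ b, 1 ≤ b → b ≤ m → Lift (c.ρ b))
    (he : ∀ b, b < m → c'.Ex b) : ∃ f, IsMap c c' m f := by
  induction m with
  | zero =>
    refine ⟨fun b => Nat.casesOn (motive := fun b => c.X b →ₗ[F2] c'.X b) b
      (c'.ε.symm.toLinearMap ∘ₗ c.ε.toLinearMap) fun _ => 0, fun b hb g x => ?_,
      fun b hb => absurd hb (by omega), fun x => c'.ε.apply_symm_apply _⟩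
    obtain rfl : b = 0 := by omega
    rw [c.ρ_zero, c'.ρ_zero]
  | succ m ih =>
    obtain ⟨f, hf⟩ := ih (fun b h1 h2 => hl b h1 (by omega)) fun b hb => he b (by omega)
    obtain ⟨f', h1, h2⟩ := hl (m + 1) (by omega) le_rfl _ _ (c'.ρ (m + 1)) (c'.ρ m) (c'.d m)
      (f m ∘ₗ c.d m) (c'.d_ρ m)
      (fun g x => by simp only [LinearMap.comp_apply, c.d_ρ, hf.map_ρ m le_rfl]) fun x => by
        have h3 := he m (by omega)
        cases m with
        | zero => exact h3 _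
        | succ k =>
          refine h3 _ ?_
          rw [LinearMap.comp_apply, hf.map_d k le_rfl, c.dd, map_zero]
    refine ⟨Function.update f (m + 1) f', fun b hb g x => ?_, fun b hb x => ?_, fun x => ?_⟩
    · rcases hb.eq_or_lt with rfl | hb
      · rw [Function.update_self]; exact h1 g x
      · rw [Function.update_of_ne hb.ne]; exact hf.map_ρ b (by omega) g x
    · rw [Function.update_of_ne (show b ≠ m + 1 by omega)]
      rcases hb.eq_or_lt with hb | hb
      · obtain rfl : b = m := by omega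
        rw [Function.update_self]; exact h2 x
      · rw [Function.update_of_ne hb.ne]; exact hf.map_d b (by omega) x
    · rw [Function.update_of_ne (show 0 ≠ m + 1 by omega)]; exact hf.map_ε x

theorem IsMap.mem_I {c c' : Cx H} {m : ℕ} {f : ∀ b, c.X b →ₗ[F2] c'.X b} (hf : IsMap c c' m f)
    {S : Subgroup H} {b : ℕ} (hb : b ≤ m) {x : c.X b} (hx : x ∈ c.I S b) : f b x ∈ c'.I S b := by
  exact CompAux.map_mem_I (f b) (hf.map_ρ b hb) hx

/-- Uniqueness of chain maps up to homotopy, on cycles of the coinvariants. -/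
theorem IsMap.sub_mem_Bd {c c' : Cx H} {b : ℕ} {f g : ∀ b, c.X b →ₗ[F2] c'.X b}
    (hf : IsMap c c' (b + 1) f) (hg : IsMap c c' (b + 1) g)
    (hl : ∀ a, 1 ≤ a → a ≤ b + 1 → Lift (c.ρ a)) (he : ∀ a, a ≤ b + 1 → c'.Ex a)
    {x : c.X (b + 1)} (hx : x ∈ c.Z ⊤ b) : f (b + 1) x - g (b + 1) x ∈ c'.Bd ⊤ b := by
  have key : ∀ a, a ≤ b → ∃ h : c.X a →ₗ[F2] c'.X (a + 1),
      (∀ s x, h (c.ρ a s x) = c'.ρ (a + 1) s (h x)) ∧
      ∀ x, c'.d a (f (a + 1) x - g (a + 1) x - h (c.d a x)) = 0 := by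
    intro a
    induction a with
    | zero =>
      refine fun _ => ⟨0, fun _ _ => by simp, fun x => ?_⟩
      rw [LinearMap.zero_apply, sub_zero, map_sub, hf.map_d 0 (by omega), hg.map_d 0 (by omega),
        sub_eq_zero]
      exact c'.ε.injective (by rw [hf.map_ε, hg.map_ε])
    | succ a ih =>
      intro ha
      obtain ⟨h, h1, h2⟩ := ih (by omega)
      obtain ⟨h', h3, h4⟩ := hl (a + 1) (by omega) (by omega) _ _ (c'.ρ (a + 2)) (c'.ρ (a + 1))
        (c'.d (a + 1)) (f (a + 1) - g (a + 1) - h ∘ₗ c.d a) (c'.d_ρ (a + 1))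
        (fun s x => by
          simp only [LinearMap.sub_apply, LinearMap.comp_apply, c.d_ρ, h1, map_sub,
            hf.map_ρ (a + 1) (by omega), hg.map_ρ (a + 1) (by omega)])
        fun x => he (a + 1) (by omega) _ (h2 x)
      refine ⟨h', h3, fun x => ?_⟩
      rw [map_sub, map_sub, h4, hf.map_d (a + 1) (by omega), hg.map_d (a + 1) (by omega)]
      simp only [LinearMap.sub_apply, LinearMap.comp_apply, c.dd, map_zero, sub_zero, sub_self]
  obtain ⟨h, h1, h2⟩ := key b le_rfl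
  obtain ⟨y, hy⟩ := he (b + 1) le_rfl _ (h2 x)
  rw [← sub_add_cancel (f (b + 1) x - g (b + 1) x) (h (c.d b x)), ← hy]
  exact Submodule.add_mem_sup ⟨_, rfl⟩ (CompAux.map_mem_I h h1 hx)

/-- The comparison theorem. -/
theorem van_of_van {c c' : Cx H} {b : ℕ} (hl : ∀ a, 1 ≤ a → a ≤ b + 1 → Lift (c.ρ a))
    (he : ∀ a, a ≤ b + 1 → c.Ex a) (hl' : ∀ a, 1 ≤ a → a ≤ b + 2 → Lift (c'.ρ a))
    (he' : ∀ a, a ≤ b → c'.Ex a) (h : c'.Van ⊤ b) : c.Van ⊤ b := by
  obtain ⟨f, hf⟩ := exists_isMap c c' (b + 1) hl fun a ha => he' a (by omega)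
  obtain ⟨g, hg⟩ := exists_isMap c' c (b + 2) hl' fun a ha => he a (by omega)
  have hgf : IsMap c c (b + 1) fun a => g a ∘ₗ f a :=
    ⟨fun a ha s x => by simp only [LinearMap.comp_apply, hf.map_ρ a ha, hg.map_ρ a (by omega)],
      fun a ha x => by simp only [LinearMap.comp_apply, hf.map_d a ha, hg.map_d a (by omega)],
      fun x => by simp only [LinearMap.comp_apply, hf.map_ε, hg.map_ε]⟩
  have hid : IsMap c c (b + 1) fun a => LinearMap.id :=
    ⟨fun _ _ _ _ => rfl, fun _ _ _ => rfl, fun _ => rfl⟩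
  intro x hx
  have h1 := hid.sub_mem_Bd hgf hl he hx
  have h2 : f (b + 1) x ∈ c'.Z ⊤ b := by
    change c'.d b (f (b + 1) x) ∈ c'.I ⊤ b
    rw [hf.map_d b le_rfl]
    exact hf.mem_I (by omega) hx
  obtain ⟨_, ⟨w, rfl⟩, i, hi, e⟩ := Submodule.mem_sup.1 (h h2)
  have h3 : g (b + 1) (f (b + 1) x) ∈ c.Bd ⊤ b := by
    rw [← e, map_add, ← hg.map_d (b + 1) le_rfl]
    exact Submodule.add_mem_sup ⟨_, rfl⟩ (hg.mem_I (by omega) hi)
  simpa using add_mem h1 h3

/-- Averaging over a quotient of odd order. -/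
theorem avg (c : Cx H) {N N' : Subgroup H} [N.Normal] (hle : N ≤ N') (hodd : Odd (N.relIndex N'))
    {b : ℕ} (hV : c.Van N' b) {y : c.X (b + 1)} (hy : y ∈ c.Z N b)
    (hinv : ∀ g ∈ N', c.ρ (b + 1) g y - y ∈ c.Bd N b) : y ∈ c.Bd N b := by
  have : (N.subgroupOf N').FiniteIndex := ⟨fun h0 => by simp [Subgroup.relIndex, h0] at hodd⟩
  have := Fintype.ofFinite (N' ⧸ N.subgroupOf N')
  let Nm : ∀ a, c.X a →ₗ[F2] c.X a := fun a =>
    ∑ q : N' ⧸ N.subgroupOf N', c.ρ a (q.out : N')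
  have hNm : ∀ a x, Nm a x = ∑ q : N' ⧸ N.subgroupOf N', c.ρ a (q.out : N') x := fun a x =>
    LinearMap.sum_apply _ _ _
  have hI : c.I N' (b + 1) ≤ (c.I N (b + 1)).comap (Nm (b + 1)) := by
    refine Submodule.span_le.2 ?_
    rintro _ ⟨g, hg, x, rfl⟩
    rw [SetLike.mem_coe, Submodule.mem_comap, map_sub, hNm, hNm,
      ← Equiv.sum_comp (Equiv.mulRight ((⟨g, hg⟩ : N') : N' ⧸ N.subgroupOf N'))
        fun q : N' ⧸ N.subgroupOf N' => c.ρ (b + 1) (q.out : N') x, ← Finset.sum_sub_distrib]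
    refine Submodule.sum_mem _ fun q _ => ?_
    rw [Equiv.coe_mulRight]
    set u : N' := (q * ((⟨g, hg⟩ : N') : N' ⧸ N.subgroupOf N')).out with hu
    have h1 : (u : N' ⧸ N.subgroupOf N') = (q.out * ⟨g, hg⟩ : N') := by
      rw [hu, QuotientGroup.out_eq', QuotientGroup.mk_mul, QuotientGroup.out_eq']
    have h2 : (u : H)⁻¹ * ((q.out : N') * g) ∈ N :=
      Subgroup.mem_subgroupOf.1 (QuotientGroup.eq.1 h1)
    have h3 := c.sub_mem_I (‹N.Normal›.conj_mem _ h2 u) (b + 1) (c.ρ (b + 1) u x)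
    simpa only [mul_inv_cancel_left, map_mul, Module.End.mul_apply,
      Representation.inv_self_apply] using h3
  obtain ⟨_, ⟨w, rfl⟩, i, hi, e⟩ := Submodule.mem_sup.1 (hV (c.Z_mono hle b hy))
  have h1 : Nm (b + 1) y ∈ c.Bd N b := by
    rw [← e, map_add]
    refine Submodule.add_mem_sup ⟨Nm (b + 2) w, ?_⟩ (hI hi)
    simp only [hNm, map_sum, c.d_ρ]
  have h2 : Nm (b + 1) y - y ∈ c.Bd N b := by
    have h3 : ∑ _q : N' ⧸ N.subgroupOf N', y = y := by
      rw [Finset.sum_const, Finset.card_univ, ← Nat.card_eq_fintype_card,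
        ← Subgroup.index_eq_card]
      exact CompAux.odd_nsmul hodd y
    rw [hNm]
    conv => enter [2, 2]; rw [← h3]
    rw [← Finset.sum_sub_distrib]
    exact Submodule.sum_mem _ fun q _ => hinv _ (q.out : N').2
  simpa using sub_mem h1 h2

end Cx

end Crest.Agent.R66
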