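import Crest.Agent.R66.Chain

set_option autoImplicit false

namespace Crest.Agent.R66

open Finset

variable {V : Type} [DecidableEq V] {K : Set (Finset V)} {P : V → Set (ℕ × ℕ)}

theorem Down.gen (hK : Down K) (σ : Finset V) : Down (Gen K P σ) := by
  rintro ρ ⟨h1, h2, h3⟩ τ hτ
  exact ⟨h1.mono_left hτ, hK _ h2 _ (union_subset_union hτ Subset.rfl), fun w hw => h3 w (hτ hw)⟩

theorem mem_gen_empty {ρ : Finset V} : ρ ∈ Gen K P ∅ ↔ ρ ∈ K ∧ ∀ w ∈ ρ, P w = ∅ := by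
  simp [Gen, Reg]

namespace CoreAux

omit [DecidableEq V] in
theorem reg_mono {σ τ : Finset V} (h : σ ⊆ τ) : Reg P σ ⊆ Reg P τ := by
  rintro x ⟨u, hu, y, hy, hxy⟩
  exact ⟨u, h hu, y, hy, hxy⟩

omit [DecidableEq V] in
theorem subset_reg {σ : Finset V} {u : V} (hu : u ∈ σ) : P u ⊆ Reg P σ :=
  fun y hy => ⟨u, hu, y, hy, le_rfl⟩

theorem reg_union {σ τ : Finset V} (h : ∀ w ∈ τ, P w ⊆ Reg P σ) : Reg P (τ ∪ σ) = Reg P σ := by
  refine Set.Subset.antisymm ?_ (reg_mono subset_union_right)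
  rintro x ⟨u, hu, y, hy, hxy⟩
  rcases mem_union.1 hu with hu | hu
  · obtain ⟨u', hu', z, hz, hyz⟩ := h u hu hy
    exact ⟨u', hu', z, hz, hxy.trans hyz⟩
  · exact ⟨u, hu, y, hy, hxy⟩

omit [DecidableEq V] in
theorem reg_finite {σ : Finset V} (h : ∀ u ∈ σ, (P u).Finite) : (Reg P σ).Finite := by
  have : Reg P σ = ⋃ u ∈ (σ : Set V), ⋃ y ∈ P u, Set.Iic y := by
    ext x; simp [Reg]
  rw [this]
  exact σ.finite_toSet.biUnion fun u hu => (h u hu).biUnion fun y _ => Set.finite_Iic y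

open Classical in
/-- The vertices that own a corner of the region. -/
noncomputable def cor (P : V → Set (ℕ × ℕ)) (τ : Finset V) : Finset V :=
  τ.filter fun w => ∃ y ∈ P w, Maximal (· ∈ Reg P τ) y

omit [DecidableEq V] in
theorem mem_cor {τ : Finset V} {w : V} :
    w ∈ cor P τ ↔ w ∈ τ ∧ ∃ y ∈ P w, Maximal (· ∈ Reg P τ) y := by
  simp [cor]

omit [DecidableEq V] in
theorem cor_subset (τ : Finset V) : cor P τ ⊆ τ := fun _ h => (mem_cor.1 h).1

omit [DecidableEq V] in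
theorem owner {τ : Finset V} {y : ℕ × ℕ} (hy : Maximal (· ∈ Reg P τ) y) : ∃ u ∈ τ, y ∈ P u := by
  obtain ⟨u, hu, z, hz, hyz⟩ := hy.prop
  exact ⟨u, hu, by rwa [le_antisymm hyz (hy.le_of_ge (subset_reg hu hz) hyz)]⟩

omit [DecidableEq V] in
theorem reg_cor {τ : Finset V} (h : ∀ u ∈ τ, (P u).Finite) : Reg P (cor P τ) = Reg P τ := by
  refine Set.Subset.antisymm (reg_mono (cor_subset τ)) fun x hx => ?_
  obtain ⟨y, hxy, hy⟩ := (reg_finite h).exists_le_maximal hx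
  obtain ⟨u, hu, hyu⟩ := owner hy
  exact ⟨u, mem_cor.2 ⟨hu, y, hyu, hy⟩, y, hyu, hxy⟩

omit [DecidableEq V] in
theorem reg_between {τ τ' : Finset V} (h : ∀ u ∈ τ, (P u).Finite) (h1 : cor P τ ⊆ τ')
    (h2 : τ' ⊆ τ) : Reg P τ' = Reg P τ :=
  Set.Subset.antisymm (reg_mono h2) (by rw [← reg_cor h]; exact reg_mono h1)

omit [DecidableEq V] in
theorem cor_between {τ τ' : Finset V} (h : ∀ u ∈ τ, (P u).Finite) (h1 : cor P τ ⊆ τ')
    (h2 : τ' ⊆ τ) : cor P τ' = cor P τ := by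
  ext w
  rw [mem_cor, reg_between h h1 h2]
  exact ⟨fun hw => mem_cor.2 ⟨h2 hw.1, hw.2⟩, fun hw => ⟨h1 hw, (mem_cor.1 hw).2⟩⟩

theorem lev_erase {τ : Finset V} (h : ∀ u ∈ τ, (P u).Finite)
    (hd : ∀ u ∈ τ, ∀ w ∈ τ, u ≠ w → Disjoint (P u) (P w)) {w : V} (hw : w ∈ cor P τ) :
    (Reg P (τ.erase w)).ncard < (Reg P τ).ncard := by
  refine Set.ncard_lt_ncard ⟨reg_mono (erase_subset _ _), fun hs => ?_⟩ (reg_finite h)
  obtain ⟨hwτ, y, hyw, hy⟩ := mem_cor.1 hw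
  obtain ⟨u, hu, z, hz, hyz⟩ := hs hy.prop
  have hu' := mem_erase.1 hu
  have : y = z := le_antisymm hyz (hy.le_of_ge (subset_reg hu'.2 hz) hyz)
  exact Set.disjoint_left.1 (hd u hu'.2 w hwτ hu'.1) hz (this ▸ hyw)

theorem cor_union {σ ρ : Finset V} (hρ : ρ ∈ Gen K P σ)
    (hd : ∀ u ∈ ρ ∪ σ, ∀ w ∈ ρ ∪ σ, u ≠ w → Disjoint (P u) (P w)) :
    cor P (ρ ∪ σ) = cor P σ := by
  ext w
  rw [mem_cor, mem_cor, reg_union hρ.2.2]
  refine ⟨fun ⟨hw, y, hyw, hy⟩ => ⟨?_, y, hyw, hy⟩, fun ⟨hw, h⟩ => ⟨mem_union_right _ hw, h⟩⟩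
  obtain ⟨u, hu, hyu⟩ := owner hy
  by_contra hne
  exact Set.disjoint_left.1 (hd u (mem_union_right _ hu) w hw fun e => hne (e ▸ hu)) hyu hyw

theorem sdiff_mem_gen {τ : Finset V} (hτ : τ ∈ K) (h : ∀ u ∈ τ, (P u).Finite) :
    τ \ cor P τ ∈ Gen K P (cor P τ) := by
  refine ⟨sdiff_disjoint, by rwa [sdiff_union_of_subset (cor_subset τ)], fun w hw => ?_⟩
  rw [reg_cor h]
  exact subset_reg (mem_sdiff.1 hw).1

omit [DecidableEq V] in
theorem lin_mem {M : Type} [AddCommGroup M] [Module F2 M] (f : Ch V →ₗ[F2] M)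
    (N : Submodule F2 M) (y : Ch V) (h : ∀ τ ∈ y.support, f (Finsupp.single τ 1) ∈ N) :
    f y ∈ N := by
  rw [← Finsupp.sum_single y, Finsupp.sum, map_sum]
  refine N.sum_mem fun τ hτ => ?_
  rw [← mul_one (y τ), ← smul_eq_mul, ← Finsupp.smul_single, map_smul]
  exact N.smul_mem _ (h τ hτ)

omit [DecidableEq V] in
theorem lin_ext {M : Type} [AddCommGroup M] [Module F2 M] (f g : Ch V →ₗ[F2] M) (y : Ch V)
    (h : ∀ τ ∈ y.support, f (Finsupp.single τ 1) = g (Finsupp.single τ 1)) : f y = g y := by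
  have := lin_mem (f - g) ⊥ y fun τ hτ => by simp [h τ hτ]
  simpa [sub_eq_zero] using this

/-- The part of a chain with core `σ`, as a chain in the link of `σ`. -/
noncomputable def part (P : V → Set (ℕ × ℕ)) (σ : Finset V) : Ch V →ₗ[F2] Ch V :=
  Finsupp.linearCombination F2 fun τ : Finset V =>
    if cor P τ = σ then Finsupp.single (τ \ σ) (1 : F2) else 0

theorem part_single (σ τ : Finset V) : part P σ (Finsupp.single τ 1) =
    if cor P τ = σ then Finsupp.single (τ \ σ) (1 : F2) else 0 := by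
  simp [part]

/-- The join with `σ`. -/
noncomputable def join (σ : Finset V) : Ch V →ₗ[F2] Ch V :=
  Finsupp.linearCombination F2 fun ρ : Finset V => Finsupp.single (ρ ∪ σ) (1 : F2)

theorem join_single (σ ρ : Finset V) :
    join σ (Finsupp.single ρ 1) = Finsupp.single (ρ ∪ σ) (1 : F2) := by
  simp [join]

theorem part_bd {σ τ : Finset V} (h : ∀ u ∈ τ, (P u).Finite)
    (hd : ∀ u ∈ τ, ∀ w ∈ τ, u ≠ w → Disjoint (P u) (P w))
    (hl : (Reg P τ).ncard ≤ (Reg P σ).ncard) :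
    part P σ (bd (Finsupp.single τ 1)) = bd (part P σ (Finsupp.single τ 1)) := by
  rw [bd_single, map_sum, ← sum_sdiff (cor_subset (P := P) τ)]
  have h0 : ∑ v ∈ cor P τ, part P σ (Finsupp.single (τ.erase v) 1) = 0 := by
    refine sum_eq_zero fun v hv => ?_
    rw [part_single, if_neg]
    intro e
    have h1 := lev_erase h hd hv
    rw [← reg_cor (τ := τ.erase v) fun u hu => h u (mem_of_mem_erase hu), e] at h1
    omega
  have h1 : ∀ v ∈ τ \ cor P τ, cor P (τ.erase v) = cor P τ := fun v hv =>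
    cor_between h (fun w hw => mem_erase.2
      ⟨fun e => (mem_sdiff.1 hv).2 (e ▸ hw), cor_subset τ hw⟩) (erase_subset _ _)
  rw [h0, add_zero, part_single]
  split_ifs with e
  · rw [bd_single, ← e]
    refine sum_congr rfl fun v hv => ?_
    rw [part_single, if_pos (h1 v hv), erase_sdiff_comm]
  · rw [map_zero]
    refine sum_eq_zero fun v hv => ?_
    rw [part_single, h1 v hv, if_neg e]

theorem bd_join {σ ρ : Finset V} (h : Disjoint ρ σ) :
    bd (join σ (Finsupp.single ρ 1)) + join σ (bd (Finsupp.single ρ 1)) =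
      ∑ v ∈ σ, Finsupp.single ((ρ ∪ σ).erase v) (1 : F2) := by
  rw [join_single, bd_single, bd_single, map_sum, sum_union h]
  have : ∑ v ∈ ρ, join σ (Finsupp.single (ρ.erase v) 1) =
      ∑ v ∈ ρ, Finsupp.single ((ρ ∪ σ).erase v) (1 : F2) := by
    refine sum_congr rfl fun v hv => ?_
    rw [join_single, erase_union_distrib, erase_eq_of_notMem (disjoint_left.1 h hv)]
  rw [this, add_right_comm, ch_add_self, zero_add]

end CoreAux

open CoreAux

theorem lk_gen {σ τ : Finset V} (h : τ ∈ Gen K P σ) : lk (Gen K P σ) τ = Gen K P (τ ∪ σ) := by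
  ext ρ
  simp only [lk, Gen, Set.mem_ofPred_eq, reg_union h.2.2, disjoint_union_left, disjoint_union_right,
    union_assoc, mem_union]
  constructor
  · rintro ⟨h1, ⟨h2, -⟩, h3, h4⟩
    exact ⟨⟨h1, h2⟩, h3, fun w hw => h4 w (Or.inl hw)⟩
  · rintro ⟨⟨h1, h2⟩, h3, h4⟩
    exact ⟨h1, ⟨h2, h.1⟩, h3, fun w hw => hw.elim (h4 w) (h.2.2 w)⟩

namespace CoreAux

/-- One step: remove the faces with a given core of the top level. -/
theorem step (hK : Down K) (hfin : ∀ σ ∈ K, ∀ u ∈ σ, (P u).Finite)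
    (hdisj : ∀ σ ∈ K, ∀ u ∈ σ, ∀ w ∈ σ, u ≠ w → Disjoint (P u) (P w)) {b : ℕ}
    (hG : ∀ σ ∈ K, σ.Nonempty → ∀ r, r + σ.card = b + 1 → SEx (Gen K P σ) r)
    {m : ℕ} (S : Finset (Finset V)) :
    ∀ y : Ch V, bd y ∈ Cb (Gen K P ∅) b →
      (∀ τ ∈ y.support, τ ∈ K ∧ τ.card = b + 1 ∧
        ((Reg P τ).ncard ≤ m ∨ ((Reg P τ).ncard = m + 1 ∧ cor P τ ∈ S))) →
      ∃ y' : Ch V, bd y' = bd y ∧
        ∀ τ ∈ y'.support, τ ∈ K ∧ τ.card = b + 1 ∧ (Reg P τ).ncard ≤ m := by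
  induction S using Finset.induction_on with
  | empty =>
    intro y _ hy
    exact ⟨y, rfl, fun τ hτ => ⟨(hy τ hτ).1, (hy τ hτ).2.1,
      (hy τ hτ).2.2.elim id fun h => absurd h.2 (notMem_empty _)⟩⟩
  | insert σ S _ ih =>
    intro y hx hy
    by_cases hex : ∃ τ₀ ∈ y.support, (Reg P τ₀).ncard = m + 1 ∧ cor P τ₀ = σ
    swap
    · refine ih y hx fun τ hτ => ⟨(hy τ hτ).1, (hy τ hτ).2.1, (hy τ hτ).2.2.imp id fun h =>
        ⟨h.1, (mem_insert.1 h.2).resolve_left fun e => hex ⟨τ, hτ, h.1, e⟩⟩⟩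
    obtain ⟨τ₀, hτ₀, hl₀, hc₀⟩ := hex
    have hτ₀K := (hy τ₀ hτ₀).1
    have hσK : σ ∈ K := hK _ hτ₀K _ (hc₀ ▸ cor_subset τ₀)
    have hlσ : (Reg P σ).ncard = m + 1 := by rw [← hc₀, reg_cor (hfin _ hτ₀K), hl₀]
    have hcσ : cor P σ = σ := by
      rw [← hc₀]; exact cor_between (hfin _ hτ₀K) Subset.rfl (cor_subset _)
    have hne : σ.Nonempty := by
      rw [nonempty_iff_ne_empty]
      rintro rfl
      simp [Reg] at hlσ
    have hcard : σ.card ≤ b + 1 := by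
      rw [← (hy τ₀ hτ₀).2.1, ← hc₀]; exact card_le_card (cor_subset _)
    have hz : part P σ y ∈ Cb (Gen K P σ) (b + 1 - σ.card) := by
      refine lin_mem _ _ _ fun τ hτ => ?_
      rw [part_single]
      split_ifs with e
      · refine single_mem_Cb (by rw [← e]; exact sdiff_mem_gen (hy τ hτ).1 (hfin _ (hy τ hτ).1)) ?_
        rw [card_sdiff_of_subset (e ▸ cor_subset τ), (hy τ hτ).2.1]
      · exact zero_mem _
    have hz0 : bd (part P σ y) = 0 := by
      have h1 : part P σ (bd y) = bd (part P σ y) :=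
        lin_ext (part P σ ∘ₗ bd) (bd ∘ₗ part P σ) y fun τ hτ =>
          part_bd (hfin _ (hy τ hτ).1) (hdisj _ (hy τ hτ).1) (by
            rcases (hy τ hτ).2.2 with h | h <;> omega)
      rw [← h1]
      refine lin_ext _ 0 _ fun τ hτ => ?_
      have h2 := mem_gen_empty.1 (mem_Cb.1 hx τ hτ).1
      rw [part_single, if_neg, LinearMap.zero_apply]
      intro e
      obtain ⟨w, hw⟩ := hne
      rw [← e] at hw
      obtain ⟨hw, z, hz, -⟩ := mem_cor.1 hw
      rw [h2.2 w hw] at hz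
      exact hz
    obtain ⟨w, hw, hbw⟩ := hG σ hσK hne _ (by omega) _ hz hz0
    let N : Submodule F2 (Ch V) := Finsupp.supported F2 F2 {τ | τ ∈ K ∧ τ.card = b + 1 ∧
        ((Reg P τ).ncard ≤ m ∨ ((Reg P τ).ncard = m + 1 ∧ cor P τ ∈ S))}
    have hN1 : y + join σ (part P σ y) ∈ N := by
      refine lin_mem (LinearMap.id + join σ ∘ₗ part P σ) N y fun τ hτ => ?_
      simp only [LinearMap.add_apply, LinearMap.id_apply, LinearMap.comp_apply, part_single]
      split_ifs with e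
      · rw [join_single, sdiff_union_of_subset (e ▸ cor_subset τ), ch_add_self]
        exact zero_mem _
      · rw [map_zero, add_zero]
        exact Finsupp.single_mem_supported F2 _ ⟨(hy τ hτ).1, (hy τ hτ).2.1,
          (hy τ hτ).2.2.imp id fun h => ⟨h.1, (mem_insert.1 h.2).resolve_left e⟩⟩
    have hN2 : bd (join σ w) + join σ (bd w) ∈ N := by
      refine lin_mem (bd ∘ₗ join σ + join σ ∘ₗ bd) N w fun ρ hρ => ?_
      obtain ⟨hρ, hρc⟩ := mem_Cb.1 hw ρ hρ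
      simp only [LinearMap.add_apply, LinearMap.comp_apply]
      rw [bd_join hρ.1]
      refine N.sum_mem fun v hv => Finsupp.single_mem_supported F2 _
        ⟨hK _ hρ.2.1 _ (erase_subset _ _), ?_, Or.inl ?_⟩
      · rw [card_erase_of_mem (mem_union_right _ hv), card_union_of_disjoint hρ.1]
        omega
      · have h1 := lev_erase (hfin _ hρ.2.1) (hdisj _ hρ.2.1) (w := v)
          (by rwa [cor_union hρ (hdisj _ hρ.2.1), hcσ])
        rw [reg_union hρ.2.2] at h1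
        omega
    have hN : y + bd (join σ w) ∈ N := by
      have : y + bd (join σ w) =
          (y + join σ (part P σ y)) + (bd (join σ w) + join σ (bd w)) := by
        rw [hbw, add_comm (bd _) (join σ _), add_assoc, ← add_assoc (join σ _), ch_add_self,
          zero_add]
      rw [this]
      exact N.add_mem hN1 hN2
    have hb : bd (y + bd (join σ w)) = bd y := by rw [map_add, bd_bd, add_zero]
    obtain ⟨y', h1, h2⟩ := ih (y + bd (join σ w)) (hb ▸ hx) fun τ hτ =>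
      (Finsupp.mem_supported F2 _).1 hN hτ
    exact ⟨y', h1.trans hb, h2⟩

end CoreAux

/-- Pushing fillings into the generic part. -/
theorem core (hK : Down K) (hfin : ∀ σ ∈ K, ∀ u ∈ σ, (P u).Finite)
    (hdisj : ∀ σ ∈ K, ∀ u ∈ σ, ∀ w ∈ σ, u ≠ w → Disjoint (P u) (P w)) {b : ℕ} (hex : SEx K b)
    (hG : ∀ σ ∈ K, σ.Nonempty → ∀ r, r + σ.card = b + 1 → SEx (Gen K P σ) r) :
    SEx (Gen K P ∅) b := by
  have key : ∀ m : ℕ, ∀ y : Ch V, bd y ∈ Cb (Gen K P ∅) b →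
      (∀ τ ∈ y.support, τ ∈ K ∧ τ.card = b + 1 ∧ (Reg P τ).ncard ≤ m) →
      ∃ y' ∈ Cb (Gen K P ∅) (b + 1), bd y' = bd y := by
    intro m
    induction m with
    | zero =>
      intro y _ hy
      refine ⟨y, mem_Cb.2 fun τ hτ => ⟨mem_gen_empty.2 ⟨(hy τ hτ).1, fun w hw => ?_⟩,
        (hy τ hτ).2.1⟩, rfl⟩
      have h0 : Reg P τ = ∅ := (Set.ncard_eq_zero (reg_finite (hfin _ (hy τ hτ).1))).1
        (Nat.le_zero.1 (hy τ hτ).2.2)
      exact Set.subset_empty_iff.1 (h0 ▸ subset_reg hw)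
    | succ m ih =>
      intro y hx hy
      obtain ⟨y', h1, h2⟩ := step hK hfin hdisj hG (m := m) (y.support.image (cor P)) y hx
        fun τ hτ => ⟨(hy τ hτ).1, (hy τ hτ).2.1, by
          rcases Nat.lt_or_ge m (Reg P τ).ncard with h | h
          · exact Or.inr ⟨le_antisymm (hy τ hτ).2.2 h, mem_image_of_mem _ hτ⟩
          · exact Or.inl h⟩
      obtain ⟨y'', h3, h4⟩ := ih y' (h1 ▸ hx) h2
      exact ⟨y'', h3, h4.trans h1⟩
  intro x hx hx0
  obtain ⟨y, hy, rfl⟩ := hex x (mem_Cb.2 fun τ hτ =>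
    ⟨(mem_gen_empty.1 (mem_Cb.1 hx τ hτ).1).1, (mem_Cb.1 hx τ hτ).2⟩) hx0
  exact key (y.support.sup fun τ => (Reg P τ).ncard) y hx fun τ hτ =>
    ⟨(mem_Cb.1 hy τ hτ).1, (mem_Cb.1 hy τ hτ).2, le_sup (f := fun τ => (Reg P τ).ncard) hτ⟩

end Crest.Agent.R66
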