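import Crest.Agent.R66.Lat

set_option autoImplicit false

namespace Crest.Agent.R66

open Finset

namespace Setup

variable {F V : Type} [Field F] [AddCommGroup V] [Module F V] {n : ℕ} (S : Setup F V n)

variable {S} {l r : Submodule F V}

namespace Cnt

/-- The subspace between `l` and `r` that corresponds to a subspace of `r / l`. -/
def up (l r : Submodule F V) (U : Submodule F ↥(r.map l.mkQ)) : Submodule F V :=
  (U.map (r.map l.mkQ).subtype).comap l.mkQ

theorem le_up (U : Submodule F ↥(r.map l.mkQ)) : l ≤ up l r U := fun v hv => by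
  rw [up, Submodule.mem_comap, Submodule.mkQ_apply, (Submodule.Quotient.mk_eq_zero l).2 hv]
  exact zero_mem _

theorem up_le (h : l ≤ r) (U : Submodule F ↥(r.map l.mkQ)) : up l r U ≤ r := by
  have : up l r U ≤ (r.map l.mkQ).comap l.mkQ := Submodule.comap_mono (Submodule.map_subtype_le _ _)
  rwa [Submodule.comap_map_mkQ, sup_eq_right.2 h] at this

theorem map_up (U : Submodule F ↥(r.map l.mkQ)) :
    (up l r U).map l.mkQ = U.map (r.map l.mkQ).subtype :=
  Submodule.map_comap_eq_of_surjective l.mkQ_surjective _

theorem up_injective : Function.Injective (up l r) := fun U U' h => by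
  have := congrArg (Submodule.map l.mkQ) h
  rw [map_up, map_up] at this
  exact Submodule.map_injective_of_injective (Submodule.subtype_injective _) this

theorem exists_up {w : Submodule F V} (h₁ : l ≤ w) (h₂ : w ≤ r) :
    ∃ U, up l r U = w := by
  refine ⟨(w.map l.mkQ).comap (r.map l.mkQ).subtype, ?_⟩
  rw [up, Submodule.map_comap_subtype, inf_eq_right.2 (Submodule.map_mono h₂),
    Submodule.comap_map_mkQ, sup_eq_right.2 h₁]

theorem finrank_up (U : Submodule F ↥(r.map l.mkQ)) :
    Module.finrank F ↥((up l r U).map l.mkQ) = Module.finrank F U := by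
  rw [map_up, Submodule.finrank_map_subtype_eq]

end Cnt

open Cnt

/-- There are at least `|F| + 1` lattices strictly inside an interval of length two. -/
theorem exists_many_between [Fintype F] (hl : S.Lat l) (hr : S.Lat r) (h : l ≤ r)
    (hc : S.chi r = S.chi l + 2) :
    ∃ s : Finset (Submodule F V), Fintype.card F + 1 ≤ s.card ∧ ∀ w ∈ s, l < w ∧ w < r := by
  obtain ⟨hfin, hrk⟩ := hl.finrank_map_mkQ hr h
  have h2 : Module.finrank F ↥(r.map l.mkQ) = 2 := by omega
  have : Finite ↥(r.map l.mkQ) := Module.finite_of_finite F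
  let : Fintype (Projectivization F ↥(r.map l.mkQ)) := Fintype.ofFinite _
  refine ⟨univ.image fun x : Projectivization F ↥(r.map l.mkQ) => up l r x.submodule, ?_, ?_⟩
  · rw [Finset.card_image_of_injective _ (f := fun x : Projectivization F ↥(r.map l.mkQ) =>
      up l r x.submodule) (up_injective.comp Projectivization.submodule_injective), card_univ, ← Nat.card_eq_fintype_card (α := Projectivization _ _),
      Projectivization.card_of_finrank_two F _ h2, Nat.card_eq_fintype_card]
  · intro w hw
    obtain ⟨x, -, rfl⟩ := Finset.mem_image.1 hw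
    have h3 := finrank_up x.submodule
    rw [x.finrank_submodule] at h3
    refine ⟨lt_of_le_of_ne (le_up _) fun e => ?_, lt_of_le_of_ne (up_le h _) fun e => ?_⟩
    · rw [← e, Submodule.mkQ_map_self, finrank_bot] at h3
      omega
    · rw [e, h2] at h3
      omega

/-- There are at most `q ^ 2 + q + 1` points in a projective plane. -/
theorem exists_points [Fintype F] (hl : S.Lat l) (hr : S.Lat r) (h : l ≤ r) (hr' : r ≤ S.tr 1 l)
    (hc : S.chi r = S.chi l + 3) :
    ∃ s : Finset (Submodule F V), s.card ≤ Fintype.card F ^ 2 + Fintype.card F + 1 ∧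
      ∀ w, l ≤ w → w ≤ r → S.chi w = S.chi l + 1 → w ∈ s := by
  obtain ⟨hfin, hrk⟩ := hl.finrank_map_mkQ hr h
  have h2 : Module.finrank F ↥(r.map l.mkQ) = 3 := by omega
  have : Finite ↥(r.map l.mkQ) := Module.finite_of_finite F
  let : Fintype (Projectivization F ↥(r.map l.mkQ)) := Fintype.ofFinite _
  refine ⟨univ.image fun x : Projectivization F ↥(r.map l.mkQ) => up l r x.submodule, ?_, ?_⟩
  · refine Finset.card_image_le.trans (le_of_eq ?_)
    rw [card_univ, ← Nat.card_eq_fintype_card (α := Projectivization _ _),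
      Projectivization.card_of_finrank F _ h2, Nat.card_eq_fintype_card]
    simp only [Finset.sum_range_succ, Finset.sum_range_zero]
    ring
  · intro w h₁ h₂ hw
    obtain ⟨U, rfl⟩ := exists_up h₁ h₂
    have h3 := (hl.finrank_map_mkQ (hl.of_between h₁ (h₂.trans hr')) h₁).2
    rw [finrank_up] at h3
    have h4 : Module.finrank F U = 1 := by omega
    exact Finset.mem_image.2 ⟨Projectivization.mk'' U h4, mem_univ _, by
      rw [Projectivization.submodule_mk'']⟩

theorem exists_all_between [Fintype F] (hl : S.Lat l) (hr : S.Lat r) (h : l ≤ r) :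
    ∃ s : Finset (Submodule F V), s.card ≤ 2 ^ Fintype.card F ^ (S.chi r - S.chi l).toNat ∧
      ∀ w, l ≤ w → w ≤ r → w ∈ s := by
  obtain ⟨hfin, hrk⟩ := hl.finrank_map_mkQ hr h
  have h2 : (S.chi r - S.chi l).toNat = Module.finrank F ↥(r.map l.mkQ) := by omega
  have : Finite ↥(r.map l.mkQ) := Module.finite_of_finite F
  let : Fintype ↥(r.map l.mkQ) := Fintype.ofFinite _
  have : Finite (Submodule F ↥(r.map l.mkQ)) :=
    Finite.of_injective _ (SetLike.coe_injective (A := Submodule F ↥(r.map l.mkQ)))
  let : Fintype (Submodule F ↥(r.map l.mkQ)) := Fintype.ofFinite _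
  refine ⟨univ.image (up l r), ?_, fun w h₁ h₂ => ?_⟩
  · refine Finset.card_image_le.trans ?_
    rw [card_univ, h2, ← Module.card_eq_pow_finrank, ← Fintype.card_set]
    exact Fintype.card_le_of_injective _ (SetLike.coe_injective (A := Submodule F ↥(r.map l.mkQ)))
  · obtain ⟨U, rfl⟩ := exists_up h₁ h₂
    exact Finset.mem_image_of_mem _ (mem_univ _)

end Setup

end Crest.Agent.R66
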