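import Mathlib

/-!
Definitions for row 66 (bounded degree coboundary expanders): chains on finite sets, equivariant
complexes, typed geometries, lattices and frames.
-/

set_option autoImplicit false

namespace Crest.Agent.R66

open Finset

/-- The field with two elements. -/
abbrev F2 : Type := ZMod 2

/-! ### Chains on finite sets -/

/-- Chains on finite subsets of `V`. -/
abbrev Ch (V : Type) : Type := Finset V →₀ F2

section chains

variable {V : Type} [DecidableEq V]

/-- The boundary. -/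
noncomputable def bd : Ch V →ₗ[F2] Ch V :=
  Finsupp.linearCombination F2 fun σ : Finset V => ∑ v ∈ σ, Finsupp.single (σ.erase v) (1 : F2)

/-- The cone with apex `v`. -/
noncomputable def cone (v : V) : Ch V →ₗ[F2] Ch V :=
  Finsupp.linearCombination F2 fun σ : Finset V =>
    if v ∈ σ then 0 else Finsupp.single (insert v σ) (1 : F2)

/-- The link chain at `v`. -/
noncomputable def lkc (v : V) : Ch V →ₗ[F2] Ch V :=
  Finsupp.linearCombination F2 fun σ : Finset V =>
    if v ∈ σ then Finsupp.single (σ.erase v) (1 : F2) else 0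

/-- The part of a chain that avoids `v`. -/
noncomputable def off (v : V) : Ch V →ₗ[F2] Ch V :=
  Finsupp.linearCombination F2 fun σ : Finset V =>
    if v ∈ σ then 0 else Finsupp.single σ (1 : F2)

/-- Chains supported on the faces of `K` with `b` vertices. -/
def Cb (K : Set (Finset V)) (b : ℕ) : Submodule F2 (Ch V) :=
  Finsupp.supported F2 F2 {σ | σ ∈ K ∧ σ.card = b}

/-- Closed under subsets. -/
def Down (K : Set (Finset V)) : Prop := ∀ σ ∈ K, ∀ τ, τ ⊆ σ → τ ∈ K

/-- The link of `σ`. -/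
def lk (K : Set (Finset V)) (σ : Finset V) : Set (Finset V) := {ρ | Disjoint ρ σ ∧ ρ ∪ σ ∈ K}

/-- Exactness at the faces with `b` vertices. -/
def SEx (K : Set (Finset V)) (b : ℕ) : Prop :=
  ∀ x ∈ Cb K b, bd x = 0 → ∃ y ∈ Cb K (b + 1), bd y = x

/-- Cycles of size at most `s` have fillings of size at most `R`. -/
def Fill (K : Set (Finset V)) (b s R : ℕ) : Prop :=
  ∀ x ∈ Cb K b, bd x = 0 → x.support.card ≤ s →
    ∃ y ∈ Cb K (b + 1), bd y = x ∧ y.support.card ≤ R

/-- A contraction of size `R` on the faces with fewer than `c` vertices. -/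
def Cone (K : Set (Finset V)) (c R : ℕ) : Prop :=
  ∃ h : Finset V → Ch V, ∀ ρ ∈ K, ρ.card < c →
    h ρ ∈ Cb K (ρ.card + 1) ∧ (h ρ).support.card ≤ R ∧
      bd (h ρ) + Finsupp.linearCombination F2 h (bd (Finsupp.single ρ 1)) = Finsupp.single ρ 1

/-- The coboundary of a function on finite sets. -/
def cob (f : Finset V → F2) (τ : Finset V) : F2 := ∑ v ∈ τ, f (τ.erase v)

/-- The lower closure of the points attached to the vertices of `σ`. -/
def Reg (P : V → Set (ℕ × ℕ)) (σ : Finset V) : Set (ℕ × ℕ) := {x | ∃ u ∈ σ, ∃ y ∈ P u, x ≤ y}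

/-- The part of the link of `σ` that adds no new points. -/
def Gen (K : Set (Finset V)) (P : V → Set (ℕ × ℕ)) (σ : Finset V) : Set (Finset V) :=
  {ρ | Disjoint ρ σ ∧ ρ ∪ σ ∈ K ∧ ∀ w ∈ ρ, P w ⊆ Reg P σ}

variable {Γ : Type} [Group Γ] [MulAction Γ V]

/-- Invariance of a family of finite sets. -/
def Inv (Γ : Type) [Group Γ] [MulAction Γ V] (K : Set (Finset V)) : Prop :=
  ∀ (g : Γ), ∀ σ ∈ K, σ.image (g • ·) ∈ K

/-- The setwise stabiliser. -/
def fstab (Γ : Type) [Group Γ] [MulAction Γ V] (σ : Finset V) : Subgroup Γ where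
  carrier := {g | σ.image (g • ·) = σ}
  mul_mem' := by
    intro a b ha hb
    simp only [Set.mem_ofPred_eq] at ha hb ⊢
    conv_rhs => rw [← ha, ← hb]
    rw [Finset.image_image]
    exact Finset.image_congr fun x _ => mul_smul a b x
  one_mem' := by simp
  inv_mem' := by
    intro a ha
    simp only [Set.mem_ofPred_eq] at ha ⊢
    conv_lhs => rw [← ha]
    rw [Finset.image_image]
    simp [Function.comp_def]

/-- The augmentation submodule of a subgroup in the chains of `K`. -/
noncomputable def Ib (S : Subgroup Γ) (K : Set (Finset V)) (b : ℕ) : Submodule F2 (Ch V) :=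
  Submodule.span F2 {z | ∃ g ∈ S, ∃ σ ∈ K, σ.card = b ∧
    z = Finsupp.single (σ.image (g • ·)) 1 - Finsupp.single σ 1}

/-- The homology of the quotient of `K` by `S` vanishes at the faces with `b + 1` vertices. -/
def SVan (S : Subgroup Γ) (K : Set (Finset V)) (b : ℕ) : Prop :=
  ∀ x ∈ Cb K (b + 1), bd x ∈ Ib S K b → ∃ y ∈ Cb K (b + 2), x - bd y ∈ Ib S K (b + 1)

end chains

/-! ### Equivariant complexes -/

/-- An augmented complex of representations; level `0` is the trivial representation. -/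
structure Cx (H : Type) [Group H] where
  /-- the modules -/
  X : ℕ → Type
  [acg : ∀ b, AddCommGroup (X b)]
  [mod : ∀ b, Module F2 (X b)]
  /-- the actions -/
  ρ : ∀ b, Representation F2 H (X b)
  /-- the differentials -/
  d : ∀ b, X (b + 1) →ₗ[F2] X b
  d_ρ : ∀ b g x, d b (ρ (b + 1) g x) = ρ b g (d b x)
  dd : ∀ b x, d b (d (b + 1) x) = 0
  /-- the identification of level `0` with the ground field -/
  ε : X 0 ≃ₗ[F2] F2
  ρ_zero : ∀ g x, ρ 0 g x = x

attribute [instance] Cx.acg Cx.mod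

namespace Cx

variable {H H' : Type} [Group H] [Group H']

/-- Restriction along a homomorphism. -/
def comap (c : Cx H) (φ : H' →* H) : Cx H' where
  X := c.X
  ρ b := (c.ρ b).comp φ
  d := c.d
  d_ρ b g x := c.d_ρ b (φ g) x
  dd := c.dd
  ε := c.ε
  ρ_zero g x := c.ρ_zero (φ g) x

/-- The augmentation submodule of a subgroup. -/
def I (c : Cx H) (S : Subgroup H) (b : ℕ) : Submodule F2 (c.X b) :=
  Submodule.span F2 {z | ∃ g ∈ S, ∃ x, z = c.ρ b g x - x}

/-- Cycles modulo `S`, at level `b + 1`. -/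
def Z (c : Cx H) (S : Subgroup H) (b : ℕ) : Submodule F2 (c.X (b + 1)) :=
  (c.I S b).comap (c.d b)

/-- Boundaries modulo `S`, at level `b + 1`. -/
def Bd (c : Cx H) (S : Subgroup H) (b : ℕ) : Submodule F2 (c.X (b + 1)) :=
  LinearMap.range (c.d (b + 1)) ⊔ c.I S (b + 1)

/-- The homology of the coinvariants vanishes at level `b + 1`. -/
def Van (c : Cx H) (S : Subgroup H) (b : ℕ) : Prop := c.Z S b ≤ c.Bd S b

/-- Exactness at a level. -/
def Ex (c : Cx H) : ℕ → Prop
  | 0 => Function.Surjective (c.d 0)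
  | b + 1 => ∀ x, c.d b x = 0 → ∃ y, c.d (b + 1) y = x

/-- An equivariant chain map up to level `m` over the identity of the ground field. -/
structure IsMap (c c' : Cx H) (m : ℕ) (f : ∀ b, c.X b →ₗ[F2] c'.X b) : Prop where
  map_ρ : ∀ b, b ≤ m → ∀ g x, f b (c.ρ b g x) = c'.ρ b g (f b x)
  map_d : ∀ b, b + 1 ≤ m → ∀ x, c'.d b (f (b + 1) x) = f b (c.d b x)
  map_ε : ∀ x, c'.ε (f 0 x) = c.ε x

end Cx

/-- The lifting property (projectivity) of a representation. -/
def Lift {H A : Type} [Group H] [AddCommGroup A] [Module F2 A] (ρ : Representation F2 H A) : Prop :=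
  ∀ (E E' : Type) [AddCommGroup E] [Module F2 E] [AddCommGroup E'] [Module F2 E']
    (τ : Representation F2 H E) (τ' : Representation F2 H E') (π : E →ₗ[F2] E') (f : A →ₗ[F2] E'),
    (∀ g x, π (τ g x) = τ' g (π x)) → (∀ g x, f (ρ g x) = τ' g (f x)) →
    (∀ x, f x ∈ LinearMap.range π) →
    ∃ f' : A →ₗ[F2] E, (∀ g x, f' (ρ g x) = τ g (f' x)) ∧ ∀ x, π (f' x) = f x

/-- The permutation representation. -/
noncomputable def perm (H S : Type) [Group H] [MulAction H S] : Representation F2 H (S →₀ F2) where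
  toFun g := Finsupp.lmapDomain F2 F2 (g • ·)
  map_one' := by
    ext s
    simp
  map_mul' g h := by
    ext s
    simp [mul_smul]

/-- The differential of the standard complex. -/
noncomputable def stdD (H : Type) (b : ℕ) : ((Fin (b + 1) → H) →₀ F2) →ₗ[F2] ((Fin b → H) →₀ F2) :=
  ∑ i : Fin (b + 1), Finsupp.lmapDomain F2 F2 fun s : Fin (b + 1) → H => s ∘ i.succAbove

theorem stdD_single {H : Type} (b : ℕ) (s : Fin (b + 1) → H) (r : F2) :
    stdD H b (Finsupp.single s r) = ∑ i : Fin (b + 1), Finsupp.single (s ∘ i.succAbove) r := by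
  simp [stdD, LinearMap.sum_apply]

theorem stdD_stdD {H : Type} (b : ℕ) (x : (Fin (b + 2) → H) →₀ F2) :
    stdD H b (stdD H (b + 1) x) = 0 := by
  induction x using Finsupp.induction_linear with
  | zero => simp
  | add x y hx hy => simp [hx, hy]
  | single s r =>
    rw [stdD_single, map_sum]
    simp only [stdD_single]
    rw [← Finset.sum_product']
    refine Finset.sum_involution (fun p _ => (p.1.succAbove p.2, p.2.predAbove p.1)) ?_ ?_ ?_ ?_
    · rintro ⟨i, j⟩ _
      have : (s ∘ (i.succAbove j).succAbove) ∘ (j.predAbove i).succAbove =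
          (s ∘ i.succAbove) ∘ j.succAbove := by
        funext k
        simp only [Function.comp_apply, Fin.succAbove_succAbove_succAbove_predAbove]
      simp only [this]
      rw [← Finsupp.single_add, CharTwo.add_self_eq_zero, Finsupp.single_zero]
    · rintro ⟨i, j⟩ _ _ h
      exact Fin.succAbove_ne i j (congrArg Prod.fst h)
    · simp
    · rintro ⟨i, j⟩ _
      simp [Fin.succAbove_succAbove_predAbove, Fin.predAbove_predAbove_succAbove]

/-- The standard complex of tuples of group elements. -/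
noncomputable def std (H : Type) [Group H] : Cx H where
  X b := (Fin b → H) →₀ F2
  ρ b := perm H (Fin b → H)
  d := stdD H
  d_ρ b g x := by
    induction x using Finsupp.induction_linear with
    | zero => simp
    | add x y hx hy => simp [hx, hy]
    | single s r =>
      simp only [perm, MonoidHom.coe_mk, OneHom.coe_mk, Finsupp.lmapDomain_apply,
        Finsupp.mapDomain_single, stdD_single, map_sum]
      rfl
  dd := stdD_stdD
  ε := Finsupp.uniqueLinearEquiv F2 F2 (fun i : Fin 0 => (i.elim0 : H))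
  ρ_zero g x := by
    induction x using Finsupp.induction_linear with
    | zero => simp
    | add x y hx hy => simp [hx, hy]
    | single s r =>
      simp only [perm, MonoidHom.coe_mk, OneHom.coe_mk, Finsupp.lmapDomain_apply,
        Finsupp.mapDomain_single]
      congr 1
      exact Subsingleton.elim _ _

/-- The homology of the group `H` with coefficients in `F2` vanishes in degree `i`
(reduced homology for `i = 0`). -/
def HV (H : Type) [Group H] (i : ℕ) : Prop := (std H).Van ⊤ i

/-! ### Typed geometries -/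

/-- A pure complex with `n` vertex types. -/
structure Geo (n : ℕ) (V : Type) [DecidableEq V] where
  /-- the faces -/
  K : Set (Finset V)
  /-- the types -/
  ty : V → Fin n
  down : Down K
  empty : ∅ ∈ K
  inj : ∀ σ ∈ K, Set.InjOn ty σ
  pure : ∀ σ ∈ K, ∃ c ∈ K, σ ⊆ c ∧ c.card = n

namespace Geo

variable {n : ℕ} {V : Type} [DecidableEq V] (X : Geo n V)

/-- Every panel lies in at least `q` chambers. -/
def Thick (q : ℕ) : Prop :=
  ∀ π ∈ X.K, π.card + 1 = n → ∃ s : Finset V, q ≤ s.card ∧ ∀ x ∈ s, {x} ∈ lk X.K π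

/-- Links of corank two are complete bipartite or partial planes of order `q`. -/
def Rank2 (q : ℕ) : Prop :=
  ∀ σ ∈ X.K, σ.card + 2 = n →
    (∀ x y, {x} ∈ lk X.K σ → {y} ∈ lk X.K σ → X.ty x ≠ X.ty y → {x, y} ∈ lk X.K σ) ∨
    ∃ a, (∀ v ∈ σ, X.ty v ≠ a) ∧
      (∃ s : Finset V, s.card ≤ q ^ 2 + q + 1 ∧ ∀ x, {x} ∈ lk X.K σ → X.ty x = a → x ∈ s) ∧
      ∀ x x' y y', X.ty x = a → X.ty x' = a → x ≠ x' → X.ty y ≠ a → X.ty y' ≠ a →
        {x, y} ∈ lk X.K σ → {x', y} ∈ lk X.K σ → {x, y'} ∈ lk X.K σ → {x', y'} ∈ lk X.K σ → y = y'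

/-- Links of nonempty faces have contractions of size `R`. -/
def Cones (R : ℕ) : Prop := ∀ σ ∈ X.K, σ.Nonempty → Cone (lk X.K σ) (n - σ.card) R

/-- Every vertex has at most `D` neighbours. -/
def Deg (D : ℕ) : Prop := ∀ v, ∃ s : Finset V, s.card ≤ D ∧ ∀ u, {v, u} ∈ X.K → u ∈ s

/-- A type preserving, chamber transitive action. -/
structure Trans (Γ : Type) [Group Γ] [MulAction Γ V] : Prop where
  ty_smul : ∀ (g : Γ) v, {v} ∈ X.K → X.ty (g • v) = X.ty v
  inv : Inv Γ X.K
  trans : ∀ c ∈ X.K, ∀ c' ∈ X.K, c.card = n → c'.card = n → ∃ g : Γ, c.image (g • ·) = c'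

/-- Cocycles on the faces with `a + 1` vertices are coboundaries. -/
def Vanish (a : ℕ) : Prop :=
  ∀ f : Finset V → F2, (∀ τ ∈ X.K, τ.card = a + 2 → cob f τ = 0) →
    ∃ g : Finset V → F2, ∀ σ ∈ X.K, σ.card = a + 1 → f σ = cob g σ

open Classical in
/-- The chambers. -/
noncomputable def ch [Fintype V] : Finset (Finset V) := univ.filter fun c => c ∈ X.K ∧ c.card = n

/-- The weight of a cochain on the faces with `b` vertices. -/
noncomputable def W [Fintype V] (f : Finset V → F2) (b : ℕ) : ℕ :=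
  ∑ c ∈ X.ch, ((c.powersetCard b).filter fun σ => f σ ≠ 0).card

/-- The face of type `J` of a chamber. -/
def res (J : Finset (Fin n)) (c : Finset V) : Finset V := c.filter fun v => X.ty v ∈ J

end Geo

/-- Conditional expectation on the finite set `s` given `κ`. -/
noncomputable def ce {Ω β : Type} [DecidableEq β] (s : Finset Ω) (κ : Ω → β) (φ : Ω → ℝ) (ω : Ω) :
    ℝ :=
  (∑ ω' ∈ s.filter fun ω' => κ ω' = κ ω, φ ω') / (s.filter fun ω' => κ ω' = κ ω).card

/-! ### Lattices -/

/-- The model is `V = F[t, t⁻¹]ⁿ`, `M = F[t]ⁿ`, `L0 = (t⁻¹ F[t⁻¹])ⁿ`. -/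
structure Setup (F V : Type) [Field F] [AddCommGroup V] [Module F V] (n : ℕ) where
  /-- the shift -/
  t : V ≃ₗ[F] V
  /-- the polynomial vectors -/
  M : Submodule F V
  /-- the base lattice -/
  L0 : Submodule F V
  pos : 1 ≤ n
  tM : M.map (t : V →ₗ[F] V) ≤ M
  tL : L0 ≤ L0.map (t : V →ₗ[F] V)
  compl : IsCompl L0 M
  exhL : ∀ v, ∃ a : ℕ, v ∈ L0.map ((t ^ a : V ≃ₗ[F] V) : V →ₗ[F] V)
  exhM : ∀ v, ∃ a : ℕ, (t ^ a : V ≃ₗ[F] V) v ∈ M
  fin : Module.finrank F ↥(L0.map (t : V →ₗ[F] V) ⊓ M) = n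

/-- Equality of subspaces is decided classically. -/
noncomputable instance instDecEqSub {F V : Type} [Field F] [AddCommGroup V] [Module F V] :
    DecidableEq (Submodule F V) := Classical.decEq _

namespace Setup

variable {F V : Type} [Field F] [AddCommGroup V] [Module F V] {n : ℕ} (S : Setup F V n)

/-- The translate `t ^ a u`. -/
def tr (a : ℤ) (u : Submodule F V) : Submodule F V :=
  u.map ((S.t ^ a : V ≃ₗ[F] V) : V →ₗ[F] V)

/-- Lattices. -/
def Lat (u : Submodule F V) : Prop :=
  u ≤ S.tr 1 u ∧ ∃ a : ℕ, S.tr (-a) S.L0 ≤ u ∧ u ≤ S.tr a S.L0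

/-- The dimension of the space of sections. -/
noncomputable def h0 (u : Submodule F V) : ℕ := Module.finrank F ↥(u ⊓ S.M)

/-- The dimension of the first cohomology. -/
noncomputable def h1 (u : Submodule F V) : ℕ := Module.finrank F (V ⧸ (u ⊔ S.M))

/-- The Euler characteristic. -/
noncomputable def chi (u : Submodule F V) : ℤ := (S.h0 u : ℤ) - S.h1 u

/-- Normalised lattices. -/
def Vert (u : Submodule F V) : Prop := S.Lat u ∧ 0 ≤ S.chi u ∧ S.chi u < n

/-- The normalised translate of a lattice. -/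
noncomputable def nm (u : Submodule F V) : Submodule F V := S.tr (-(S.chi u / n)) u

/-- All translates are comparable. -/
def Comp (u w : Submodule F V) : Prop := ∀ a : ℤ, S.tr a u ≤ w ∨ w ≤ S.tr a u

/-- The affine building. -/
def B : Set (Finset (Submodule F V)) :=
  {σ | (∀ u ∈ σ, S.Vert u) ∧ ∀ u ∈ σ, ∀ w ∈ σ, S.Comp u w}

/-- The translates that have both sections and first cohomology. -/
def Pts (u : Submodule F V) : Set (ℕ × ℕ) :=
  {x | 1 ≤ x.1 ∧ 1 ≤ x.2 ∧ ∃ a : ℤ, x = (S.h0 (S.tr a u), S.h1 (S.tr a u))}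

/-- The generic part of the link of `σ` in the building. -/
def G (σ : Finset (Submodule F V)) : Set (Finset (Submodule F V)) := Gen S.B S.Pts σ

/-- The complex of generic lattices. -/
def Y : Set (Finset (Submodule F V)) := S.G ∅

/-- The type of a vertex. -/
noncomputable def ty (u : Submodule F V) : Fin n := ⟨(S.chi u).toNat % n, Nat.mod_lt _ S.pos⟩

/-- `l ≤ r` are consecutive among the translates of the vertices of `σ`. -/
structure Gap (σ : Finset (Submodule F V)) (l r : Submodule F V) : Prop where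
  left : ∃ u ∈ σ, ∃ a : ℤ, l = S.tr a u
  right : ∃ u ∈ σ, ∃ a : ℤ, r = S.tr a u
  lt : l < r
  le_tr : r ≤ S.tr 1 l
  cons : ∀ u ∈ σ, ∀ a : ℤ, S.tr a u ≤ l ∨ r ≤ S.tr a u

/-- `w` is in general position in the interval from `l` to `r`. -/
def Free (l r w : Submodule F V) : Prop :=
  ∀ m : ℤ, w ⊓ S.tr m S.M ≤ l ∨ r ≤ w ⊔ S.tr m S.M

/-- The automorphisms commuting with `t` and preserving `M`. -/
def autSub : Subgroup (V ≃ₗ[F] V) where
  carrier := {g | g * S.t = S.t * g ∧ ∀ v, g v ∈ S.M ↔ v ∈ S.M}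
  mul_mem' := by
    rintro a b ⟨ha, ha'⟩ ⟨hb, hb'⟩
    refine ⟨by rw [mul_assoc, hb, ← mul_assoc, ha, mul_assoc], fun v => ?_⟩
    exact (ha' (b v)).trans (hb' v)
  one_mem' := ⟨by simp, fun _ => Iff.rfl⟩
  inv_mem' := by
    rintro a ⟨ha, ha'⟩
    refine ⟨(Commute.inv_left ha).eq, fun v => ?_⟩
    rw [← ha' (a⁻¹ v)]
    simp

/-- The group of automorphisms; in the model it is `GL n F[t]`. -/
def Aut : Type := ↥S.autSub

instance : Group S.Aut := inferInstanceAs (Group ↥S.autSub)

/-- The underlying linear automorphism. -/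
def val : S.Aut →* (V ≃ₗ[F] V) := S.autSub.subtype

instance : MulAction S.Aut (Submodule F V) where
  smul g u := u.map (S.val g : V →ₗ[F] V)
  one_smul u := by
    change u.map ((S.val 1 : V ≃ₗ[F] V) : V →ₗ[F] V) = u
    rw [map_one]
    exact Submodule.map_id u
  mul_smul g h u := by
    change u.map ((S.val (g * h) : V ≃ₗ[F] V) : V →ₗ[F] V) =
      (u.map (S.val h : V →ₗ[F] V)).map (S.val g : V →ₗ[F] V)
    rw [map_mul, ← Submodule.map_comp]
    rfl

theorem smul_def (g : S.Aut) (u : Submodule F V) : g • u = u.map (S.val g : V →ₗ[F] V) := rfl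

/-- The congruence subgroup of level `t ^ k`. -/
def N (k : ℕ) : Subgroup S.Aut where
  carrier := {g | ∀ v ∈ S.M, S.val g v - v ∈ S.tr k S.M}
  mul_mem' := by
    intro a b ha hb v hv
    have h1 := ha (S.val b v) ((b.2.2 v).2 hv)
    have h2 := hb v hv
    have := add_mem h1 h2
    rw [map_mul]
    simpa using this
  one_mem' := by
    intro v _
    simp
  inv_mem' := by
    intro a ha v hv
    have h1 := ha (S.val a⁻¹ v) (((a⁻¹).2.2 v).2 hv)
    have h2 : S.val a (S.val a⁻¹ v) = v := by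
      rw [← LinearEquiv.mul_apply, ← map_mul, mul_inv_cancel, map_one]
      rfl
    rw [h2] at h1
    simpa using neg_mem h1

end Setup

/-! ### Frames and congruence subgroups -/

/-- A division algorithm. -/
def Euc (A : Type) [CommRing A] : Prop :=
  ∃ ν : A → ℕ, (∀ a, ν a = 0 ↔ a = 0) ∧ ∀ a b, b ≠ 0 → ∃ q, ν (a - q * b) < ν b

/-- Partial frames: sets of columns of an invertible matrix. -/
def Fr (A : Type) [CommRing A] (n : ℕ) : Set (Finset (Fin n → A)) :=
  {σ | ∃ g : GL (Fin n) A, ∀ v ∈ σ, ∃ j, v = fun i => (g : Matrix (Fin n) (Fin n) A) i j}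

/-- The congruence subgroup of level `X ^ k`. -/
noncomputable def Ncg (F : Type) [Field F] (n k : ℕ) : Subgroup (GL (Fin n) (Polynomial F)) :=
  (Matrix.GeneralLinearGroup.map
    (Ideal.Quotient.mk (Ideal.span {(Polynomial.X : Polynomial F) ^ k}))).ker

/-- Transvections in row `a` or in column `a`. -/
def Tv (A : Type) [CommRing A] {n : ℕ} (a : Fin n) : Set (GL (Fin n) A) :=
  {g | ∃ j c, j ≠ a ∧ ((g : Matrix (Fin n) (Fin n) A) = Matrix.transvection a j c ∨
    (g : Matrix (Fin n) (Fin n) A) = Matrix.transvection j a c)}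

end Crest.Agent.R66
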