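import Crest.Agent.R66.Defs

set_option autoImplicit false

namespace Crest.Agent.R66

open Finset Polynomial

theorem euc_poly (F : Type) [Field F] : Euc F[X] := by
  classical
  refine ⟨fun a => if a = 0 then 0 else a.natDegree + 1, fun a => by by_cases h : a = 0 <;> simp [h],
    fun a b hb => ⟨a / b, ?_⟩⟩
  have h : a - a / b * b = a % b := by rw [EuclideanDomain.mod_eq_sub_mul_div, mul_comm]
  simp only [h, if_neg hb]
  split_ifs with h0
  · omega
  · exact Nat.succ_lt_succ (natDegree_lt_natDegree h0 (EuclideanDomain.mod_lt a hb))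

theorem Euc.of_surjective {A B : Type} [CommRing A] [CommRing B] (hA : Euc A) (f : A →+* B)
    (hf : Function.Surjective f) : Euc B := by
  classical
  obtain ⟨ν, h0, hν⟩ := hA
  have ex : ∀ b, ∃ m, ∃ p, f p = b ∧ ν p = m := fun b => let ⟨p, hp⟩ := hf b; ⟨_, p, hp, rfl⟩
  refine ⟨fun b => Nat.find (ex b), fun b => ?_, fun a b hb => ?_⟩
  · rw [Nat.find_eq_zero]
    exact ⟨fun ⟨p, hp, h⟩ => by rw [← hp, (h0 p).1 h, map_zero],
      fun h => ⟨0, by rw [h, map_zero], (h0 0).2 rfl⟩⟩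
  · obtain ⟨p, hp, h⟩ := Nat.find_spec (ex b)
    obtain ⟨r, rfl⟩ := hf a
    obtain ⟨q, hq⟩ := hν r p fun e => hb (by rw [← hp, e, map_zero])
    exact ⟨f q, (Nat.find_min' _ ⟨r - q * p, by simp [hp], rfl⟩).trans_lt (hq.trans_eq h)⟩

theorem euc_quot (F : Type) [Field F] (k : ℕ) :
    Euc (F[X] ⧸ Ideal.span {(X : F[X]) ^ k}) :=
  (euc_poly F).of_surjective _ Ideal.Quotient.mk_surjective

variable {A : Type} [CommRing A] {n : ℕ}

/-- The subgroup generated by all transvections. -/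
def El (A : Type) [CommRing A] (n : ℕ) : Subgroup (GL (Fin n) A) :=
  Subgroup.closure (⋃ a, Tv A a)

namespace Eucl

/-- A transvection as an invertible matrix. -/
def tv {i j : Fin n} (h : i ≠ j) (c : A) : GL (Fin n) A :=
  ⟨.transvection i j c, .transvection i j (-c),
    by rw [Matrix.transvection_mul_transvection_same _ _ h, add_neg_cancel, Matrix.transvection_zero],
    by rw [Matrix.transvection_mul_transvection_same _ _ h, neg_add_cancel, Matrix.transvection_zero]⟩

theorem smul_eq (g : GL (Fin n) A) (v : Fin n → A) :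
    g • v = (g : Matrix (Fin n) (Fin n) A).mulVec v := rfl

theorem tv_smul {i j : Fin n} (h : i ≠ j) (c : A) (v : Fin n → A) :
    tv h c • v = v + Pi.single i (c * v j) := by
  simp [tv, Matrix.transvection, Matrix.add_mulVec, Matrix.single_mulVec, Pi.single]

theorem tv_mem {i j : Fin n} (h : i ≠ j) (c : A) : tv h c ∈ El A n :=
  Subgroup.subset_closure (Set.mem_iUnion.2 ⟨i, j, c, h.symm, .inl rfl⟩)

theorem smul_single (g : GL (Fin n) A) (j : Fin n) :
    g • (Pi.single j 1 : Fin n → A) = fun i => (g : Matrix (Fin n) (Fin n) A) i j := by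
  rw [smul_eq, Matrix.mulVec_single_one]; rfl

theorem gl_ext {g h : GL (Fin n) A}
    (H : ∀ j, g • (Pi.single j 1 : Fin n → A) = h • (Pi.single j 1 : Fin n → A)) : g = h :=
  Units.ext (Matrix.ext fun i j => by simpa only [smul_single] using congrFun (H j) i)

theorem det_of_mem {g : GL (Fin n) A} (h : g ∈ El A n) :
    (g : Matrix (Fin n) (Fin n) A).det = 1 := by
  have : El A n ≤ Matrix.GeneralLinearGroup.det.ker := (Subgroup.closure_le _).2 fun g hg => by
    obtain ⟨a, j, c, hj, h | h⟩ := Set.mem_iUnion.1 hg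
    · exact Units.ext (by simp [h, Matrix.det_transvection_of_ne _ _ hj.symm])
    · exact Units.ext (by simp [h, Matrix.det_transvection_of_ne _ _ hj])
  exact congrArg Units.val (this h)

theorem exists_clear {a : Fin n} (β : Fin n → A) (s : Finset (Fin n)) (ha : a ∉ s) :
    ∃ g ∈ El A n, ∀ v : Fin n → A, g • v = v + ∑ j ∈ s, Pi.single j (β j * v a) := by
  induction s using Finset.induction_on with
  | empty => exact ⟨1, one_mem _, by simp⟩
  | insert j s hj ih =>
    obtain ⟨g, hg, h⟩ := ih fun h => ha (mem_insert_of_mem h)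
    have hja : j ≠ a := fun e => ha (e ▸ mem_insert_self _ _)
    refine ⟨g * tv hja (β j), mul_mem hg (tv_mem _ _), fun v => ?_⟩
    simp [mul_smul, h, tv_smul, sum_insert hj, hja, add_assoc]

theorem map_eq_sum (φ : (Fin n → A) →ₗ[A] A) {J : Finset (Fin n)}
    (h : ∀ j ∈ J, φ (Pi.single j 1) = 0) (b : Fin n → A) :
    φ b = ∑ i ∈ Jᶜ, φ (Pi.single i 1) * b i := by
  rw [LinearMap.pi_apply_eq_sum_univ φ b, ← sum_add_sum_compl J, sum_eq_zero, zero_add]
  · exact sum_congr rfl fun i _ => by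
      rw [smul_eq_mul, mul_comm]; congr 2; ext j; simp [Pi.single_apply, eq_comm]
  · intro i hi
    have : (fun j => if i = j then 1 else 0 : Fin n → A) = Pi.single i 1 := by
      ext j; simp [Pi.single_apply, eq_comm]
    rw [this, h i hi, smul_zero]

/-- The action as a linear map. -/
def lin (g : GL (Fin n) A) : (Fin n → A) →ₗ[A] Fin n → A :=
  (g : Matrix (Fin n) (Fin n) A).mulVecLin

@[simp] theorem lin_apply (g : GL (Fin n) A) (v : Fin n → A) : lin g v = g • v := rfl

end Eucl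

open Eucl

theorem exists_tv {i j : Fin n} (h : i ≠ j) (c : A) :
    ∃ g : GL (Fin n) A, (g : Matrix (Fin n) (Fin n) A) = Matrix.transvection i j c :=
  ⟨tv h c, rfl⟩

theorem closure_Tv (a : Fin n) : Subgroup.closure (Tv A a) = El A n := by
  refine le_antisymm (Subgroup.closure_mono (Set.subset_iUnion (Tv A) a))
    ((Subgroup.closure_le _).2 ?_)
  have h1 : ∀ {j} (h : a ≠ j) (c : A), tv h c ∈ Subgroup.closure (Tv A a) := fun h c =>
    Subgroup.subset_closure ⟨_, c, h.symm, .inl rfl⟩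
  have h2 : ∀ {j} (h : j ≠ a) (c : A), tv h c ∈ Subgroup.closure (Tv A a) := fun h c =>
    Subgroup.subset_closure ⟨_, c, h, .inr rfl⟩
  have key : ∀ {i j} (h : i ≠ j) (c : A), tv h c ∈ Subgroup.closure (Tv A a) := by
    intro i j h c
    by_cases hi : i = a
    · subst hi; exact h1 h c
    by_cases hj : a = j
    · subst hj; exact h2 h c
    have : tv h c = tv hi c * tv hj 1 * tv hi (-c) * tv hj (-1) := gl_ext fun l => by
      generalize (Pi.single l 1 : Fin n → A) = v
      simp only [mul_smul, tv_smul]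
      ext m
      by_cases hm : m = i
      · subst hm; simp [hi, hj, h]; ring
      by_cases hm' : m = a
      · subst hm'; simp [hi, hj, h]
      · simp [hm, hm']
    rw [this]
    exact mul_mem (mul_mem (mul_mem (h2 _ _) (h1 _ _)) (h2 _ _)) (h1 _ _)
  intro g hg
  obtain ⟨i, j, c, hj, h | h⟩ := Set.mem_iUnion.1 hg
  · exact (Units.ext h : g = tv hj.symm c) ▸ key _ _
  · exact (Units.ext h : g = tv hj c) ▸ key _ _

/-- The Euclidean algorithm on the coordinates outside `J`. -/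
theorem exists_reduce (hA : Euc A) (J : Finset (Fin n)) {a : Fin n} (ha : a ∉ J) (b : Fin n → A) :
    ∃ g ∈ El A n, (∀ j ∈ J, g • (Pi.single j 1 : Fin n → A) = Pi.single j 1) ∧
      (∀ j ∈ J, ∀ v : Fin n → A, (g • v) j = v j) ∧ ∀ i ∉ J, i ≠ a → (g • b) i = 0 := by
  obtain ⟨ν, -, hν⟩ := hA
  have step : ∀ {i j} (h : i ≠ j) (c : A) (b : Fin n → A), i ∉ J → j ∉ J →
      (∃ g ∈ El A n, (∀ j ∈ J, g • (Pi.single j 1 : Fin n → A) = Pi.single j 1) ∧
        (∀ j ∈ J, ∀ v : Fin n → A, (g • v) j = v j) ∧ ∀ i ∉ J, i ≠ a → (g • tv h c • b) i = 0) →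
      ∃ g ∈ El A n, (∀ j ∈ J, g • (Pi.single j 1 : Fin n → A) = Pi.single j 1) ∧
        (∀ j ∈ J, ∀ v : Fin n → A, (g • v) j = v j) ∧ ∀ i ∉ J, i ≠ a → (g • b) i = 0 := by
    rintro i j h c b hi hj ⟨g, hg, h1, h2, h3⟩
    refine ⟨g * tv h c, mul_mem hg (tv_mem h c), fun l hl => ?_, fun l hl v => ?_, fun l hl hl' => ?_⟩
    · have : j ≠ l := fun e => hj (e ▸ hl)
      simp [mul_smul, tv_smul, this, h1 l hl]
    · have : l ≠ i := fun e => hi (e ▸ hl)
      simp [mul_smul, tv_smul, this, h2 l hl]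
    · rw [mul_smul, h3 l hl hl']
  induction hN : ∑ i, ν (b i) using Nat.strong_induction_on generalizing b with | _ N ih => ?_
  by_cases h : ∃ i ∉ J, ∃ j ∉ J, i ≠ j ∧ b j ≠ 0 ∧ ν (b j) ≤ ν (b i)
  · obtain ⟨i, hi, j, hj, hij, hb, hle⟩ := h
    obtain ⟨q, hq⟩ := hν (b i) (b j) hb
    refine step hij (-q) b hi hj (ih _ (hN ▸ sum_lt_sum (fun l _ => ?_) ⟨i, mem_univ _, ?_⟩) _ rfl)
    · by_cases hl : l = i
      · subst hl; simpa [tv_smul, ← sub_eq_add_neg] using (hq.trans_le hle).le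
      · simp [tv_smul, hl]
    · simpa [tv_smul, ← sub_eq_add_neg] using hq.trans_le hle
  have h' : ∀ i ∉ J, ∀ j ∉ J, i ≠ j → b i ≠ 0 → b j = 0 := fun i hi j hj hij hb => by
    by_contra hc
    rcases le_total (ν (b i)) (ν (b j)) with hle | hle
    · exact h ⟨j, hj, i, hi, hij.symm, hb, hle⟩
    · exact h ⟨i, hi, j, hj, hij, hc, hle⟩
  by_cases h0 : ∀ i ∉ J, i ≠ a → b i = 0
  · exact ⟨1, one_mem _, by simp, by simp, by simpa using h0⟩
  push Not at h0
  obtain ⟨i, hi, hia, hb⟩ := h0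
  refine step hia.symm 1 b ha hi (step hia (-1) _ hi ha ⟨1, one_mem _, by simp, by simp,
    fun l hl hla => ?_⟩)
  by_cases hli : l = i
  · subst hli; simp [tv_smul, hia, h' l hi a ha hia hb]
  · simp [tv_smul, hli, hla, h' i hi l hl (Ne.symm hli) hb]

/-- A vector that is unimodular outside `J` can be moved to a basis vector. -/
theorem exists_smul_eq_single (hA : Euc A) (J : Finset (Fin n)) {a : Fin n} (ha : a ∉ J)
    {b : Fin n → A} (hb : ∃ c : Fin n → A, ∑ i ∈ Jᶜ, c i * b i = 1) :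
    ∃ g : GL (Fin n) A, (∀ j ∈ J, g • (Pi.single j 1 : Fin n → A) = Pi.single j 1) ∧
      g • b = Pi.single a 1 ∧ ((∃ a' ∉ J, a' ≠ a) → g ∈ El A n) := by
  obtain ⟨c, hc⟩ := hb
  obtain ⟨g, hg, h1, -, h3⟩ := exists_reduce hA J ha b
  have hja : ∀ j ∈ J, a ≠ j := fun j hj e => ha (e ▸ hj)
  obtain ⟨w, hw⟩ : ∃ w, w * (g • b) a = 1 := by
    let φ : (Fin n → A) →ₗ[A] A := (∑ i ∈ Jᶜ, c i • LinearMap.proj i) ∘ₗ lin g⁻¹
    have := map_eq_sum φ (J := J) (fun j hj => by
      have e : g⁻¹ • (Pi.single j 1 : Fin n → A) = Pi.single j 1 := by rw [inv_smul_eq_iff, h1 j hj]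
      simp only [φ, LinearMap.comp_apply, lin_apply, e, LinearMap.sum_apply]
      exact sum_eq_zero fun i hi => by
        have : i ≠ j := fun e => mem_compl.1 hi (e ▸ hj)
        simp [this]) (g • b)
    rw [sum_eq_single a (fun i hi hia => by rw [h3 i (mem_compl.1 hi) hia, mul_zero])
      (fun h => (h (mem_compl.2 ha)).elim)] at this
    exact ⟨_, this.symm.trans (by simpa [φ] using hc)⟩
  generalize hb' : g • b = b' at h3 hw
  obtain ⟨g₂, k1, k2, k3⟩ : ∃ g₂ : GL (Fin n) A,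
      (∀ j ∈ J, g₂ • (Pi.single j 1 : Fin n → A) = Pi.single j 1) ∧
      g₂ • b' = Function.update b' a 1 ∧ ((∃ a' ∉ J, a' ≠ a) → g₂ ∈ El A n) := by
    by_cases h : ∃ a' ∉ J, a' ≠ a
    · obtain ⟨a', ha', h⟩ := h
      refine ⟨tv h (-1) * tv h.symm (1 - b' a) * tv h w, fun j hj => ?_, ?_,
        fun _ => mul_mem (mul_mem (tv_mem _ _) (tv_mem _ _)) (tv_mem _ _)⟩
      · have : a' ≠ j := fun e => ha' (e ▸ hj)
        simp [mul_smul, tv_smul, this, hja j hj]
      · ext l
        by_cases hl : l = a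
        · subst hl; simp [mul_smul, tv_smul, h, hw, h3 a' ha' h]
        by_cases hl' : l = a'
        · subst hl'; simp [mul_smul, tv_smul, h, hw, h3 l ha' h]
        · simp [mul_smul, tv_smul, hl, hl']
    · have e : ∀ x y : A, x * y = 1 → Matrix.diagonal (Function.update (1 : Fin n → A) a x) *
          Matrix.diagonal (Function.update (1 : Fin n → A) a y) = 1 := fun x y hxy => by
        rw [Matrix.diagonal_mul_diagonal, ← Matrix.diagonal_one]
        congr 1
        ext l
        by_cases hl : l = a <;> simp [hl, hxy]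
      refine ⟨⟨_, _, e _ _ hw, e _ _ ((mul_comm _ _).trans hw)⟩, fun j hj => ?_, ?_,
        fun h' => (h h').elim⟩
      · ext l
        by_cases hl : l = a <;> simp [Matrix.mulVec_diagonal, hl, hja j hj]
      · ext l
        by_cases hl : l = a <;> simp [Matrix.mulVec_diagonal, hl, hw]
  obtain ⟨g₃, m1, m2⟩ := exists_clear (fun j => -b' j) J ha
  refine ⟨g₃ * g₂ * g, fun j hj => ?_, ?_, fun h => mul_mem (mul_mem m1 (k3 h)) hg⟩
  · simp [mul_smul, h1 j hj, k1 j hj, m2, hja j hj]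
  · rw [mul_smul, mul_smul, hb', k2, m2]
    ext l
    by_cases hl : l = a
    · subst hl; simp [Pi.single_apply, ha]
    by_cases hl' : l ∈ J
    · simp [Pi.single_apply, hl, hl']
    · simp [Pi.single_apply, hl, hl', h3 l hl' hl]

theorem mem_El_of_det (hA : Euc A) {g : GL (Fin n) A}
    (hg : (g : Matrix (Fin n) (Fin n) A).det = 1) : g ∈ El A n := by
  rcases isEmpty_or_nonempty (Fin n) with hn | ⟨⟨a⟩⟩
  · exact (gl_ext fun j => hn.elim j : g = 1) ▸ one_mem _
  have key : ∀ J : Finset (Fin n), a ∉ J →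
      ∃ h ∈ El A n, ∀ j ∈ J, (h * g) • (Pi.single j 1 : Fin n → A) = Pi.single j 1 := by
    intro J
    induction J using Finset.induction_on with
    | empty => exact fun _ => ⟨1, one_mem _, by simp⟩
    | insert i J hi ih =>
      intro ha
      rw [mem_insert, not_or] at ha
      obtain ⟨h, hh, h1⟩ := ih ha.2
      obtain ⟨h', k1, k2, k3⟩ := exists_smul_eq_single hA J hi
        (b := (h * g) • (Pi.single i 1 : Fin n → A)) ⟨_, (map_eq_sum
          (LinearMap.proj i ∘ₗ lin (h * g)⁻¹) (fun j hj => by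
            have : i ≠ j := fun e => hi (e ▸ hj)
            simp [(inv_smul_eq_iff.2 (h1 j hj).symm :), this, -mul_inv_rev]) _).symm.trans
              (by simp [-mul_inv_rev])⟩
      refine ⟨h' * h, mul_mem (k3 ⟨a, ha.2, ha.1⟩) hh, fun j hj => ?_⟩
      rw [mul_assoc, mul_smul]
      rcases mem_insert.1 hj with rfl | hj
      · exact k2
      · rw [h1 j hj, k1 j hj]
  obtain ⟨h, hh, h1⟩ := key {a}ᶜ (by simp)
  have h2 : ((h * g) • (Pi.single a 1 : Fin n → A)) a = 1 := by
    have e : ((h * g : GL (Fin n) A) : Matrix (Fin n) (Fin n) A) =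
        (1 : Matrix (Fin n) (Fin n) A).updateCol a ((h * g) • (Pi.single a 1 : Fin n → A)) := by
      ext i j
      by_cases hj : j = a
      · subst hj; rw [Matrix.updateCol_self, smul_single]
      · have := congrFun (h1 j (by simpa using hj)) i
        rw [smul_single, Pi.single_apply] at this
        rw [Matrix.updateCol_ne hj, Matrix.one_apply]
        exact this
    have := congrArg Matrix.det e
    rwa [← Matrix.cramer_apply, Matrix.cramer_one, Units.val_mul, Matrix.det_mul, det_of_mem hh, hg,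
      one_mul, eq_comm] at this
  obtain ⟨h', hh', h3⟩ := exists_clear (a := a)
    (fun j => -((h * g) • (Pi.single a 1 : Fin n → A)) j) {a}ᶜ (by simp)
  have : h' * (h * g) = 1 := gl_ext fun j => by
    rw [mul_smul, h3, one_smul]
    by_cases hj : a = j
    · subst hj
      ext l
      by_cases hl : l = a <;> simp [Pi.single_apply, hl, h2]
    · simp [h1 j (by simpa using Ne.symm hj), hj]
  rw [← mul_assoc, mul_eq_one_iff_inv_eq] at this
  exact this ▸ inv_mem (mul_mem hh' hh)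

theorem mem_Fr_iff {σ : Finset (Fin n → A)} :
    σ ∈ Fr A n ↔ ∃ g : GL (Fin n) A, ∀ v ∈ σ, ∃ j, v = g • (Pi.single j 1 : Fin n → A) := by
  simp only [smul_single]; rfl

variable [DecidableEq (Fin n → A)]

set_option linter.unusedSectionVars false in
theorem down_Fr : Down (Fr A n) := fun _ ⟨g, hg⟩ _ h => ⟨g, fun v hv => hg v (h hv)⟩

set_option linter.unusedSectionVars false in
theorem empty_mem_Fr : ∅ ∈ Fr A n := ⟨1, by simp⟩

theorem inv_Fr : Inv (GL (Fin n) A) (Fr A n) := by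
  intro g σ h
  obtain ⟨g', h⟩ := mem_Fr_iff.1 h
  refine mem_Fr_iff.2 ⟨g * g', fun v hv => ?_⟩
  obtain ⟨u, hu, rfl⟩ := mem_image.1 hv
  obtain ⟨j, rfl⟩ := h u hu
  exact ⟨j, (mul_smul _ _ _).symm⟩

/-- Every frame is a translate of a standard frame. -/
theorem exists_std_of_mem_Fr [Nontrivial A] {σ : Finset (Fin n → A)} (h : σ ∈ Fr A n) :
    ∃ (g : GL (Fin n) A) (J : Finset (Fin n)), J.card = σ.card ∧
      σ = J.image fun j => g • (Pi.single j 1 : Fin n → A) := by
  obtain ⟨g, h⟩ := mem_Fr_iff.1 h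
  have e : σ = (univ.filter fun j => g • (Pi.single j 1 : Fin n → A) ∈ σ).image
      fun j => g • (Pi.single j 1 : Fin n → A) := by
    ext v
    simp only [mem_image, mem_filter, mem_univ, true_and]
    exact ⟨fun hv => let ⟨j, hj⟩ := h v hv; ⟨j, hj ▸ hv, hj.symm⟩, fun ⟨j, hj, e⟩ => e ▸ hj⟩
  refine ⟨g, _, ?_, e⟩
  conv_rhs => rw [e]
  refine (card_image_of_injective _ fun i j hij => ?_).symm
  by_contra hc
  simpa [hc] using congrFun (MulAction.injective g hij) i

theorem insert_mem_Fr [Nontrivial A] (hA : Euc A) {σ : Finset (Fin n → A)} (h : σ ∈ Fr A n)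
    (φ : (Fin n → A) →ₗ[A] A) (hφ : ∀ v ∈ σ, φ v = 0) {e : Fin n → A} (he : φ e = 1) :
    insert e σ ∈ Fr A n := by
  obtain ⟨g, J, -, rfl⟩ := exists_std_of_mem_Fr h
  have h1 := (map_eq_sum (φ ∘ₗ lin g) (J := J) (fun j hj => hφ _ (mem_image_of_mem _ hj))
    (g⁻¹ • e)).symm.trans (show _ = 1 by simpa using he)
  obtain ⟨a, ha⟩ := nonempty_of_sum_ne_zero (h1.trans_ne one_ne_zero)
  obtain ⟨g', k1, k2, -⟩ := exists_smul_eq_single hA J (mem_compl.1 ha) ⟨_, h1⟩
  refine mem_Fr_iff.2 ⟨g * g'⁻¹, fun v hv => ?_⟩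
  rcases mem_insert.1 hv with rfl | hv
  · exact ⟨a, by rw [mul_smul, ← k2, inv_smul_smul, smul_inv_smul]⟩
  · obtain ⟨j, hj, rfl⟩ := mem_image.1 hv
    exact ⟨j, by rw [mul_smul, inv_smul_eq_iff.2 (k1 j hj).symm]⟩

end Crest.Agent.R66
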