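import Crest.Agent.R66.Small

set_option autoImplicit false

namespace Crest.Agent.R66

open Finset

/-- Coboundary expansion in the chamber weights. -/
theorem expand (n R : ℕ) : ∃ q₀ : ℕ, ∀ D : ℕ, ∃ C : ℕ, ∀ (V : Type) [DecidableEq V] [Fintype V]
    (X : Geo n V) (G : Type) [Group G] [Fintype G] [MulAction G V] (q : ℕ), q₀ ≤ q → X.Trans G →
    X.Thick q → X.Rank2 q → X.Cones R → SEx X.K 1 → X.Deg D → ∀ a, a + 2 < n → X.Vanish a →
    ∀ f : Finset V → F2, ∃ g : Finset V → F2,
      X.W (f + cob g) (a + 1) ≤ C * X.W (cob f) (a + 2) := by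
  obtain ⟨q₀, m, -, H⟩ := small_zero n R
  refine ⟨q₀, fun D => ⟨2 ^ D * 2 ^ n + 2 ^ n * m, ?_⟩⟩
  intro V _ _ X G _ _ _ q hq hT h₁ h₂ hR hS hD a ha hV
  have key : ∀ w, ∀ f : Finset V → F2, X.W (cob f) (a + 2) = w → m * w < X.ch.card →
      ∃ g : Finset V → F2, X.W (f + cob g) (a + 1) ≤ 2 ^ D * 2 ^ n * w := by
    intro w
    induction w using Nat.strong_induction_on with
    | _ w ih =>
      intro f hw hm
      by_cases hmin : ∀ σ ∈ X.K, σ.Nonempty → X.MinAt (cob f) (a + 2) σ
      · have h0 := H V X G q hq hT h₁ h₂ hR hS (a + 2) (by omega) ha (cob f)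
          (fun τ _ _ => by rw [cob_cob]; rfl) hmin (by rwa [hw])
        obtain ⟨g, hg⟩ := hV f ((X.W_eq_zero_iff _ _).1 h0)
        refine ⟨g, le_of_eq_of_le ((X.W_eq_zero_iff _ _).2 fun σ hσ hc => ?_) (Nat.zero_le _)⟩
        rw [Pi.add_apply, hg σ hσ hc, CharTwo.add_self_eq_zero]
      · simp only [Geo.MinAt, not_forall, not_le] at hmin
        obtain ⟨σ, -, ⟨v, hv⟩, h, hh, hlt⟩ := hmin
        rw [← cob_add, hw] at hlt
        obtain ⟨g, hg⟩ := ih _ hlt (f + h) rfl
          ((Nat.mul_le_mul_left m hlt.le).trans_lt hm)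
        have hWh : X.W h (a + 1) ≤ 2 ^ D * 2 ^ n := by
          have h3 : X.W h (a + 1) = ∑ c ∈ X.ch.filter (fun c => v ∈ c),
              ((c.powersetCard (a + 1)).filter fun σ => h σ ≠ 0).card := by
            rw [Geo.W, sum_filter]
            refine sum_congr rfl fun c _ => ?_
            split_ifs with hc
            · rfl
            · rw [card_eq_zero, filter_eq_empty_iff]
              intro ρ hρ hne
              exact hc ((mem_powersetCard.1 hρ).1 (hh ρ hne hv))
          rw [h3]
          refine (sum_le_card_nsmul _ _ (2 ^ n) fun c hc => ?_).trans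
            (Nat.mul_le_mul_right _ (X.card_filter_mem_le hD v))
          refine (card_filter_le _ _).trans ?_
          rw [card_powersetCard, (X.mem_ch.1 (mem_filter.1 hc).1).2]
          exact Nat.choose_le_two_pow _ _
        refine ⟨g, ?_⟩
        have h4 : f + cob g = f + h + cob g + h := by
          funext ρ
          simp only [Pi.add_apply]
          linear_combination (-1 : F2) * CharTwo.add_self_eq_zero (h ρ)
        rw [h4]
        refine (X.W_add_le _ _ _).trans ((add_le_add hg hWh).trans ?_)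
        rw [← Nat.mul_succ]
        exact Nat.mul_le_mul_left _ hlt
  intro f
  by_cases hm : m * X.W (cob f) (a + 2) < X.ch.card
  · obtain ⟨g, hg⟩ := key _ f rfl hm
    exact ⟨g, hg.trans (Nat.mul_le_mul_right _ (Nat.le_add_right _ _))⟩
  · refine ⟨0, (X.W_le _ _).trans ((Nat.mul_le_mul_left _ (not_lt.1 hm)).trans ?_)⟩
    rw [← mul_assoc]
    exact Nat.mul_le_mul_right _ (Nat.le_add_left _ _)

end Crest.Agent.R66
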