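import Crest.Agent.R66.GeoB
import Crest.Prelude.Def_Cochain

set_option autoImplicit false

namespace Crest.Agent.R66

open Finset Crest.CombinatoricsR.Cochain

namespace Fin_

open Classical in
/-- The faces with `b` vertices in the support of `f`. -/
noncomputable def sup {V : Type} [Fintype V] (K : Set (Finset V)) (f : Finset V → F2) (b : ℕ) :
    Finset (Finset V) := univ.filter fun σ => σ ∈ K ∧ σ.card = b ∧ f σ ≠ 0

theorem mem_sup {V : Type} [Fintype V] {K : Set (Finset V)} {f : Finset V → F2} {b : ℕ}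
    {σ : Finset V} : σ ∈ sup K f b ↔ σ ∈ K ∧ σ.card = b ∧ f σ ≠ 0 := by
  simp [sup]

/-- The properties of the complex that are used. -/
structure Nice {V : Type} [DecidableEq V] [Fintype V] (K : Set (Finset V)) (d D C : ℕ) : Prop where
  down : Down K
  pure : ∀ σ ∈ K, σ.card ≤ d + 1 → ∃ τ ∈ K, σ ⊆ τ ∧ τ.card = d + 1
  vert : ∀ v, {v} ∈ K
  deg : ∀ v, ∃ s : Finset V, s.card ≤ D ∧ ∀ u, {v, u} ∈ K → u ∈ s
  conn : ∀ φ : V → Prop, (∀ x y, {x, y} ∈ K → φ x = φ y) → ∀ x y, φ x = φ y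
  ne : Nonempty V
  exp : ∀ a < d, ∀ f : Finset V → F2, ∃ g : Finset V → F2,
    (sup K (f + cob g) (a + 1)).card ≤ C * (sup K (cob f) (a + 2)).card

section geo

variable {n : ℕ} {V : Type} [DecidableEq V] [Fintype V] (X : Geo n V)

theorem W_eq (f : Finset V → F2) (b : ℕ) :
    X.W f b = ∑ σ ∈ sup X.K f b, (X.ch.filter fun c => σ ⊆ c).card := by
  have h1 : ∀ c ∈ X.ch, ((c.powersetCard b).filter fun σ => f σ ≠ 0) =
      (sup X.K f b).filter fun σ => σ ⊆ c := by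
    intro c hc
    ext σ
    simp only [mem_filter, mem_powersetCard, mem_sup]
    exact ⟨fun h => ⟨⟨X.down c (X.mem_ch.1 hc).1 σ h.1.1, h.1.2, h.2⟩, h.1.1⟩,
      fun h => ⟨⟨h.2, h.1.2.1⟩, h.1.2.2⟩⟩
  rw [Geo.W, sum_congr rfl fun c hc => by rw [h1 c hc]]
  simp only [card_filter]
  exact sum_comm

theorem card_sup_le_W (f : Finset V → F2) (b : ℕ) : (sup X.K f b).card ≤ X.W f b := by
  rw [W_eq, card_eq_sum_ones]
  refine sum_le_sum fun σ hσ => ?_
  obtain ⟨c, hc, h1, h2⟩ := X.pure σ (mem_sup.1 hσ).1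
  exact card_pos.2 ⟨c, mem_filter.2 ⟨X.mem_ch.2 ⟨hc, h2⟩, h1⟩⟩

theorem W_le_card_sup {D : ℕ} (h : X.Deg D) (f : Finset V → F2) (b : ℕ) :
    X.W f (b + 1) ≤ 2 ^ D * (sup X.K f (b + 1)).card := by
  rw [W_eq, mul_comm, ← smul_eq_mul]
  refine sum_le_card_nsmul _ _ _ fun σ hσ => ?_
  obtain ⟨v, hv⟩ : σ.Nonempty := card_pos.1 (by rw [(mem_sup.1 hσ).2.1]; omega)
  refine le_trans (card_le_card fun c hc => ?_) (X.card_filter_mem_le h v)
  rw [mem_filter] at hc ⊢
  exact ⟨hc.1, hc.2 hv⟩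

theorem nice_of_geo {d D C : ℕ} (hn : d + 1 ≤ n) (hv : ∀ v, {v} ∈ X.K) (hs : SEx X.K 1)
    (hD : X.Deg D) (h : ∀ a < d, ∀ f : Finset V → F2, ∃ g : Finset V → F2,
      X.W (f + cob g) (a + 1) ≤ C * X.W (cob f) (a + 2)) : Nice X.K d D (C * 2 ^ D) where
  down := X.down
  pure σ hσ hc := by
    obtain ⟨c, hc1, h1, h2⟩ := X.pure σ hσ
    obtain ⟨τ, h3, h4, h5⟩ := exists_subsuperset_card_eq h1 hc (h2 ▸ hn)
    exact ⟨τ, X.down c hc1 τ h4, h3, h5⟩
  vert := hv
  deg := hD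
  conn φ hφ x y := hs.const φ hφ (hv x) (hv y)
  ne := by
    obtain ⟨c, -, -, h2⟩ := X.pure ∅ X.empty
    obtain ⟨v, -⟩ : c.Nonempty := card_pos.1 (by omega)
    exact ⟨v⟩
  exp a ha f := by
    obtain ⟨g, hg⟩ := h a ha f
    refine ⟨g, (card_sup_le_W X _ _).trans (hg.trans ?_)⟩
    rw [mul_assoc]
    exact Nat.mul_le_mul_left _ (W_le_card_sup X hD _ (a + 1))

end geo

section map

variable {V V' : Type} [DecidableEq V] [Fintype V] [DecidableEq V'] [Fintype V']

omit [Fintype V] [Fintype V'] in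
theorem cob_map (e : V ≃ V') (f : Finset V' → F2) (σ : Finset V) :
    cob (fun ρ : Finset V => f (ρ.map e.toEmbedding)) σ = cob f (σ.map e.toEmbedding) := by
  simp only [cob, sum_map, map_erase]

omit [DecidableEq V] [DecidableEq V'] in
theorem card_sup_map (e : V ≃ V') (K : Set (Finset V')) (f : Finset V' → F2) (b : ℕ) :
    (sup {σ : Finset V | σ.map e.toEmbedding ∈ K} (fun ρ => f (ρ.map e.toEmbedding)) b).card =
      (sup K f b).card := by
  refine card_equiv e.finsetCongr fun σ => ?_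
  simp only [mem_sup, Set.mem_ofPred_eq, Equiv.finsetCongr_apply, card_map]

theorem Nice.map {K : Set (Finset V')} {d D C : ℕ} (h : Nice K d D C) (e : V ≃ V') :
    Nice {σ : Finset V | σ.map e.toEmbedding ∈ K} d D C where
  down σ hσ τ hτ := h.down _ hσ _ (map_subset_map.2 hτ)
  pure σ hσ hc := by
    obtain ⟨τ, h1, h2, h3⟩ := h.pure _ hσ (by rwa [card_map])
    obtain ⟨τ', rfl⟩ := e.finsetCongr.surjective τ
    exact ⟨τ', h1, map_subset_map.1 h2, by simpa using h3⟩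
  vert v := by simpa using h.vert (e v)
  deg v := by
    obtain ⟨s, h1, h2⟩ := h.deg (e v)
    refine ⟨s.map e.symm.toEmbedding, by rwa [card_map], fun u hu => ?_⟩
    simpa using h2 (e u) (by simpa using hu)
  conn φ hφ x y := by
    have := h.conn (fun v => φ (e.symm v)) (fun x y hxy => hφ _ _ (by simpa using hxy)) (e x) (e y)
    simpa using this
  ne := ⟨e.symm h.ne.some⟩
  exp a ha f := by
    obtain ⟨g, hg⟩ := h.exp a ha fun ρ => f (ρ.map e.symm.toEmbedding)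
    refine ⟨fun ρ => g (ρ.map e.toEmbedding), ?_⟩
    rw [← card_sup_map e, ← card_sup_map e] at hg
    convert hg using 4 with ρ ρ
    · simp [cob_map, map_map]
    · ext ρ
      rw [cob_map]
      simp [map_map]

end map

section fin

variable {N : ℕ} {K : Set (Finset (Fin N))} {d D C : ℕ}

theorem coboundary_eq (i : ℕ) (f : Finset (Fin N) → F2) {τ : Finset (Fin N)}
    (hτ : τ.card = i + 2) : coboundary i f τ = cob f τ := by
  refine (sum_bij (fun v _ => τ.erase v) (fun v hv => ?_) (fun v hv w _ e => ?_)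
    (fun ρ hρ => ?_) fun _ _ => rfl).symm
  · rw [mem_powersetCard, card_erase_of_mem hv, hτ]
    exact ⟨erase_subset _ _, rfl⟩
  · exact (erase_inj τ hv).1 e
  · rw [mem_powersetCard] at hρ
    obtain ⟨v, hv, rfl⟩ := exists_eq_insert_iff.2 ⟨hρ.1, by omega⟩
    exact ⟨v, mem_insert_self _ _, erase_insert hv⟩

/-- The top faces. -/
noncomputable def top (K : Set (Finset (Fin N))) (d : ℕ) : Finset (Finset (Fin N)) :=
  sup K (fun _ => 1) (d + 1)

theorem mem_top {τ : Finset (Fin N)} : τ ∈ top K d ↔ τ ∈ K ∧ τ.card = d + 1 := by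
  simp [top, mem_sup]

theorem Nice.deg_le (h : Nice K d D C) (v : Fin N) : vertexDegree (top K d) v ≤ 2 ^ D := by
  obtain ⟨s, h1, h2⟩ := h.deg v
  refine le_trans (card_le_card (t := s.powerset) fun τ hτ => ?_) ?_
  · rw [mem_filter, mem_top] at hτ
    refine mem_powerset.2 fun u hu => h2 u (h.down _ hτ.1.1 _ ?_)
    rw [insert_subset_iff, singleton_subset_iff]
    exact ⟨hτ.2, hu⟩
  · rw [card_powerset]
    exact Nat.pow_le_pow_right (by norm_num) h1

theorem Nice.norm_eq (h : Nice K d D C) (i : ℕ) (f : Finset (Fin N) → F2) :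
    cochainNorm d (top K d) i f =
      (∑ σ ∈ sup K f (i + 1), ((top K d).filter fun τ => σ ⊆ τ).card : ℕ) /
        (((d + 1).choose (i + 1) : ℝ) * (top K d).card) := by
  rw [cochainNorm, Nat.cast_sum, sum_div]
  refine (sum_subset (fun σ hσ => ?_) fun σ h1 h2 => ?_).symm
  · rw [mem_sup] at hσ
    simp [hσ.2.1, hσ.2.2]
  · simp only [mem_filter, mem_powersetCard, subset_univ, true_and] at h1
    have : ((top K d).filter fun τ => σ ⊆ τ) = ∅ := by
      refine filter_eq_empty_iff.2 fun τ hτ hs => h2 (mem_sup.2 ⟨?_, h1⟩)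
      exact h.down _ (mem_top.1 hτ).1 _ hs
    simp [faceWeight, this]

theorem Nice.norm_le (h : Nice K d D C) {i : ℕ} (hi : i ≤ d) (f : Finset (Fin N) → F2) :
    cochainNorm d (top K d) i f ≤ 2 ^ D * (sup K f (i + 1)).card / (top K d).card := by
  rw [h.norm_eq, ← div_div]
  refine div_le_div_of_nonneg_right ?_ (Nat.cast_nonneg _)
  have h1 : (1 : ℝ) ≤ (d + 1).choose (i + 1) := by
    exact_mod_cast Nat.choose_pos (by omega)
  refine (div_le_self (Nat.cast_nonneg _) h1).trans ?_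
  have h2 : ∑ σ ∈ sup K f (i + 1), ((top K d).filter fun τ => σ ⊆ τ).card ≤
      2 ^ D * (sup K f (i + 1)).card := by
    rw [mul_comm, ← smul_eq_mul]
    refine sum_le_card_nsmul _ _ _ fun σ hσ => ?_
    obtain ⟨v, hv⟩ : σ.Nonempty := card_pos.1 (by rw [(mem_sup.1 hσ).2.1]; omega)
    refine le_trans (card_le_card fun c hc => ?_) (h.deg_le v)
    rw [mem_filter] at hc ⊢
    exact ⟨hc.1, hc.2 hv⟩
  exact_mod_cast h2

theorem Nice.le_norm (h : Nice K d D C) {i : ℕ} (hi : i ≤ d) (f : Finset (Fin N) → F2) :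
    ((sup K f (i + 1)).card : ℝ) / 2 ^ (d + 1) / (top K d).card ≤ cochainNorm d (top K d) i f := by
  rw [h.norm_eq, ← div_div]
  refine div_le_div_of_nonneg_right ?_ (Nat.cast_nonneg _)
  have h1 : (0 : ℝ) < (d + 1).choose (i + 1) := by
    exact_mod_cast Nat.choose_pos (by omega)
  have h2 : (((d + 1).choose (i + 1) : ℕ) : ℝ) ≤ 2 ^ (d + 1) := by
    exact_mod_cast Nat.choose_le_two_pow _ _
  have h3 : (sup K f (i + 1)).card ≤
      ∑ σ ∈ sup K f (i + 1), ((top K d).filter fun τ => σ ⊆ τ).card := by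
    rw [card_eq_sum_ones]
    refine sum_le_sum fun σ hσ => ?_
    rw [mem_sup] at hσ
    obtain ⟨τ, h4, h5, h6⟩ := h.pure σ hσ.1 (by omega)
    exact card_pos.2 ⟨τ, mem_filter.2 ⟨mem_top.2 ⟨h4, h6⟩, h5⟩⟩
  exact div_le_div₀ (Nat.cast_nonneg _) (by exact_mod_cast h3) h1 h2

theorem sup_congr {f g : Finset (Fin N) → F2} {b : ℕ} (h : ∀ σ, σ.card = b → f σ = g σ) :
    sup K f b = sup K g b := by
  ext σ
  simp only [mem_sup]
  exact and_congr_right fun _ => and_congr_right fun hσ => by rw [h σ hσ]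

theorem Nice.final (h : Nice K d D C) (hd : 1 ≤ d) :
    (∀ τ ∈ top K d, τ.card = d + 1) ∧
    (∀ v, 1 ≤ vertexDegree (top K d) v ∧ vertexDegree (top K d) v ≤ 2 ^ D) ∧
    (skeleton (top K d)).Connected ∧
    ∀ i : ℕ, i < d → ∀ f : Finset (Fin N) → ZMod 2,
      ∃ b : Finset (Fin N) → ZMod 2, IsCoboundaryClass i b ∧
        1 / (2 ^ D * (C : ℝ) * 2 ^ (d + 1) + 1) * cochainNorm d (top K d) i (f - b) ≤
          cochainNorm d (top K d) (i + 1) (coboundary i f) := by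
  refine ⟨fun τ hτ => (mem_top.1 hτ).2, fun v => ⟨?_, h.deg_le v⟩, ?_, fun i hi f => ?_⟩
  · obtain ⟨τ, h1, h2, h3⟩ := h.pure _ (h.vert v) (by simp)
    exact card_pos.2 ⟨τ, mem_filter.2 ⟨mem_top.2 ⟨h1, h3⟩, singleton_subset_iff.1 h2⟩⟩
  · have := h.ne
    refine ⟨fun x y => ?_⟩
    have h1 := h.conn (fun v => (skeleton (top K d)).Reachable x v) (fun u v huv => ?_) x y
    · exact h1 ▸ SimpleGraph.Reachable.refl x
    · by_cases e : u = v
      · rw [e]
      · obtain ⟨τ, h2, h3, h4⟩ := h.pure _ huv (card_le_two.trans (by omega))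
        have h5 : (skeleton (top K d)).Adj u v :=
          ⟨e, τ, mem_top.2 ⟨h2, h4⟩, h3 (by simp), h3 (by simp)⟩
        exact propext ⟨fun h6 => h6.trans h5.reachable, fun h6 => h6.trans h5.symm.reachable⟩
  · obtain ⟨g, hg⟩ := h.exp i hi f
    have hb : ∃ b : Finset (Fin N) → ZMod 2, IsCoboundaryClass i b ∧
        ∀ σ, σ.card = i + 1 → b σ = cob g σ := by
      rcases i with _ | i
      · refine ⟨fun _ => g ∅, Or.inl ⟨rfl, g ∅, fun _ => rfl⟩, fun σ hσ => ?_⟩
        obtain ⟨v, rfl⟩ := card_eq_one.1 hσ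
        simp [cob]
      · exact ⟨coboundary i g, Or.inr ⟨by omega, g, rfl⟩, fun σ hσ => coboundary_eq i g hσ⟩
    obtain ⟨b, hb1, hb2⟩ := hb
    refine ⟨b, hb1, le_trans ?_ (h.le_norm (show i + 1 ≤ d from hi) _)⟩
    have h1 := h.norm_le hi.le (f - b)
    rw [sup_congr (g := f + cob g) fun σ hσ => by
      rw [Pi.sub_apply, Pi.add_apply, hb2 σ hσ, CharTwo.sub_eq_add]] at h1
    rw [sup_congr (g := cob f) fun σ hσ => coboundary_eq i f hσ]
    refine (mul_le_mul_of_nonneg_left h1 (by positivity)).trans ?_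
    rw [← mul_div_assoc]
    refine div_le_div_of_nonneg_right ?_ (Nat.cast_nonneg _)
    have h2 : ((sup K (f + cob g) (i + 1)).card : ℝ) ≤ C * (sup K (cob f) (i + 2)).card := by
      exact_mod_cast hg
    rw [one_div_mul_eq_div, div_le_div_iff₀ (by positivity) (by positivity)]
    have h3 := mul_le_mul_of_nonneg_left h2 (show (0 : ℝ) ≤ 2 ^ D * 2 ^ (d + 1) by positivity)
    have h4 : (0 : ℝ) ≤ (sup K (cob f) (i + 2)).card := Nat.cast_nonneg _
    nlinarith

end fin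

end Fin_

/-- From chamber weights to the norms of the skeleton. -/
theorem final (d n D C : ℕ) (hd : 1 ≤ d) (hn : d + 1 ≤ n) : ∃ D' : ℕ, ∃ ε : ℝ, 0 < ε ∧
    ∀ (V : Type) [DecidableEq V] [Fintype V] (X : Geo n V), (∀ v, {v} ∈ X.K) → SEx X.K 1 →
    X.Deg D → (∀ a < d, ∀ f : Finset V → F2, ∃ g : Finset V → F2,
      X.W (f + cob g) (a + 1) ≤ C * X.W (cob f) (a + 2)) →
    ∃ T : Finset (Finset (Fin (Fintype.card V))),
      (∀ τ ∈ T, τ.card = d + 1) ∧
      (∀ v, 1 ≤ vertexDegree T v ∧ vertexDegree T v ≤ D') ∧ (skeleton T).Connected ∧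
      ∀ i : ℕ, i < d → ∀ f : Finset (Fin (Fintype.card V)) → ZMod 2,
        ∃ b : Finset (Fin (Fintype.card V)) → ZMod 2, IsCoboundaryClass i b ∧
          ε * cochainNorm d T i (f - b) ≤ cochainNorm d T (i + 1) (coboundary i f) :=
  ⟨2 ^ D, 1 / (2 ^ D * ((C * 2 ^ D : ℕ) : ℝ) * 2 ^ (d + 1) + 1), by positivity,
    fun V _ _ X hv hs hD h =>
      ⟨_, ((Fin_.nice_of_geo X hn hv hs hD h).map (Fintype.equivFin V).symm).final hd⟩⟩

end Crest.Agent.R66
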