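import Crest.Agent.R66.Euclid
import Crest.Agent.R66.Morse

set_option autoImplicit false

namespace Crest.Agent.R66

open Finset

namespace FramesAux

section chain

variable {V : Type} [DecidableEq V]

/-- A map that is injective on the faces of a chain commutes with the boundary. -/
theorem bd_map (π : V → V) (y : Ch V) (h : ∀ ρ ∈ y.support, Set.InjOn π ρ) :
    bd (Finsupp.lmapDomain F2 F2 (image π) y) = Finsupp.lmapDomain F2 F2 (image π) (bd y) := by
  conv_lhs => rw [← Finsupp.sum_single y]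
  conv_rhs => rw [← Finsupp.sum_single y]
  simp only [Finsupp.sum, map_sum]
  refine sum_congr rfl fun ρ hρ => ?_
  have hi := h ρ hρ
  rw [← mul_one (y ρ), ← smul_eq_mul, ← Finsupp.smul_single, map_smul, map_smul, map_smul,
    map_smul, Finsupp.lmapDomain_apply, Finsupp.mapDomain_single, bd_single, bd_single, map_sum,
    sum_image hi]
  congr 1
  refine sum_congr rfl fun w hw => ?_
  rw [Finsupp.lmapDomain_apply, Finsupp.mapDomain_single]
  congr 1
  ext x
  simp only [mem_erase, mem_image]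
  constructor
  · rintro ⟨h1, v, hv, rfl⟩
    exact ⟨v, ⟨fun e => h1 (e ▸ rfl), hv⟩, rfl⟩
  · rintro ⟨v, ⟨h1, hv⟩, rfl⟩
    exact ⟨fun e => h1 (hi hv hw e), v, hv, rfl⟩

end chain

variable {A : Type} [CommRing A] {n : ℕ} [DecidableEq (Fin n → A)]

theorem image_mem_Fr (T : (Fin n → A) ≃ₗ[A] (Fin n → A)) {τ : Finset (Fin n → A)}
    (h : τ ∈ Fr A n) : τ.image T ∈ Fr A n := by
  obtain ⟨g, hg⟩ := h
  let M : GL (Fin n) A := ⟨LinearMap.toMatrix' (T : (Fin n → A) →ₗ[A] (Fin n → A)),
    LinearMap.toMatrix' (T.symm : (Fin n → A) →ₗ[A] (Fin n → A)),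
    by rw [← LinearMap.toMatrix'_comp]; simp, by rw [← LinearMap.toMatrix'_comp]; simp⟩
  refine ⟨M * g, fun v hv => ?_⟩
  obtain ⟨w, hw, rfl⟩ := mem_image.1 hv
  obtain ⟨j, rfl⟩ := hg w hw
  refine ⟨j, ?_⟩
  have := LinearMap.toMatrix'_mulVec (T : (Fin n → A) →ₗ[A] (Fin n → A))
    fun i => (g : Matrix (Fin n) (Fin n) A) i j
  rw [LinearEquiv.coe_coe] at this
  rw [← this]
  rfl

omit [DecidableEq (Fin n → A)] in
/-- Linear forms can be prescribed on a frame. -/
theorem exists_form {τ : Finset (Fin n → A)} (h : τ ∈ Fr A n) (f : (Fin n → A) → A) :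
    ∃ ψ : (Fin n → A) →ₗ[A] A, ∀ v ∈ τ, ψ v = f v := by
  obtain ⟨g, hg⟩ := h
  refine ⟨∑ j, f (fun i => (g : Matrix (Fin n) (Fin n) A) i j) •
    (LinearMap.proj j ∘ₗ Matrix.mulVecLin ((g⁻¹ : GL (Fin n) A) : Matrix (Fin n) (Fin n) A)),
    fun v hv => ?_⟩
  obtain ⟨j, rfl⟩ := hg v hv
  have key : ∀ l, (Matrix.mulVec ((g⁻¹ : GL (Fin n) A) : Matrix (Fin n) (Fin n) A)
      fun i => (g : Matrix (Fin n) (Fin n) A) i j) l = if l = j then 1 else 0 := fun l => by
    rw [← Matrix.one_apply, ← Units.inv_mul g]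
    rfl
  simp only [LinearMap.sum_apply, LinearMap.smul_apply, LinearMap.comp_apply,
    Matrix.mulVecLin_apply, LinearMap.proj_apply, key, smul_eq_mul, mul_ite, mul_one, mul_zero,
    sum_ite_eq', mem_univ, if_true]

/-- Column operations. -/
theorem colop {τ ρ : Finset (Fin n → A)} {u : Fin n → A} (hu : u ∈ τ) (hρ : ρ ∈ lk (Fr A n) τ)
    (q : (Fin n → A) → A) :
    Set.InjOn (fun v => v - q v • u) ρ ∧ ρ.image (fun v => v - q v • u) ∈ lk (Fr A n) τ := by
  obtain ⟨hd, hF⟩ := hρ
  obtain ⟨ψ, hψ⟩ := exists_form hF fun v => if v ∈ ρ then q v else 0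
  have h1 : ∀ v ∈ ρ, ψ v = q v := fun v hv => by rw [hψ v (mem_union_left _ hv), if_pos hv]
  have h2 : ∀ v ∈ τ, ψ v = 0 := fun v hv => by
    rw [hψ v (mem_union_right _ hv), if_neg (disjoint_right.1 hd hv)]
  let T : (Fin n → A) ≃ₗ[A] (Fin n → A) := LinearEquiv.ofLinearMap
    (LinearMap.id - ψ.smulRight u) (LinearMap.id + ψ.smulRight u)
    (LinearMap.ext fun v => by simp [h2 u hu]) (LinearMap.ext fun v => by simp [h2 u hu])
  have hT : ∀ v, T v = v - ψ v • u := fun v => rfl
  have e1 : ∀ v ∈ ρ, T v = v - q v • u := fun v hv => by rw [hT, h1 v hv]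
  have e2 : ∀ v ∈ τ, T v = v := fun v hv => by rw [hT, h2 v hv, zero_smul, sub_zero]
  have e3 : ρ.image (fun v => v - q v • u) = ρ.image T := image_congr fun v hv => (e1 v hv).symm
  have e4 : τ.image T = τ := (image_congr fun v hv => e2 v hv).trans image_id
  refine ⟨fun v hv w hw e => T.injective ?_, ?_⟩
  · rw [e1 v hv, e1 w hw]; exact e
  · rw [e3]
    refine ⟨?_, ?_⟩
    · rw [← e4]; exact (disjoint_image T.injective).2 hd
    · rw [← e4, ← image_union]; exact image_mem_Fr T hF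

theorem exists_height [Nontrivial A] {σ : Finset (Fin n → A)} (h : σ ∈ Fr A n) (hc : σ.card < n) :
    ∃ (φ : (Fin n → A) →ₗ[A] A) (e : Fin n → A), (∀ v ∈ σ, φ v = 0) ∧ φ e = 1 := by
  obtain ⟨g, hg⟩ := h
  have hU : (univ.image fun j => fun i => (g : Matrix (Fin n) (Fin n) A) i j) ∈ Fr A n :=
    ⟨g, fun v hv => by obtain ⟨j, -, rfl⟩ := mem_image.1 hv; exact ⟨j, rfl⟩⟩
  have hinj : Function.Injective fun j => fun i => (g : Matrix (Fin n) (Fin n) A) i j := by
    intro j l e
    by_contra hne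
    have := Matrix.det_zero_of_column_eq hne (M := (g : Matrix (Fin n) (Fin n) A))
      fun i => congrFun e i
    exact ((Matrix.isUnit_iff_isUnit_det _).1 g.isUnit).ne_zero this
  have hcard : σ.card < (univ.image fun j => fun i => (g : Matrix (Fin n) (Fin n) A) i j).card := by
    rwa [card_image_of_injective _ hinj, card_univ, Fintype.card_fin]
  obtain ⟨e, he, he'⟩ := exists_mem_notMem_of_card_lt_card hcard
  obtain ⟨φ, hφ⟩ := exists_form hU fun v => if v = e then 1 else 0
  refine ⟨φ, e, fun v hv => ?_, by rw [hφ e he, if_pos rfl]⟩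
  obtain ⟨j, hj⟩ := hg v hv
  rw [hφ v (mem_image.2 ⟨j, mem_univ _, hj.symm⟩), if_neg fun e' : v = e => he' (e' ▸ hv)]

theorem sEx_lk [Nontrivial A] (hA : Euc A) (c : ℕ) : ∀ σ ∈ Fr A n, σ.card + c = n → ∀ j < c,
    SEx (lk (Fr A n) σ) j := by
  induction c with
  | zero => intro σ _ _ j hj; exact absurd hj (Nat.not_lt_zero _)
  | succ c ih =>
    intro σ hσ hc j hj
    obtain ⟨φ, e, hφ, he⟩ := exists_height hσ (by omega)
    have hK : Down (lk (Fr A n) σ) := down_Fr.lk σ
    -- cycles of height zero are cones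
    have base : ∀ (j : ℕ) (x : Ch (Fin n → A)), x ∈ Cb (lk (Fr A n) σ) j → bd x = 0 →
        (∀ ρ ∈ x.support, ∀ w ∈ ρ, φ w = 0) → ∃ y ∈ Cb (lk (Fr A n) σ) (j + 1), bd y = x := by
      intro j x hx h0 h
      refine ⟨cone e x, cone_mem_Cb fun ρ hρ => ?_, ?_⟩
      · obtain ⟨⟨h1, h2⟩, h3⟩ := mem_Cb.1 hx ρ hρ
        refine ⟨h3, fun _ => ⟨?_, ?_⟩⟩
        · rw [disjoint_insert_left]
          refine ⟨fun h4 => ?_, h1⟩
          rw [hφ e h4] at he
          exact zero_ne_one he
        · rw [insert_union]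
          refine insert_mem_Fr hA h2 φ (fun v hv => ?_) he
          rcases mem_union.1 hv with h4 | h4
          · exact h ρ hρ v h4
          · exact hφ v h4
      · have := bd_cone e x
        rwa [h0, map_zero, add_zero] at this
    intro x hx h0
    cases j with
    | zero =>
      refine base 0 x hx h0 fun ρ hρ w hw => ?_
      rw [card_eq_zero.1 (mem_Cb.1 hx ρ hρ).2] at hw
      exact absurd hw (notMem_empty w)
    | succ b =>
      obtain ⟨ν, hν0, hν⟩ := id hA
      obtain ⟨z, hz, hz'⟩ := morse hK (fun v => ν (φ v)) (b := b) (fun u hu z hz hz0 _ => by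
        by_cases hzz : z = 0
        · exact ⟨0, zero_mem _, by rw [hzz, map_zero], fun ρ hρ => by simp at hρ⟩
        obtain ⟨ρ₀, hρ₀⟩ := Finsupp.support_nonempty_iff.2 hzz
        have hu1 : {u} ∈ lk (Fr A n) σ := hK _ (mem_Cb.1 hz ρ₀ hρ₀).1.2 _ subset_union_right
        rw [lk_lk _ hu1.1] at hz ⊢
        obtain ⟨y, hy, hy0⟩ := ih _ hu1.2
          (by rw [card_union_of_disjoint hu1.1, card_singleton]; omega) b (by omega) z hz hz0
        have hu0 : φ u ≠ 0 := fun e => by
          have := (hν0 _).2 e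
          omega
        choose q₀ hq₀ using fun v => hν (φ v) (φ u) hu0
        classical
        let q : (Fin n → A) → A := fun v => if ∃ τ ∈ z.support, v ∈ τ then 0 else q₀ v
        have hc := fun ρ (hρ : ρ ∈ y.support) =>
          colop (mem_union_left σ (mem_singleton_self u)) (mem_Cb.1 hy ρ hρ).1 q
        refine ⟨Finsupp.lmapDomain F2 F2 (image fun v => v - q v • u) y, mem_Cb.2 fun ρ hρ => ?_,
          ?_, fun ρ hρ w hw => ?_⟩
        · obtain ⟨τ, hτ, rfl⟩ := mem_image.1 (Finsupp.mapDomain_support hρ)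
          exact ⟨(hc τ hτ).2, by rw [card_image_of_injOn (hc τ hτ).1, (mem_Cb.1 hy τ hτ).2]⟩
        · rw [bd_map _ _ fun ρ hρ => (hc ρ hρ).1, hy0, Finsupp.lmapDomain_apply,
            Finsupp.mapDomain_congr (g := id), Finsupp.mapDomain_id]
          intro τ hτ
          refine (image_congr fun v hv => ?_).trans image_id
          simp only [q]
          rw [if_pos ⟨τ, hτ, hv⟩, zero_smul, sub_zero, id]
        · obtain ⟨τ, -, rfl⟩ := mem_image.1 (Finsupp.mapDomain_support hρ)
          obtain ⟨v, -, rfl⟩ := mem_image.1 hw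
          by_cases hv : ∃ τ ∈ z.support, v ∈ τ
          · right
            simp only [q]
            rwa [if_pos hv, zero_smul, sub_zero]
          · left
            simp only [q]
            rw [if_neg hv, map_sub, map_smul, smul_eq_mul]
            exact hq₀ v) hx h0
      obtain ⟨y, hy, hy0⟩ := base (b + 1) (x + bd z) (add_mem hx (bd_mem_Cb hK hz))
        (by rw [map_add, h0, bd_bd, add_zero]) fun ρ hρ w hw => (hν0 _).1 (hz' ρ hρ w hw)
      exact ⟨y + z, add_mem hy hz, by rw [map_add, hy0, add_assoc, ch_add_self, add_zero]⟩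

end FramesAux

/-- The complex of partial frames is acyclic below the top degree. -/
theorem sEx_Fr {A : Type} [CommRing A] [Nontrivial A] (hA : Euc A) {n : ℕ}
    [DecidableEq (Fin n → A)] {j : ℕ} (hj : j < n) : SEx (Fr A n) j := by
  have := FramesAux.sEx_lk (n := n) hA n ∅ empty_mem_Fr (by simp) j hj
  rwa [lk_empty] at this

end Crest.Agent.R66
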