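import Crest.Agent.R66.Gap
import Crest.Agent.R66.Count
import Crest.Agent.R66.Bacyc

set_option autoImplicit false

namespace Crest.Agent.R66

open Finset

namespace Setup

variable {F V : Type} [Field F] [AddCommGroup V] [Module F V] {n : ℕ} (S : Setup F V n)

theorem mem_Y {σ : Finset (Submodule F V)} : σ ∈ S.Y ↔ σ ∈ S.B ∧ ∀ u ∈ σ, S.Pts u = ∅ := by
  exact mem_gen_empty

theorem down_Y : Down S.Y := by
  exact (down_B (S := S)).gen ∅

theorem empty_mem_Y : ∅ ∈ S.Y := by
  exact S.mem_Y.2 ⟨⟨by simp, by simp⟩, by simp⟩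

theorem L0_mem_Y : {S.L0} ∈ S.Y := by
  have hn := S.pos
  refine S.mem_Y.2 ⟨⟨fun u hu => ?_, fun u hu w hw => ?_⟩, fun u hu => ?_⟩
  · rw [mem_singleton.1 hu]
    exact ⟨S.lat_L0, by rw [chi_L0], by rw [chi_L0]; exact_mod_cast hn⟩
  · rw [mem_singleton.1 hu, mem_singleton.1 hw]
    exact S.lat_L0.comp_self
  · rw [mem_singleton.1 hu, S.lat_L0.pts_eq_empty]
    intro a
    rcases le_total a 0 with h | h
    · have h1 := S.lat_L0.tr_mono h
      rw [tr_zero] at h1
      exact Or.inl (le_bot_iff.1 ((inf_le_inf_right _ h1).trans S.compl.inf_eq_bot.le))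
    · have h1 := S.lat_L0.tr_mono h
      rw [tr_zero] at h1
      exact Or.inr (top_le_iff.1 (S.compl.sup_eq_top.ge.trans (sup_le_sup_right h1 _)))

variable {S}

theorem lk_Y {σ : Finset (Submodule F V)} (h : σ ∈ S.Y) : lk S.Y σ = S.G σ := by
  have := lk_gen (K := S.B) (P := S.Pts) (σ := ∅) h
  rwa [union_empty] at this

/-- Normalised generic lattices have no first cohomology. -/
theorem sup_eq_top_of_mem_Y {u : Submodule F V} (h : {u} ∈ S.Y) :
    u ⊔ S.M = ⊤ ∧ S.tr (-1) u ⊓ S.M = ⊥ := by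
  obtain ⟨hB, hP⟩ := S.mem_Y.1 h
  obtain ⟨hl, h0, h1⟩ := hB.1 u (mem_singleton_self u)
  have hp := hl.pts_eq_empty.1 (hP u (mem_singleton_self u))
  constructor
  · rcases hp 0 with h2 | h2
    · rw [tr_zero, ← hl.h0_eq_zero] at h2
      rw [← hl.h1_eq_zero]
      unfold chi at h0
      omega
    · rwa [tr_zero] at h2
  · rcases hp (-1) with h2 | h2
    · exact h2
    · rw [← (hl.tr (-1)).h1_eq_zero] at h2
      have h3 := hl.chi_tr (-1)
      have h4 : 0 ≤ S.chi (S.tr (-1) u) := by unfold chi; omega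
      omega

theorem isCompl_of_mem_Y {u : Submodule F V} (h : {u} ∈ S.Y) (h0 : S.chi u = 0) :
    IsCompl u S.M := by
  have hl := ((S.mem_Y.1 h).1.1 u (mem_singleton_self u)).1
  have h1 := (sup_eq_top_of_mem_Y h).1
  have h2 := hl.h1_eq_zero.2 h1
  have h3 : S.h0 u = 0 := by unfold chi at h0; omega
  exact IsCompl.of_eq (hl.h0_eq_zero.1 h3) h1

theorem card_le_of_mem_B {σ : Finset (Submodule F V)} (h : σ ∈ S.B) : σ.card ≤ n := by
  have := card_le_card_of_injOn S.ty (t := univ) (fun _ _ => mem_coe.2 (mem_univ _)) (injOn_ty h)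
  rwa [card_univ, Fintype.card_fin] at this

namespace YAux

variable {σ : Finset (Submodule F V)} {l r w x : Submodule F V}

theorem eq_of_le_of_chi (hl : S.Lat l) (hr : S.Lat r) (h : l ≤ r) (hc : S.chi r ≤ S.chi l) :
    l = r := by
  by_contra hne
  exact absurd (hl.chi_lt hr (lt_of_le_of_ne h hne)) (not_lt.2 hc)

theorem injOn_chi (h : σ ∈ S.B) : Set.InjOn S.chi σ := by
  intro u hu w hw e
  refine injOn_ty h hu hw (Fin.ext ?_)
  have h1 := (h.1 u hu).ty_eq
  have h2 := (h.1 w hw).ty_eq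
  omega

theorem card_add_le (h : σ ∈ S.B) (J : Finset ℤ) (hJ : ∀ j ∈ J, 0 ≤ j ∧ j < n)
    (hne : ∀ u ∈ σ, S.chi u ∉ J) : σ.card + J.card ≤ n := by
  have h1 : Disjoint (σ.image S.chi) J := by
    rw [disjoint_left]
    intro j hj
    obtain ⟨u, hu, rfl⟩ := mem_image.1 hj
    exact hne u hu
  have h2 : σ.image S.chi ∪ J ⊆ Ico (0 : ℤ) n := by
    intro j hj
    rw [mem_Ico]
    rcases mem_union.1 hj with hj | hj
    · obtain ⟨u, hu, rfl⟩ := mem_image.1 hj
      exact (h.1 u hu).2
    · exact hJ j hj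
  have h3 := card_le_card h2
  rwa [card_union_of_disjoint h1, card_image_of_injOn (injOn_chi h), Int.card_Ico, sub_zero,
    Int.toNat_natCast] at h3

theorem emod_ne {a b : ℤ} (h₁ : a < b) (h₂ : b < a + n) : a % n ≠ b % n := by
  intro e
  have h3 : (n : ℤ) ∣ b - a := Int.ModEq.dvd e
  have := Int.le_of_dvd (by omega) h3
  omega

theorem emod_mem (S : Setup F V n) (a : ℤ) : 0 ≤ a % n ∧ a % n < n := by
  have : (0 : ℤ) < n := by exact_mod_cast S.pos
  exact ⟨Int.emod_nonneg _ this.ne', Int.emod_lt_of_pos _ this⟩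

theorem gap_chi_le (h : S.Gap σ l r) (hσ : σ ∈ S.B) : S.chi r ≤ S.chi l + n := by
  have h1 := (h.lat_right hσ).chi_mono ((h.lat_left hσ).tr 1) h.le_tr
  rwa [(h.lat_left hσ).chi_tr, one_mul] at h1

/-- the length of a gap is bounded by the corank -/
theorem gap_card (h : S.Gap σ l r) (hσ : σ ∈ S.B) : σ.card + S.chi r ≤ n + S.chi l + 1 := by
  have h0 := gap_chi_le h hσ
  have hlt := (h.lat_left hσ).chi_lt (h.lat_right hσ) h.lt
  have h1 := card_add_le hσ ((Ioo (S.chi l) (S.chi r)).image (· % (n : ℤ)))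
    (fun j hj => by
      obtain ⟨i, -, rfl⟩ := mem_image.1 hj
      exact emod_mem S i)
    (fun u hu hj => by
      obtain ⟨i, hi, e⟩ := mem_image.1 hj
      rw [mem_Ioo] at hi
      exact h.chi_ne hσ hi.1 hi.2 hu e.symm)
  rw [card_image_of_injOn, Int.card_Ioo] at h1
  · omega
  · intro a ha b hb e
    rw [mem_coe, mem_Ioo] at ha hb
    rcases lt_trichotomy a b with h2 | h2 | h2
    · exact absurd e (emod_ne h2 (by omega))
    · exact h2
    · exact absurd e.symm (emod_ne h2 (by omega))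

theorem chi_ne_of_mem_G (hσ : σ ∈ S.B) (hx : {x} ∈ S.G σ) {u : Submodule F V} (hu : u ∈ σ) :
    S.chi u ≠ S.chi x := by
  intro e
  have h1 : u = x := injOn_chi hx.2.1 (mem_coe.2 (mem_union_right _ hu))
    (mem_coe.2 (mem_union_left _ (mem_singleton_self x))) e
  exact ((singleton_mem_G_iff hσ).1 hx).1 (h1 ▸ hu)

theorem chi_lift (hx : S.Lat x) {j : ℤ} (hj : S.chi x = j % n) :
    S.chi (S.tr (j / n) x) = j := by
  rw [hx.chi_tr, hj, mul_comm]
  exact Int.emod_add_mul_ediv j n

/-- lifting a vertex of the link into a gap -/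
theorem lift (h : S.Gap σ l r) (hσ : σ ∈ S.B) (hx : {x} ∈ S.G σ) {j : ℤ} (h₁ : S.chi l < j)
    (h₂ : j < S.chi r) (hj : S.chi x = j % n) : l < S.tr (j / n) x ∧ S.tr (j / n) x < r := by
  obtain ⟨-, hv, hc, -⟩ := (singleton_mem_G_iff hσ).1 hx
  have h3 := h.tricho hσ (hv.1.tr (j / n)) fun u hu => (comp_tr_right _).2 (hc u hu)
  rw [chi_lift hv.1 hj] at h3
  exact ⟨h3.2.2.1 h₁, h3.2.2.2 h₂⟩

theorem exists_insert [Fintype F] (h : σ ∈ S.Y) (hc : σ.card < n) :
    ∃ v, v ∉ σ ∧ insert v σ ∈ S.Y := by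
  rcases σ.eq_empty_or_nonempty with rfl | hne
  · exact ⟨S.L0, notMem_empty _, S.L0_mem_Y⟩
  have hσ := (S.mem_Y.1 h).1
  obtain ⟨l, r, hg, hlr⟩ := exists_gap_of_card_lt hσ hne hc
  have hl := hg.lat_left hσ
  have hr := hg.lat_right hσ
  obtain ⟨v, hvr, hv⟩ := exists_generic hl hr {l} (by simpa using Fintype.one_lt_card)
    fun w hw => by
      rw [mem_singleton.1 hw]
      exact ⟨le_rfl, hg.lt, free_left l r⟩
  obtain ⟨hvl, hfree⟩ := hv l (mem_singleton_self l)
  have h1 : l < l ⊔ Submodule.span F {v} := by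
    refine lt_of_le_of_ne le_sup_left fun e => hvl ?_
    rw [e]
    exact Submodule.mem_sup_right (Submodule.mem_span_singleton_self v)
  have h2 : l ⊔ Submodule.span F {v} < r := by
    refine lt_of_le_of_ne (sup_le hg.lt.le ((Submodule.span_singleton_le_iff_mem v r).2 hvr))
      fun e => ?_
    have := hl.chi_sup_span hvl (hg.le_tr hvr)
    rw [e] at this
    omega
  have h3 := (hg.mem_G_iff hσ h1 h2).2 hfree
  rw [← lk_Y h] at h3
  exact ⟨_, disjoint_singleton_left.1 h3.1, by rw [insert_eq]; exact h3.2⟩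

end YAux

open YAux

theorem pure_Y [Fintype F] {σ : Finset (Submodule F V)} (h : σ ∈ S.Y) :
    ∃ c ∈ S.Y, σ ⊆ c ∧ c.card = n := by
  obtain ⟨k, hk⟩ : ∃ k, σ.card + k = n :=
    Nat.exists_eq_add_of_le (card_le_of_mem_B (S.mem_Y.1 h).1) |>.imp fun _ e => e.symm
  induction k generalizing σ with
  | zero => exact ⟨σ, h, Subset.rfl, hk⟩
  | succ k ih =>
    obtain ⟨v, hv, hi⟩ := exists_insert h (by omega)
    obtain ⟨c, hc, h1, h2⟩ := ih hi (by rw [card_insert_of_notMem hv]; omega)
    exact ⟨c, hc, (subset_insert v σ).trans h1, h2⟩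

/-- A chamber has a vertex of every type. -/
theorem exists_of_chamber {c : Finset (Submodule F V)} (h : c ∈ S.B) (hc : c.card = n) {j : ℤ}
    (h₀ : 0 ≤ j) (h₁ : j < n) : ∃ u ∈ c, S.chi u = j := by
  by_contra hne
  have := card_add_le h {j} (fun i hi => by rw [mem_singleton.1 hi]; exact ⟨h₀, h₁⟩)
    fun u hu hj => hne ⟨u, hu, mem_singleton.1 hj⟩
  rw [card_singleton] at this
  omega

variable (S)

/-- The geometry of generic lattices. -/
noncomputable def geo [Fintype F] : Geo n (Submodule F V) where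
  K := S.Y
  ty := S.ty
  down := S.down_Y
  empty := S.empty_mem_Y
  inj _ h := injOn_ty ((S.mem_Y).1 h).1
  pure _ h := pure_Y h

theorem thick_geo [Fintype F] (hn : 2 ≤ n) : S.geo.Thick (Fintype.card F) := by
  classical
  intro π hπ hc
  change π ∈ S.Y at hπ
  have hσ := (S.mem_Y.1 hπ).1
  obtain ⟨l, r, hg, hlr⟩ := exists_gap_of_card_lt hσ (card_pos.1 (by omega)) (by omega)
  have hl := hg.lat_left hσ
  have hr := hg.lat_right hσ
  have h2 : S.chi r = S.chi l + 2 := by
    have := gap_card hg hσ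
    omega
  obtain ⟨s, hs, hs'⟩ := exists_many_between hl hr hg.lt.le h2
  have hchi : ∀ w ∈ s, S.chi w = S.chi l + 1 := fun w hw => by
    have hw' := hg.lat hσ (hs' w hw).1.le (hs' w hw).2.le
    have := hl.chi_lt hw' (hs' w hw).1
    have := hw'.chi_lt hr (hs' w hw).2
    omega
  have h3 : (s.filter fun w => ¬ S.Free l r w).card ≤ 1 := by
    refine card_le_one.2 fun w hw w' hw' => ?_
    rw [mem_filter] at hw hw'
    exact eq_of_not_free hl hr hg.le_tr h2 (hs' w hw.1).1 (hs' w hw.1).2 (hs' w' hw'.1).1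
      (hs' w' hw'.1).2 hw.2 hw'.2
  have h4 := card_filter_add_card_filter_not (s := s) (S.Free l r)
  refine ⟨(s.filter (S.Free l r)).image S.nm, ?_, fun x hx => ?_⟩
  · rw [card_image_of_injOn]
    · omega
    · intro w hw w' hw' e
      rw [mem_coe, mem_filter] at hw hw'
      unfold nm at e
      rwa [hchi w hw.1, hchi w' hw'.1, tr_inj] at e
  · obtain ⟨w, hw, rfl⟩ := mem_image.1 hx
    rw [mem_filter] at hw
    change _ ∈ lk S.Y π
    rw [lk_Y hπ]
    exact (hg.mem_G_iff hσ (hs' w hw.1).1 (hs' w hw.1).2).2 hw.2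

theorem rank2_geo [Fintype F] (hn : 3 ≤ n) : S.geo.Rank2 (Fintype.card F) := by
  intro σ hσY hc
  change σ ∈ S.Y at hσY
  have hσ := (S.mem_Y.1 hσY).1
  have hne : σ.Nonempty := card_pos.1 (by omega)
  have hK : lk S.geo.K σ = S.G σ := lk_Y hσY
  have hty : S.geo.ty = S.ty := rfl
  rw [hK, hty]
  have hvert : ∀ {x}, {x} ∈ S.G σ → S.Vert x := fun hx => ((singleton_mem_G_iff hσ).1 hx).2.1
  by_cases hA : ∃ l r, S.Gap σ l r ∧ S.chi l + 3 ≤ S.chi r
  · right
    obtain ⟨l, r, hg, hlr⟩ := hA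
    have hl := hg.lat_left hσ
    have hr := hg.lat_right hσ
    have h3 : S.chi r = S.chi l + 3 := by
      have := gap_card hg hσ
      omega
    obtain ⟨m0, m1⟩ := emod_mem S (S.chi l + 1)
    have hiff : ∀ {x}, S.Vert x →
        (S.ty x = ⟨((S.chi l + 1) % n).toNat, by omega⟩ ↔ S.chi x = (S.chi l + 1) % n) := by
      intro x hx
      have := hx.ty_eq
      rw [Fin.ext_iff]
      simp only
      omega
    refine ⟨⟨((S.chi l + 1) % n).toNat, by omega⟩, fun v hv e => ?_, ?_, ?_⟩
    · exact hg.chi_ne hσ (by omega) (by omega) hv ((hiff (hσ.1 v hv)).1 e)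
    · obtain ⟨s, hs, hs'⟩ := exists_points hl hr hg.lt.le hg.le_tr h3
      refine ⟨s.image S.nm, card_image_le.trans hs, fun x hx e => ?_⟩
      have hj := (hiff (hvert hx)).1 e
      obtain ⟨h4, h5⟩ := lift hg hσ hx (by omega) (by omega) hj
      exact mem_image.2 ⟨_, hs' _ h4.le h5.le (chi_lift (hvert hx).1 hj), (hvert hx).nm_tr _⟩
    · -- two points span a line
      have key : ∀ x x' y, S.ty x = ⟨((S.chi l + 1) % n).toNat, by omega⟩ →
          S.ty x' = ⟨((S.chi l + 1) % n).toNat, by omega⟩ → x ≠ x' →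
          S.ty y ≠ ⟨((S.chi l + 1) % n).toNat, by omega⟩ → {x, y} ∈ S.G σ → {x', y} ∈ S.G σ →
          S.tr ((S.chi l + 1) / n) x ⊔ S.tr ((S.chi l + 1) / n) x' =
            S.tr ((S.chi l + 2) / n) y := by
        intro x x' y hx hx' hxx hy e e'
        obtain ⟨e1, e2⟩ := (mem_G_iff hσ).1 e
        obtain ⟨e1', e2'⟩ := (mem_G_iff hσ).1 e'
        have gx := e1 x (by simp)
        have gy := e1 y (by simp)
        have gx' := e1' x' (by simp)
        have cx := (hiff (hvert gx)).1 hx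
        have cx' := (hiff (hvert gx')).1 hx'
        have cy0 : S.chi y ≠ (S.chi l + 1) % n := fun e => hy ((hiff (hvert gy)).2 e)
        have cy : S.chi y = (S.chi l + 2) % n := by
          by_contra cy1
          have n12 : (S.chi l + 1) % n ≠ (S.chi l + 2) % n := emod_ne (by omega) (by omega)
          have := card_add_le hσ {S.chi y, (S.chi l + 1) % n, (S.chi l + 2) % n}
            (fun j hj => by
              simp only [mem_insert, mem_singleton] at hj
              rcases hj with rfl | rfl | rfl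
              · exact (hvert gy).2
              · exact emod_mem S _
              · exact emod_mem S _)
            (fun u hu hj => by
              simp only [mem_insert, mem_singleton] at hj
              rcases hj with hj | hj | hj
              · exact chi_ne_of_mem_G hσ gy hu hj
              · exact hg.chi_ne hσ (by omega) (by omega) hu hj
              · exact hg.chi_ne hσ (by omega) (by omega) hu hj)
          rw [card_eq_three.2 ⟨_, _, _, cy0, cy1, n12, rfl⟩] at this
          omega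
        have lx := (hvert gx).1.tr ((S.chi l + 1) / n)
        have lx' := (hvert gx').1.tr ((S.chi l + 1) / n)
        have ly := (hvert gy).1.tr ((S.chi l + 2) / n)
        have dx := chi_lift (hvert gx).1 cx
        have dx' := chi_lift (hvert gx').1 cx'
        have dy := chi_lift (hvert gy).1 cy
        have i1 := ((comp_tr_left _).2 ((comp_tr_right _).2 (e2 x (by simp) y (by simp)))).le_of_chi
          lx ly (by omega)
        have i2 := ((comp_tr_left _).2 ((comp_tr_right _).2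
          (e2' x' (by simp) y (by simp)))).le_of_chi lx' ly (by omega)
        obtain ⟨j1, -⟩ := lift hg hσ gx (by omega) (by omega) cx
        obtain ⟨-, j2⟩ := lift hg hσ gy (by omega) (by omega) cy
        have ls := hg.lat hσ (j1.le.trans (le_sup_left (b := S.tr ((S.chi l + 1) / n) x')))
          ((sup_le i1 i2).trans j2.le)
        have k1 : S.tr ((S.chi l + 1) / n) x <
            S.tr ((S.chi l + 1) / n) x ⊔ S.tr ((S.chi l + 1) / n) x' := by
          refine left_lt_sup.2 fun hle => hxx ?_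
          exact ((S.tr_inj _).1 (eq_of_le_of_chi lx' lx hle (by omega))).symm
        have k2 := lx.chi_lt ls k1
        exact eq_of_le_of_chi ls ly (sup_le i1 i2) (by omega)
      intro x x' y y' hx hx' hxx hy hy' e1 e2 e3 e4
      exact (S.tr_inj _).1 ((key x x' y hx hx' hxx hy e1 e2).symm.trans
        (key x x' y' hx hx' hxx hy' e3 e4))
  · left
    intro x y hx hy hxy
    have vx := hvert hx
    have vy := hvert hy
    have hxn : S.chi x % n = S.chi x := Int.emod_eq_of_lt vx.2.1 vx.2.2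
    obtain ⟨l, r, hg, h1, h2⟩ := exists_gap hσ hne (j := S.chi x) fun u hu => by
      rw [hxn]; exact chi_ne_of_mem_G hσ hx hu
    have h3 : S.chi r < S.chi l + 3 := not_le.1 fun h => hA ⟨l, r, hg, h⟩
    have tx := hg.tricho hσ vx.1 ((singleton_mem_G_iff hσ).1 hx).2.2.1
    have hyx : S.Comp y x := by
      intro a
      have ty := hg.tricho hσ (vy.1.tr a) fun u hu =>
        (comp_tr_right _).2 (((singleton_mem_G_iff hσ).1 hy).2.2.1 u hu)
      have hne' : S.chi (S.tr a y) ≠ S.chi x := by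
        intro e
        refine hxy (Fin.ext ?_)
        have e1 := vx.ty_eq
        have e2 := vy.ty_eq
        have e3 : S.chi x % n = S.chi y := by
          rw [← e, vy.1.chi_tr, Int.add_mul_emod_self_right, Int.emod_eq_of_lt vy.2.1 vy.2.2]
        omega
      rcases lt_or_gt_of_ne hne' with h | h
      · exact Or.inl ((ty.1 (by omega)).trans (tx.2.2.1 h1).le)
      · exact Or.inr ((tx.2.2.2 h2).le.trans (ty.2.1 (by omega)))
    refine (mem_G_iff hσ).2 ⟨fun u hu => ?_, fun u hu u' hu' => ?_⟩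
    · rcases mem_insert.1 hu with rfl | hu
      · exact hx
      · rwa [mem_singleton.1 hu]
    · simp only [mem_insert, mem_singleton] at hu hu'
      rcases hu with rfl | rfl <;> rcases hu' with rfl | rfl
      · exact vx.1.comp_self
      · exact hyx.symm
      · exact hyx
      · exact vy.1.comp_self

theorem deg_geo [Fintype F] : ∃ D, S.geo.Deg D := by
  refine ⟨2 ^ Fintype.card F ^ (2 * n), fun v => ?_⟩
  by_cases hv : S.Lat v
  · obtain ⟨s, hs, hs'⟩ := exists_all_between (hv.tr (-1)) (hv.tr 1) (hv.tr_mono (by norm_num))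
    have h1 := hv.chi_tr (-1)
    have h2 := hv.chi_tr 1
    have h3 : (S.chi (S.tr 1 v) - S.chi (S.tr (-1) v)).toNat = 2 * n := by omega
    rw [h3] at hs
    refine ⟨s, hs, fun u hu => ?_⟩
    have hB := (S.mem_Y.1 hu).1
    have vv := hB.1 v (by simp)
    have vu := hB.1 u (by simp)
    have hc := hB.2 v (by simp) u (by simp)
    have b1 := vv.2
    have b2 := vu.2
    exact hs' u (((comp_tr_left _).2 hc).le_of_chi (hv.tr _) vu.1 (by omega))
      (((comp_tr_right _).2 hc.symm).le_of_chi vu.1 (hv.tr _) (by omega))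
  · exact ⟨∅, by simp, fun u hu => absurd ((S.mem_Y.1 hu).1.1 v (by simp)).1 hv⟩

theorem sEx_Y {R : ℕ} (h : ∀ σ ∈ S.B, σ.Nonempty → Cone (S.G σ) (n - σ.card) R) {b : ℕ}
    (hb : b + 2 ≤ n) : SEx S.Y b := by
  exact core down_B (fun σ hσ u hu => (hσ.1 u hu).1.finite_pts)
    (fun σ hσ u hu w hw hne => (hσ.2 u hu w hw).disjoint_pts (hσ.1 u hu) (hσ.1 w hw) hne)
    (S.sEx_B b) fun σ hσ hne r hr => (h σ hσ hne).sEx (down_B.gen σ) (by omega)

theorem cones_geo [Fintype F] {R : ℕ}
    (h : ∀ σ ∈ S.B, σ.Nonempty → Cone (S.G σ) (n - σ.card) R) : S.geo.Cones R := by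
  intro σ hσ hne
  have hK : lk S.geo.K σ = S.G σ := lk_Y hσ
  rw [hK]
  exact h σ (S.mem_Y.1 hσ).1 hne

end Setup

end Crest.Agent.R66
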