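import Crest.Agent.R66.Aut
import Crest.Agent.R66.YGeo

set_option autoImplicit false

namespace Crest.Agent.R66

open Finset

namespace Setup

variable {F V : Type} [Field F] [AddCommGroup V] [Module F V] {n : ℕ} (S : Setup F V n)

variable {S} {k : ℕ}

namespace FreeAux

theorem lat_of_mem_Y {u : Submodule F V} (hu : {u} ∈ S.Y) : S.Vert u :=
  ((S.mem_Y).1 hu).1.1 u (mem_singleton_self u)

theorem tr_inf_tr_M {u : Submodule F V} (hu : {u} ∈ S.Y) {a b : ℤ} (h : a + 1 ≤ b) :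
    S.tr a u ⊓ S.tr b S.M = ⊥ := by
  have h1 : S.tr (a - b) u ⊓ S.M = ⊥ :=
    le_bot_iff.1 ((inf_le_inf_right _ ((lat_of_mem_Y hu).1.tr_mono (by omega))).trans
      (sup_eq_top_of_mem_Y hu).2.le)
  have h2 := congrArg (S.tr b) h1
  rwa [S.tr_inf, S.tr_tr, S.tr_bot, add_sub_cancel] at h2

theorem fix_sections {u u' w : Submodule F V} (h₁ : u ≤ w) (h₂ : u' ≤ w)
    (hw : S.tr 1 w ⊓ S.tr k S.M = ⊥) {g : S.Aut} (hg : g ∈ S.N k) (h : g • u = u') :
    ∀ x ∈ S.tr 1 u ⊓ S.M, S.val g x = x := by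
  intro x hx
  have h3 : S.val g x ∈ S.tr 1 w := by
    refine (S.tr_le_tr_iff 1).2 h₂ ?_
    rw [← h, ← smul_tr]
    exact (mem_smul g x).2 hx.1
  have h4 : S.val g x - x ∈ S.tr 1 w ⊓ S.tr k S.M :=
    ⟨sub_mem h3 ((S.tr_le_tr_iff 1).2 h₁ hx.1), hg x hx.2⟩
  rw [hw, Submodule.mem_bot] at h4
  exact sub_eq_zero.1 h4

theorem mem_tr' {a : ℤ} {u : Submodule F V} {v : V} :
    v ∈ S.tr a u ↔ ∃ x ∈ u, (S.t ^ a : V ≃ₗ[F] V) x = v := Submodule.mem_map

/-- the vectors moved into `W` -/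
def mv (g : S.Aut) (W : Submodule F V) : Submodule F V :=
  W.comap ((S.val g : V →ₗ[F] V) - LinearMap.id)

theorem mem_mv {g : S.Aut} {W : Submodule F V} {x : V} : x ∈ mv g W ↔ S.val g x - x ∈ W := Iff.rfl

theorem tr_le_mv {g : S.Aut} {P W : Submodule F V} (h : P ≤ mv g W) (a : ℤ) :
    S.tr a P ≤ mv g (S.tr a W) := by
  intro v hv
  obtain ⟨x, hx, rfl⟩ := mem_tr'.1 hv
  rw [mem_mv, val_t, ← map_sub]
  exact mem_tr'.2 ⟨_, h hx, rfl⟩

theorem eq_one_of_vertex (hk : 2 ≤ k) {g : S.Aut} (hg : g ∈ S.N k) {u : Submodule F V}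
    (hu : {u} ∈ S.Y) (h : g • u = u) : g = 1 := by
  have h1 : S.tr 1 u ⊓ S.M ≤ mv g ⊥ := fun x hx => by
    rw [mem_mv, fix_sections le_rfl le_rfl (tr_inf_tr_M hu (by omega)) hg h x hx, sub_self]
    exact Submodule.zero_mem _
  have h2 : S.M ≤ mv g ⊥ := by
    rw [(lat_of_mem_Y hu).1.M_eq_iSup (sup_eq_top_of_mem_Y hu).1]
    refine iSup_le fun i => ?_
    simpa only [S.tr_bot] using tr_le_mv h1 i
  refine val_injective ?_
  rw [map_one]
  ext v
  obtain ⟨a, ha⟩ := S.exists_mem_tr_M v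
  have h3 := tr_le_mv h2 _ ha
  rw [S.tr_bot, mem_mv, Submodule.mem_bot, sub_eq_zero] at h3
  exact h3

theorem mem_N_of_sections {g : S.Aut} (h : S.tr 1 S.L0 ⊓ S.M ≤ mv g (S.tr k S.M)) :
    g ∈ S.N k := by
  have h2 : S.M ≤ mv g (S.tr k S.M) := by
    conv_lhs => rw [S.lat_L0.M_eq_iSup S.compl.sup_eq_top]
    refine iSup_le fun i => (tr_le_mv h i).trans (Submodule.comap_mono ?_)
    rw [S.tr_tr]
    exact S.tr_M_anti (by omega)
  exact fun v hv => h2 hv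

theorem smul_mem_Y {u : Submodule F V} (hu : {u} ∈ S.Y) (g : S.Aut) : {g • u} ∈ S.Y := by
  rw [S.mem_Y] at hu ⊢
  refine ⟨by simpa using inv_B g _ hu.1, fun w hw => ?_⟩
  rw [mem_singleton.1 hw, pts_smul]
  exact hu.2 u (mem_singleton_self u)

theorem pow_mem_N {p : ℕ} [Fact p.Prime] [CharP F p] {g : S.Aut} (hg : g ∈ S.N 1) (k : ℕ) :
    g ^ p ^ k ∈ S.N k := by
  have hV : Nontrivial V := by
    by_contra hcon
    have : Subsingleton V := not_nontrivial_iff_subsingleton.1 hcon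
    have h1 := S.fin
    have h2 := S.pos
    rw [Module.finrank_zero_of_subsingleton] at h1
    omega
  have : CharP (Module.End F V) p := charP_of_injective_algebraMap' F p
  let A : Module.End F V := (S.val g : V →ₗ[F] V)
  have h1 : ∀ m : ℕ, ∀ v ∈ S.M, ((A - 1) ^ m) v ∈ S.tr m S.M := by
    intro m
    induction m with
    | zero => intro v hv; simpa [S.tr_zero] using hv
    | succ m ih =>
      intro v hv
      rw [pow_succ', Module.End.mul_apply]
      have h2 : S.M ≤ mv g (S.tr (1 : ℕ) S.M) := hg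
      have h3 := tr_le_mv h2 m (ih v hv)
      rw [S.tr_tr] at h3
      exact_mod_cast h3
  have h4 : ∀ m : ℕ, ∀ v, S.val (g ^ m) v = (A ^ m) v := by
    intro m
    induction m with
    | zero => intro v; simp
    | succ m ih =>
      intro v
      rw [pow_succ, map_mul, LinearEquiv.mul_apply, ih, pow_succ, Module.End.mul_apply]
      rfl
  intro v hv
  have h5 := h1 (p ^ k) v hv
  rw [sub_pow_char_pow_of_commute p k (Commute.one_right A), one_pow] at h5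
  rw [h4]
  refine S.tr_M_anti ?_ h5
  exact_mod_cast (Nat.lt_pow_self (Fact.out : p.Prime).one_lt).le

end FreeAux

open FreeAux

theorem eq_of_smul_eq {u u' w : Submodule F V} (hu : {u} ∈ S.Y) (hu' : {u'} ∈ S.Y) (h₁ : u ≤ w)
    (h₂ : u' ≤ w) (hw : S.tr 1 w ⊓ S.tr k S.M = ⊥) {g : S.Aut} (hg : g ∈ S.N k)
    (h : g • u = u') : u = u' := by
  have h3 := fix_sections h₁ h₂ hw hg h
  have h4 : g • (S.tr 1 u ⊓ S.M) = S.tr 1 u ⊓ S.M := by
    ext x
    rw [smul_def, Submodule.mem_map]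
    constructor
    · rintro ⟨y, hy, rfl⟩
      rwa [LinearEquiv.coe_coe, h3 y hy]
    · exact fun hx => ⟨x, hx, h3 x hx⟩
  rw [smul_inf, smul_tr, smul_M, h] at h4
  rw [(lat_of_mem_Y hu).1.eq_iSup (sup_eq_top_of_mem_Y hu).1,
    (lat_of_mem_Y hu').1.eq_iSup (sup_eq_top_of_mem_Y hu').1, h4]

theorem smul_eq_of_adj (hk : 3 ≤ k) {v u : Submodule F V} {g : S.Aut} (hg : g ∈ S.N k)
    (h₁ : {v, u} ∈ S.Y) (h₂ : {v, g • u} ∈ S.Y) : g • u = u := by
  have key : ∀ u : Submodule F V, {v, u} ∈ S.Y → {u} ∈ S.Y ∧ u ≤ S.tr 1 v := by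
    intro u h
    have hu : {u} ∈ S.Y := S.down_Y _ h _ (by simp)
    have hB := ((S.mem_Y).1 h).1
    have hv := hB.1 v (by simp)
    have hu' := lat_of_mem_Y hu
    refine ⟨hu, Comp.le_of_chi ((comp_tr_right 1).2 (hB.2 u (by simp) v (by simp))) hu'.1
      (hv.1.tr 1) ?_⟩
    rw [hv.1.chi_tr]
    have := hv.2.1
    have := hu'.2.2
    omega
  have hv : {v} ∈ S.Y := S.down_Y _ h₁ _ (by simp)
  refine (eq_of_smul_eq (key _ h₁).1 (key _ h₂).1 (key _ h₁).2 (key _ h₂).2 ?_ hg rfl).symm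
  rw [S.tr_tr]
  exact tr_inf_tr_M hv (by omega)

theorem eq_one_of_fix (hk : 3 ≤ k) {g : S.Aut} (hg : g ∈ S.N k) {σ : Finset (Submodule F V)}
    (hσ : σ ∈ S.Y) (hne : σ.Nonempty) (h : σ.image (g • ·) = σ) : g = 1 := by
  obtain ⟨u, hu⟩ := hne
  have h1 : g • u ∈ σ := h ▸ mem_image_of_mem _ hu
  exact eq_one_of_vertex (by omega) hg (S.down_Y _ hσ _ (singleton_subset_iff.2 hu))
    (injOn_ty ((S.mem_Y).1 hσ).1 h1 hu (ty_smul g u))

variable (S)

theorem finiteIndex_N [Finite F] (k : ℕ) : (S.N k).FiniteIndex := by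
  have h1 := (S.lat_L0.tr 1).finite_inf
  have h2 := (S.lat_L0.tr k).finite_inf
  have h3 : Finite ↥(S.tr 1 S.L0 ⊓ S.M) := Module.finite_of_finite F
  have h4 : Finite ↥(S.tr k S.L0 ⊓ S.M) := Module.finite_of_finite F
  have h5 : ∀ x ∈ S.M, ∃ q : ↥(S.tr k S.L0 ⊓ S.M), x - q ∈ S.tr k S.M := by
    intro x hx
    have h6 : x ∈ S.tr k S.L0 ⊔ S.tr k S.M := by
      rw [← S.tr_sup, S.compl.sup_eq_top, S.tr_top]; trivial
    obtain ⟨y, hy, z, hz, rfl⟩ := Submodule.mem_sup.1 h6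
    have hz' : z ∈ S.M := by
      have := S.tr_M_anti (show (0 : ℤ) ≤ k by omega) hz
      rwa [S.tr_zero] at this
    exact ⟨⟨y, hy, by simpa using sub_mem hx hz'⟩, by simpa using hz⟩
  choose q hq using fun (g : S.Aut) (x : ↥(S.tr 1 S.L0 ⊓ S.M)) =>
    h5 (S.val g x) ((val_mem_M g _).2 x.2.2)
  have h7 : Finite (S.Aut ⧸ S.N k) := by
    refine Finite.of_injective (fun c => q c.out) fun c c' h => ?_
    rw [← c.out_eq', ← c'.out_eq', QuotientGroup.eq]
    refine mem_N_of_sections fun x hx => ?_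
    have h8 := sub_mem (hq c'.out ⟨x, hx⟩) (hq c.out ⟨x, hx⟩)
    have h9 : q c.out = q c'.out := h
    rw [h9, sub_sub_sub_cancel_right] at h8
    rw [mem_mv, ← mem_smul c.out, smul_tr, smul_M, map_sub, ← LinearEquiv.mul_apply, ← map_mul,
      mul_inv_cancel_left]
    exact h8
  exact Subgroup.finiteIndex_of_finite_quotient

theorem odd_relIndex_N [Finite F] {p : ℕ} [CharP F p] (hp : Odd p) (k : ℕ) :
    Odd ((S.N k).relIndex (S.N 1)) := by
  have : Fact p.Prime := ⟨CharP.char_prime_of_ne_zero F (by rintro rfl; simp at hp)⟩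
  have := S.finiteIndex_N k
  have h1 : IsPGroup p (S.N 1 ⧸ (S.N k).subgroupOf (S.N 1)) := by
    intro c
    obtain ⟨g, rfl⟩ := QuotientGroup.mk_surjective c
    refine ⟨k, ?_⟩
    rw [← QuotientGroup.mk_pow, QuotientGroup.eq_one_iff, Subgroup.mem_subgroupOf]
    exact pow_mem_N g.2 k
  obtain ⟨e, he⟩ := h1.exists_card_eq
  rw [Subgroup.relIndex, Subgroup.index, he]
  exact hp.pow

/-- For large level there are many orbits of vertices. -/
theorem exists_many [Finite F] [Infinite S.Aut] (m : ℕ) :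
    ∃ k, 3 ≤ k ∧ ∃ s : Finset (Submodule F V), m ≤ s.card ∧ (∀ v ∈ s, {v} ∈ S.Y) ∧
      ∀ v ∈ s, ∀ g ∈ S.N k, g • v ∈ s → g • v = v := by
  have := S.finiteIndex_N 3
  have h1 : Infinite (S.N 3) := by
    by_contra hcon
    have : Finite (S.N 3) := not_infinite_iff_finite.1 hcon
    have : Finite S.Aut := Finite.of_equiv _ (Subgroup.groupEquivQuotientProdSubgroup (s := S.N 3)).symm
    exact not_finite S.Aut
  have h2 : Function.Injective fun g : S.N 3 => (g : S.Aut) • S.L0 := by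
    intro g g' h
    have h3 : (g'⁻¹ * g : S.N 3) = (1 : S.Aut) := eq_one_of_vertex (k := 3) (by omega)
      (g'⁻¹ * g).2 S.L0_mem_Y (by
        rw [Subgroup.coe_mul, mul_smul, show (g : S.Aut) • S.L0 = (g' : S.Aut) • S.L0 from h,
          Subgroup.coe_inv, inv_smul_smul])
    exact (inv_mul_eq_one.1 (Subtype.ext h3)).symm
  obtain ⟨s, hs, hsc⟩ := (Set.infinite_range_of_injective h2).exists_subset_card_eq m
  have hY : ∀ v ∈ s, {v} ∈ S.Y := fun v hv => by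
    obtain ⟨g, rfl⟩ := hs hv
    exact smul_mem_Y S.L0_mem_Y _
  choose! a ha using fun v (hv : v ∈ s) => S.lat_L0.exists_le_tr (lat_of_mem_Y (hY v hv)).1
  have hle : ∀ v ∈ s, v ≤ S.tr (s.sup a : ℕ) S.L0 := fun v hv =>
    (ha v hv).trans (S.lat_L0.tr_mono (by exact_mod_cast le_sup hv))
  refine ⟨s.sup a + 3, by omega, s, hsc.ge, hY, fun v hv g hg hgv => ?_⟩
  refine (eq_of_smul_eq (hY v hv) (hY _ hgv) (hle v hv) (hle _ hgv) ?_ hg rfl).symm
  rw [S.tr_tr]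
  exact tr_inf_tr_M S.L0_mem_Y (by push_cast; omega)

end Setup

end Crest.Agent.R66
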