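import Crest.Agent.R66.Gap
import Crest.Agent.R66.Morse

set_option autoImplicit false

namespace Crest.Agent.R66

open Finset

namespace GFill

variable {F V : Type} [Field F] [AddCommGroup V] [Module F V] {n : ℕ}

/-- The translate of `u` with Euler characteristic in `(chi l, chi l + n]`. -/
noncomputable def lift (S : Setup F V n) (l u : Submodule F V) : Submodule F V :=
  S.tr ((S.chi l + n - S.chi u) / n) u

variable {S : Setup F V n} {σ : Finset (Submodule F V)} {l r u w : Submodule F V}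

theorem lat_lift (hu : S.Lat u) : S.Lat (lift S l u) := hu.tr _

theorem chi_lift (hu : S.Lat u) :
    S.chi l < S.chi (lift S l u) ∧ S.chi (lift S l u) ≤ S.chi l + n := by
  have hn : (0 : ℤ) < n := by exact_mod_cast S.pos
  unfold lift
  rw [hu.chi_tr]
  have h1 := Int.emod_add_ediv_mul (S.chi l + n - S.chi u) n
  have h2 := Int.emod_nonneg (S.chi l + n - S.chi u) hn.ne'
  have h3 := Int.emod_lt_of_pos (S.chi l + n - S.chi u) hn
  constructor <;> linarith

theorem lift_nm (hw : S.Lat w) (h₁ : S.chi l < S.chi w) (h₂ : S.chi w ≤ S.chi l + n) :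
    lift S l (S.nm w) = w := by
  have hn : (0 : ℤ) < n := by exact_mod_cast S.pos
  obtain ⟨h₃, h₄⟩ := chi_lift (l := l) hw.vert_nm.1
  have e : lift S l (S.nm w) =
      S.tr ((S.chi l + n - S.chi (S.nm w)) / n + -(S.chi w / n)) w := by
    rw [← S.tr_tr]
    rfl
  rw [e] at h₃ h₄ ⊢
  rw [hw.chi_tr] at h₃ h₄
  generalize (S.chi l + n - S.chi (S.nm w)) / n + -(S.chi w / n) = a at h₃ h₄ ⊢
  have : a = 0 := by
    rcases lt_trichotomy a 0 with h | h | h
    · have : a * n ≤ -1 * n := mul_le_mul_of_nonneg_right (by omega) hn.le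
      linarith
    · exact h
    · have : 1 * (n : ℤ) ≤ a * n := mul_le_mul_of_nonneg_right (by omega) hn.le
      linarith
  rw [this, S.tr_zero]

theorem nm_lift (hu : S.Vert u) : S.nm (lift S l u) = u := hu.nm_tr _

theorem vert_of_mem (hσ : σ ∈ S.B) (hu : {u} ∈ S.G σ) : S.Vert u :=
  ((Setup.singleton_mem_G_iff hσ).1 hu).2.1

theorem comp_lift (hσ : σ ∈ S.B) (hu : {u} ∈ S.G σ) : ∀ u' ∈ σ, S.Comp u' (lift S l u) :=
  fun u' hu' => (Setup.comp_tr_right _).2 (((Setup.singleton_mem_G_iff hσ).1 hu).2.2.1 u' hu')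

theorem lt_lift (h : S.Gap σ l r) (hσ : σ ∈ S.B) (hu : {u} ∈ S.G σ) : l < lift S l u :=
  (h.tricho hσ (lat_lift (vert_of_mem hσ hu).1) (comp_lift hσ hu)).2.2.1
    (chi_lift (vert_of_mem hσ hu).1).1

theorem lift_le (h : S.Gap σ l r) (hσ : σ ∈ S.B) (hu : {u} ∈ S.G σ) :
    lift S l u ≤ S.tr 1 l := by
  have hl := h.lat_left hσ
  have hL := lat_lift (l := l) (vert_of_mem hσ hu).1
  obtain ⟨u₀, hu₀, a, ha⟩ := h.left
  have hc : S.Comp (S.tr 1 l) (lift S l u) := by
    rw [Setup.comp_tr_left]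
    conv_lhs => rw [ha]
    rw [Setup.comp_tr_left]
    exact comp_lift hσ hu u₀ hu₀
  refine hc.symm.le_of_chi hL (hl.tr 1) ?_
  rw [hl.chi_tr]
  have := (chi_lift (l := l) (vert_of_mem hσ hu).1).2
  linarith

theorem comp_of_between {w' : Submodule F V} (hw : S.Lat w) (h₁ : l ≤ w) (h₂ : w ≤ w')
    (h₃ : w' ≤ S.tr 1 l) : S.Comp w w' :=
  hw.comp_of_le h₂ (h₃.trans ((S.tr_le_tr_iff 1).2 h₁))

theorem lift_le_lift (hσ : σ ∈ S.B) {ρ : Finset (Submodule F V)} (hρ : ρ ∈ S.G σ) (hu : u ∈ ρ)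
    (hw : w ∈ ρ) (hc : S.chi (lift S l u) ≤ S.chi (lift S l w)) : lift S l u ≤ lift S l w := by
  obtain ⟨h₁, h₂⟩ := (Setup.mem_G_iff hσ).1 hρ
  have : S.Comp (lift S l u) (lift S l w) :=
    (Setup.comp_tr_left _).2 ((Setup.comp_tr_right _).2 (h₂ u hu w hw))
  exact this.le_of_chi (lat_lift (vert_of_mem hσ (h₁ u hu)).1)
    (lat_lift (vert_of_mem hσ (h₁ w hw)).1) hc

theorem eq_of_chi_lift (hσ : σ ∈ S.B) {ρ : Finset (Submodule F V)} (hρ : ρ ∈ S.G σ) (hu : u ∈ ρ)
    (hw : w ∈ ρ) (hc : S.chi (lift S l u) = S.chi (lift S l w)) : u = w := by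
  obtain ⟨h₁, -⟩ := (Setup.mem_G_iff hσ).1 hρ
  have e : lift S l u = lift S l w :=
    le_antisymm (lift_le_lift hσ hρ hu hw hc.le) (lift_le_lift hσ hρ hw hu hc.ge)
  rw [← nm_lift (l := l) (vert_of_mem hσ (h₁ u hu)), e, nm_lift (vert_of_mem hσ (h₁ w hw))]

/-- Adding a vector to a lattice in the lower part of the gap. -/
theorem plus (h : S.Gap σ l r) (hσ : σ ∈ S.B) {v : V} (hv : v ∈ r) (h₁ : l ≤ w) (h₂ : w ≤ r)
    (hvw : v ∉ w) (hc : S.chi w + 2 ≤ S.chi r) (hf : S.Free l r (w ⊔ Submodule.span F {v})) :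
    S.Lat (w ⊔ Submodule.span F {v}) ∧ w ⊔ Submodule.span F {v} ≤ S.tr 1 l ∧
      S.chi (w ⊔ Submodule.span F {v}) = S.chi w + 1 ∧
      {S.nm (w ⊔ Submodule.span F {v})} ∈ S.G σ ∧
      lift S l (S.nm (w ⊔ Submodule.span F {v})) = w ⊔ Submodule.span F {v} := by
  have hl := h.lat_left hσ
  have hw := h.lat hσ h₁ h₂
  have hle : w ⊔ Submodule.span F {v} ≤ r :=
    sup_le h₂ ((Submodule.span_singleton_le_iff_mem _ _).2 hv)
  have hL := h.lat hσ (h₁.trans le_sup_left) hle
  have hchi := hw.chi_sup_span hvw ((S.tr_le_tr_iff 1).2 h₁ (h.le_tr hv))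
  have hlw := hl.chi_mono hw h₁
  have hr := (h.lat_right hσ).chi_mono (hl.tr 1) h.le_tr
  rw [hl.chi_tr] at hr
  have hlt₁ : l < w ⊔ Submodule.span F {v} :=
    lt_of_le_of_ne (h₁.trans le_sup_left) fun e => by rw [← e] at hchi; linarith
  have hlt₂ : w ⊔ Submodule.span F {v} < r :=
    lt_of_le_of_ne hle fun e => by rw [e] at hchi; linarith
  exact ⟨hL, hle.trans h.le_tr, hchi, (h.mem_G_iff hσ hlt₁ hlt₂).2 hf,
    lift_nm hL (by linarith) (by linarith)⟩

/-- A new vertex that is comparable with all vertices of a face. -/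
theorem insert_mem (h : S.Gap σ l r) (hσ : σ ∈ S.B) {ρ : Finset (Submodule F V)}
    (hρ : ρ ∈ S.G σ) (hw : S.Lat w) (h₁ : l ≤ w) (h₂ : w ≤ S.tr 1 l) (hG : {S.nm w} ∈ S.G σ)
    (hc : ∀ u ∈ ρ, lift S l u ≤ w ∨ w ≤ lift S l u) : insert (S.nm w) ρ ∈ S.G σ := by
  obtain ⟨h₃, h₄⟩ := (Setup.mem_G_iff hσ).1 hρ
  have key : ∀ u ∈ ρ, S.Comp (S.nm w) u := by
    intro u hu
    have : S.Comp w (lift S l u) := by
      rcases hc u hu with h' | h'
      · exact (comp_of_between (lat_lift (vert_of_mem hσ (h₃ u hu)).1)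
          (lt_lift h hσ (h₃ u hu)).le h' h₂).symm
      · exact comp_of_between hw h₁ h' (lift_le h hσ (h₃ u hu))
    exact (Setup.comp_tr_left _).2 ((Setup.comp_tr_right _).1 this)
  refine (Setup.mem_G_iff hσ).2 ⟨?_, ?_⟩
  · intro u hu
    rcases mem_insert.1 hu with rfl | hu
    · exact hG
    · exact h₃ u hu
  · intro u hu u' hu'
    rcases mem_insert.1 hu with rfl | hu <;> rcases mem_insert.1 hu' with rfl | hu'
    · exact hw.vert_nm.1.comp_self
    · exact key _ hu'
    · exact (key _ hu).symm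
    · exact h₄ u hu u' hu'

theorem bd_cone_of_cycle {W : Type} [DecidableEq W] (p : W) {x : Ch W} (hx : bd x = 0) :
    bd (cone p x) = x := by
  have := bd_cone p x
  rwa [hx, map_zero, add_zero] at this

theorem down_G : Down (S.G σ) := Setup.down_B.gen σ

/-- The last step: a cycle all of whose vertices contain `v` is a cone. -/
theorem final (h : S.Gap σ l r) (hσ : σ ∈ S.B) {v : V} (hv : v ∈ r) (hvl : v ∉ l)
    (hc : S.chi l + 2 ≤ S.chi r) (hf : S.Free l r (l ⊔ Submodule.span F {v})) {b : ℕ}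
    {x : Ch (Submodule F V)} (hx : x ∈ Cb (S.G σ) b) (hbd : bd x = 0)
    (H : ∀ ρ ∈ x.support, ∀ u ∈ ρ, v ∈ lift S l u) :
    ∃ y ∈ Cb (S.G σ) (b + 1), bd y = x ∧ y.support.card ≤ x.support.card := by
  obtain ⟨h₁, h₂, -, h₄, -⟩ := plus h hσ hv le_rfl h.lt.le hvl hc hf
  refine ⟨cone (S.nm (l ⊔ Submodule.span F {v})) x, cone_mem_Cb fun ρ hρ => ?_,
    bd_cone_of_cycle _ hbd, card_support_cone_le _ _⟩
  obtain ⟨hρ₁, hρ₂⟩ := mem_Cb.1 hx ρ hρ
  refine ⟨hρ₂, fun _ => insert_mem h hσ hρ₁ h₁ le_sup_left h₂ h₄ fun u hu => Or.inr ?_⟩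
  exact sup_le (lt_lift h hσ (((Setup.mem_G_iff hσ).1 hρ₁).1 u hu)).le
    ((Submodule.span_singleton_le_iff_mem _ _).2 (H ρ hρ u hu))

/-- The size of the filling after `k` rounds. -/
def RR : ℕ → ℕ → ℕ
  | 0, s => s
  | k + 1, s => s * s + RR k (s + s * s)

/-- The invariant of the rounds. -/
def Good (S : Setup F V n) (l r : Submodule F V) (v : V) (j : ℤ) (u : Submodule F V) : Prop :=
  v ∈ lift S l u ∨ (S.chi (lift S l u) ≤ j ∧ S.chi (lift S l u) + 2 ≤ S.chi r ∧
    S.Free l r (lift S l u ⊔ Submodule.span F {v}))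

theorem fill_of_add {W : Type} [DecidableEq W] {K : Set (Finset W)} {b : ℕ} {x y z : Ch W}
    (hz : z ∈ Cb K b) (hy : y ∈ Cb K b) (h : bd y = x + bd z) :
    z + y ∈ Cb K b ∧ bd (z + y) = x := by
  refine ⟨add_mem hz hy, ?_⟩
  rw [map_add, h, add_left_comm, ch_add_self, add_zero]

theorem rounds (h : S.Gap σ l r) (hσ : σ ∈ S.B) {v : V} (hv : v ∈ r) (hvl : v ∉ l)
    (hc : S.chi l + 2 ≤ S.chi r) (hf : S.Free l r (l ⊔ Submodule.span F {v})) {b : ℕ} (k : ℕ) :
    ∀ (s : ℕ) (x : Ch (Submodule F V)), x ∈ Cb (S.G σ) (b + 1) → bd x = 0 →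
      x.support.card ≤ s → (∀ ρ ∈ x.support, ∀ u ∈ ρ, Good S l r v (S.chi l + k) u) →
      ∃ y ∈ Cb (S.G σ) (b + 2), bd y = x ∧ y.support.card ≤ RR k s := by
  induction k with
  | zero =>
    intro s x hx hbd hs H
    obtain ⟨y, hy, hy', hy''⟩ := final h hσ hv hvl hc hf hx hbd fun ρ hρ u hu => by
      rcases H ρ hρ u hu with h' | h'
      · exact h'
      · have hu' := ((Setup.mem_G_iff hσ).1 (mem_Cb.1 hx ρ hρ).1).1 u hu
        have := (chi_lift (l := l) (vert_of_mem hσ hu').1).1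
        have := h'.1
        simp only [Nat.cast_zero, add_zero] at this
        linarith
    exact ⟨y, hy, hy', hy''.trans hs⟩
  | succ k ih =>
    intro s x hx hbd hs H
    obtain ⟨z, hz, hzs, hxs, hQ⟩ := round (K := S.G σ) (b := b) down_G
      {u | S.chi (lift S l u) = S.chi l + (k + 1 : ℕ) ∧ v ∉ lift S l u}
      (fun ρ hρ u hu w hw hu' hw' => eq_of_chi_lift hσ hρ hu hw (hu'.1.trans hw'.1.symm))
      (fun ρ => ∀ u ∈ ρ, Good S l r v (S.chi l + (k + 1 : ℕ)) u) (R := s) hx hbd hs (by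
        rintro u ⟨hu₁, hu₂⟩ ⟨ρ, hρ, huρ⟩
        have huG := ((Setup.mem_G_iff hσ).1 (mem_Cb.1 hx ρ hρ).1).1 u huρ
        obtain ⟨-, hg₁, hg₂⟩ := (H ρ hρ u huρ).resolve_left hu₂
        have hur : lift S l u ≤ r :=
          ((h.tricho hσ (lat_lift (vert_of_mem hσ huG).1) (comp_lift hσ huG)).2.2.2
            (by linarith)).le
        obtain ⟨h₁, h₂, h₃, h₄, h₅⟩ := plus h hσ hv (lt_lift h hσ huG).le hur hu₂ hg₁ hg₂
        have hvp : v ∈ lift S l (S.nm (lift S l u ⊔ Submodule.span F {v})) := by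
          rw [h₅]
          exact Submodule.mem_sup_right (Submodule.mem_span_singleton_self v)
        refine ⟨cone (S.nm (lift S l u ⊔ Submodule.span F {v})) (lkc u x),
          cone_mem_Cb fun τ hτ => ?_, bd_cone_of_cycle _ (by rw [← lkc_bd, hbd, map_zero]),
          (card_support_cone_le _ _).trans ((card_support_lkc_le _ _).trans hs), ?_⟩
        · obtain ⟨hτ₁, hτ₂⟩ := mem_support_lkc.1 hτ
          obtain ⟨hτ₃, hτ₄⟩ := mem_Cb.1 hx _ hτ₂
          refine ⟨by rw [card_insert_of_notMem hτ₁] at hτ₄; omega, fun _ => ⟨?_, ?_⟩⟩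
          · rw [disjoint_singleton_right, mem_insert, not_or]
            refine ⟨fun e => hu₂ ?_, hτ₁⟩
            rw [← e] at hvp
            exact hvp
          · have e : insert (S.nm (lift S l u ⊔ Submodule.span F {v})) τ ∪ {u} =
                insert (S.nm (lift S l u ⊔ Submodule.span F {v})) (insert u τ) := by
              ext a
              simp only [mem_union, mem_insert, mem_singleton]
              tauto
            rw [e]
            refine insert_mem h hσ hτ₃ h₁ ((lt_lift h hσ huG).le.trans le_sup_left) h₂ h₄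
              fun w hw => ?_
            rcases le_total (S.chi (lift S l w)) (S.chi (lift S l u)) with hle | hle
            · exact Or.inl ((lift_le_lift hσ hτ₃ hw (mem_insert_self _ _) hle).trans le_sup_left)
            · rcases H _ hτ₂ w hw with h' | h'
              · exact Or.inr (sup_le (lift_le_lift hσ hτ₃ (mem_insert_self _ _) hw hle)
                  ((Submodule.span_singleton_le_iff_mem _ _).2 h'))
              · exact Or.inl ((lift_le_lift hσ hτ₃ hw (mem_insert_self _ _)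
                  (h'.1.trans hu₁.ge)).trans le_sup_left)
        · intro τ hτ w hw
          obtain ⟨-, hτ₂⟩ := mem_support_cone.1 hτ
          by_cases e : w = S.nm (lift S l u ⊔ Submodule.span F {v})
          · exact Or.inl (e ▸ hvp)
          · exact H _ (mem_support_lkc.1 hτ₂).2 w (mem_insert_of_mem (mem_erase.2 ⟨e, hw⟩)))
    obtain ⟨y, hy, hy', hy''⟩ := ih (s + s * s) (x + bd z) (add_mem hx (bd_mem_Cb down_G hz))
      (by rw [map_add, hbd, bd_bd, add_zero]) hxs (by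
        intro ρ hρ u hu
        obtain ⟨hT, hρ'⟩ := hQ ρ hρ
        have hg : Good S l r v (S.chi l + (k + 1 : ℕ)) u := by
          rcases hρ' with h' | h'
          · exact H ρ h' u hu
          · exact h' u hu
        by_cases hvu : v ∈ lift S l u
        · exact Or.inl hvu
        · obtain ⟨hg₀, hg₁, hg₂⟩ := hg.resolve_left hvu
          refine Or.inr ⟨?_, hg₁, hg₂⟩
          have hne : S.chi (lift S l u) ≠ S.chi l + (k + 1 : ℕ) := fun e => hT u hu ⟨e, hvu⟩
          push_cast at hg₀ hne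
          omega)
    obtain ⟨e₁, e₂⟩ := fill_of_add hz hy hy'
    exact ⟨z + y, e₁, e₂, (card_support_add_le _ _).trans (add_le_add hzs hy'')⟩

/-- Filling a cycle without vertices at the top level of the gap. -/
theorem fill_no_top [Fintype F] (h : S.Gap σ l r) (hσ : σ ∈ S.B) (hc : S.chi l + 2 ≤ S.chi r)
    {b s : ℕ} (hb : b + 1 ≤ n) (hq : s * n + 2 ≤ Fintype.card F) {x : Ch (Submodule F V)}
    (hx : x ∈ Cb (S.G σ) (b + 1)) (hbd : bd x = 0) (hs : x.support.card ≤ s)
    (H : ∀ ρ ∈ x.support, ∀ u ∈ ρ, S.chi (lift S l u) ≠ S.chi r - 1) :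
    ∃ y ∈ Cb (S.G σ) (b + 2), bd y = x ∧ y.support.card ≤ RR n s := by
  have hmem : ∀ ρ ∈ x.support, ∀ u ∈ ρ, {u} ∈ S.G σ := fun ρ hρ u hu =>
    ((Setup.mem_G_iff hσ).1 (mem_Cb.1 hx ρ hρ).1).1 u hu
  have hcard : (x.support.biUnion id).card ≤ s * n := by
    refine card_biUnion_le.trans ((sum_le_card_nsmul _ _ n fun ρ hρ => ?_).trans ?_)
    · rw [id, (mem_Cb.1 hx ρ hρ).2]
      exact hb
    · exact Nat.mul_le_mul_right n hs
  obtain ⟨v, hv, hv'⟩ := Setup.exists_generic (h.lat_left hσ) (h.lat_right hσ)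
    (insert l (((x.support.biUnion id).filter fun u => S.chi (lift S l u) < S.chi r).image
      (lift S l))) (by
      refine (card_insert_le _ _).trans_lt ?_
      have := (card_image_le (f := lift S l)
        (s := (x.support.biUnion id).filter fun u => S.chi (lift S l u) < S.chi r)).trans
        ((card_filter_le _ _).trans hcard)
      omega) (by
      intro w hw
      rcases mem_insert.1 hw with rfl | hw
      · exact ⟨le_rfl, h.lt, Setup.free_left _ _⟩
      · obtain ⟨u, hu, rfl⟩ := mem_image.1 hw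
        obtain ⟨hu₁, hu₂⟩ := mem_filter.1 hu
        obtain ⟨ρ, hρ, huρ⟩ := mem_biUnion.1 hu₁
        have huG := hmem ρ hρ u huρ
        have hur := (h.tricho hσ (lat_lift (vert_of_mem hσ huG).1) (comp_lift hσ huG)).2.2.2 hu₂
        refine ⟨(lt_lift h hσ huG).le, hur, (h.mem_G_iff hσ (lt_lift h hσ huG) hur).1 ?_⟩
        rwa [nm_lift (vert_of_mem hσ huG)])
  obtain ⟨hvl, hf⟩ := hv' l (mem_insert_self _ _)
  refine rounds h hσ hv hvl hc hf n s x hx hbd hs fun ρ hρ u hu => ?_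
  have huG := hmem ρ hρ u hu
  rcases le_or_gt (S.chi r) (S.chi (lift S l u)) with hle | hlt
  · exact Or.inl ((h.tricho hσ (lat_lift (vert_of_mem hσ huG).1) (comp_lift hσ huG)).2.1 hle hv)
  · refine Or.inr ⟨(chi_lift (vert_of_mem hσ huG).1).2, ?_, (hv' _ (mem_insert_of_mem
      (mem_image_of_mem _ (mem_filter.2 ⟨mem_biUnion.2 ⟨ρ, hρ, hu⟩, hlt⟩)))).2⟩
    have := H ρ hρ u hu
    omega

end GFill

open GFill in
/-- Bounded fillings in generic links. -/
theorem fill_G (n c s : ℕ) : ∃ R q₀ : ℕ, ∀ (F V : Type) [Field F] [Fintype F] [AddCommGroup V]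
    [Module F V] (S : Setup F V n), q₀ ≤ Fintype.card F →
    ∀ σ ∈ S.B, σ.Nonempty → σ.card + c = n → ∀ b < c, Fill (S.G σ) b s R := by
  induction c with
  | zero => exact ⟨0, 0, fun F V _ _ _ _ S _ σ _ _ _ b hb => absurd hb (Nat.not_lt_zero b)⟩
  | succ c ih =>
    obtain ⟨R', q', ih⟩ := ih
    refine ⟨s * R' + RR n (s + s * R') + s, q' + ((s + s * R') * n + 2), ?_⟩
    intro F V _ _ _ _ S hq σ hσ hne hcard b hb x hx hbd hs
    obtain ⟨l, r, h, hc⟩ := Setup.exists_gap_of_card_lt hσ hne (by omega)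
    cases b with
    | zero =>
      obtain ⟨v, hv, hv'⟩ := Setup.exists_generic (h.lat_left hσ) (h.lat_right hσ) {l}
        (by rw [card_singleton]; omega) (by
          intro w hw
          rw [mem_singleton.1 hw]
          exact ⟨le_rfl, h.lt, Setup.free_left _ _⟩)
      obtain ⟨hvl, hf⟩ := hv' l (mem_singleton_self _)
      obtain ⟨y, hy, hy', hy''⟩ := final h hσ hv hvl hc hf hx hbd fun ρ hρ u hu => by
        rw [card_eq_zero.1 (mem_Cb.1 hx ρ hρ).2] at hu
        exact absurd hu (notMem_empty u)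
      exact ⟨y, hy, hy', by omega⟩
    | succ b =>
      obtain ⟨z, hz, hzs, hxs, hQ⟩ := round (K := S.G σ) (b := b) down_G
        {u | S.chi (lift S l u) = S.chi r - 1}
        (fun ρ hρ u hu w hw hu' hw' => eq_of_chi_lift hσ hρ hu hw (hu'.trans hw'.symm))
        (fun _ => True) (R := R') hx hbd hs (by
          rintro u - ⟨ρ, hρ, huρ⟩
          have huG := ((Setup.mem_G_iff hσ).1 (mem_Cb.1 hx ρ hρ).1).1 u huρ
          have e : lk (S.G σ) {u} = S.G ({u} ∪ σ) := lk_gen huG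
          have hcard' : ({u} ∪ σ).card + c = n := by
            rw [card_union_of_disjoint huG.1, card_singleton]
            omega
          obtain ⟨y, hy, hy', hy''⟩ := ih F V S (by omega) ({u} ∪ σ) huG.2.1
            (hne.mono subset_union_right) hcard' b (by omega) (lkc u x)
            (e ▸ lkc_mem_Cb u hx) (by rw [← lkc_bd, hbd, map_zero])
            ((card_support_lkc_le _ _).trans hs)
          exact ⟨y, e ▸ hy, hy', hy'', fun _ _ => trivial⟩)
      obtain ⟨y, hy, hy', hy''⟩ := fill_no_top h hσ hc (b := b) (s := s + s * R') (by omega)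
        (by omega) (add_mem hx (bd_mem_Cb down_G hz)) (by rw [map_add, hbd, bd_bd, add_zero]) hxs
        fun ρ hρ u hu => (hQ ρ hρ).1 u hu
      obtain ⟨e₁, e₂⟩ := fill_of_add hz hy hy'
      have := card_support_add_le z y
      exact ⟨z + y, e₁, e₂, by omega⟩

/-- Bounded contractions of generic links. -/
theorem cone_G (n : ℕ) : ∃ R q₀ : ℕ, ∀ (F V : Type) [Field F] [Fintype F] [AddCommGroup V]
    [Module F V] (S : Setup F V n), q₀ ≤ Fintype.card F →
    ∀ σ ∈ S.B, σ.Nonempty → Cone (S.G σ) (n - σ.card) R := by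
  choose R q hRq using fill_G n
  choose s R' hs using fun c => cone_of_fill c (R c)
  refine ⟨(range (n + 1)).sup R', (range (n + 1)).sup fun c => (range (s c + 1)).sup (q c), ?_⟩
  intro F V _ _ _ _ S hq σ hσ hne
  have hc : n - σ.card ∈ range (n + 1) := mem_range.2 (by omega)
  refine Cone.mono (hs (n - σ.card) _ _ GFill.down_G fun b hb s' hs' => ?_) le_rfl (le_sup hc)
  refine hRq (n - σ.card) s' F V S (le_trans ?_ hq) σ hσ hne (by omega) b hb
  exact (le_sup (f := q (n - σ.card)) (mem_range.2 (Nat.lt_succ_of_le hs'))).trans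
    (le_sup (f := fun c => (range (s c + 1)).sup (q c)) hc)

end Crest.Agent.R66
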