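import Crest.Agent.R66.Lat
import Crest.Agent.R66.Core

set_option autoImplicit false

namespace Crest.Agent.R66

open Finset

namespace Setup

variable {F V : Type} [Field F] [AddCommGroup V] [Module F V] {n : ℕ} (S : Setup F V n)

variable {S} {σ : Finset (Submodule F V)} {l r w : Submodule F V}

namespace GapAux

theorem comp_tr_tr (hσ : σ ∈ S.B) {u u' : Submodule F V} (hu : u ∈ σ) (hu' : u' ∈ σ) (a b : ℤ) :
    S.Comp (S.tr a u) (S.tr b u') :=
  (comp_tr_left a).2 ((comp_tr_right b).2 (hσ.2 u hu u' hu'))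

theorem tr_le_tr_of_chi (hσ : σ ∈ S.B) {u u' : Submodule F V} (hu : u ∈ σ) (hu' : u' ∈ σ) {a b : ℤ}
    (h : S.chi (S.tr a u) ≤ S.chi (S.tr b u')) : S.tr a u ≤ S.tr b u' :=
  (comp_tr_tr hσ hu hu' a b).le_of_chi ((hσ.1 u hu).1.tr a) ((hσ.1 u' hu').1.tr b) h

theorem eq_of_le_of_chi {a b : Submodule F V} (ha : S.Lat a) (hb : S.Lat b) (h : a ≤ b)
    (hc : S.chi b ≤ S.chi a) : a = b := by
  by_contra hne
  have := ha.chi_lt hb (lt_of_le_of_ne h hne)
  omega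

theorem tr_neg_tr (a : ℤ) (u : Submodule F V) : S.tr (-a) (S.tr a u) = u := by
  rw [S.tr_tr, neg_add_cancel, S.tr_zero]

theorem tr_tr_neg (a : ℤ) (u : Submodule F V) : S.tr a (S.tr (-a) u) = u := by
  rw [S.tr_tr, add_neg_cancel, S.tr_zero]

theorem free_iff (l r w : Submodule F V) :
    S.Free l r w ↔ ∀ a : ℤ, S.tr a w ⊓ S.M ≤ S.tr a l ∨ S.tr a r ≤ S.tr a w ⊔ S.M := by
  have key : ∀ a : ℤ, (w ⊓ S.tr (-a) S.M ≤ l ∨ r ≤ w ⊔ S.tr (-a) S.M) ↔
      (S.tr a w ⊓ S.M ≤ S.tr a l ∨ S.tr a r ≤ S.tr a w ⊔ S.M) := by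
    intro a
    rw [← S.tr_le_tr_iff a (u := w ⊓ _), ← S.tr_le_tr_iff a (u := r), S.tr_inf, S.tr_sup, tr_tr_neg]
  constructor
  · intro h a
    exact (key a).1 (h (-a))
  · intro h m
    have := (key (-m)).2 (h (-m))
    rwa [neg_neg] at this

/-- Avoiding finitely many proper subspaces of `r`. -/
theorem exists_avoid [Fintype F] {ι : Type} (s : Finset ι) (hs : s.card < Fintype.card F)
    (r : Submodule F V) (U : ι → Submodule F V) (hU : ∀ i ∈ s, ¬ r ≤ U i) :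
    ∃ v ∈ r, ∀ i ∈ s, v ∉ U i := by
  have h := Submodule.iUnion_ssubset_of_forall_ne_top_of_card_lt s.attach
    (fun i : {i // i ∈ s} => (U i.1).comap r.subtype)
    (fun i hi => hU i.1 i.2 (Submodule.comap_subtype_eq_top.1 hi))
    (by simpa using hs)
  obtain ⟨v, -, hv⟩ := Set.exists_of_ssubset h
  refine ⟨v.1, v.2, fun i hi hvi => hv ?_⟩
  simp only [Set.mem_iUnion]
  exact ⟨⟨i, hi⟩, Finset.mem_attach _ _, hvi⟩

end GapAux

open GapAux

/-- Every integer that is not the Euler characteristic of a translate of a vertex of `σ` lies in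
a gap. -/
theorem exists_gap (hσ : σ ∈ S.B) (hne : σ.Nonempty) {j : ℤ}
    (hj : ∀ u ∈ σ, S.chi u ≠ j % n) : ∃ l r, S.Gap σ l r ∧ S.chi l < j ∧ j < S.chi r := by
  have hn : (0 : ℤ) < n := by have := S.pos; omega
  have hne' : ∀ u ∈ σ, ∀ a : ℤ, S.chi (S.tr a u) ≠ j := by
    intro u hu a h
    obtain ⟨hl, h0, h1⟩ := hσ.1 u hu
    rw [hl.chi_tr] at h
    apply hj u hu
    rw [← h, Int.add_mul_emod_self_right, Int.emod_eq_of_lt h0 h1]
  obtain ⟨u₀, hu₀⟩ := hne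
  have hl₀ := (hσ.1 u₀ hu₀).1
  obtain ⟨zl, ⟨⟨u, hu, a, rfl⟩, hlt⟩, hmax⟩ := Int.exists_greatest_of_bdd
    (P := fun z => (∃ u ∈ σ, ∃ a : ℤ, S.chi (S.tr a u) = z) ∧ z < j)
    ⟨j, fun z hz => hz.2.le⟩ (by
      refine ⟨_, ⟨u₀, hu₀, (j - S.chi u₀) / n, rfl⟩, lt_of_le_of_ne ?_ (hne' u₀ hu₀ _)⟩
      rw [hl₀.chi_tr]
      have := Int.ediv_mul_le (j - S.chi u₀) hn.ne'
      omega)
  obtain ⟨zr, ⟨⟨u', hu', b, rfl⟩, hgt⟩, hmin⟩ := Int.exists_least_of_bdd
    (P := fun z => (∃ u ∈ σ, ∃ a : ℤ, S.chi (S.tr a u) = z) ∧ j < z)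
    ⟨j, fun z hz => hz.2.le⟩ (by
      refine ⟨_, ⟨u₀, hu₀, (j - S.chi u₀) / n + 1, rfl⟩, ?_⟩
      rw [hl₀.chi_tr]
      have := Int.lt_ediv_add_one_mul_self (j - S.chi u₀) hn
      omega)
  have hcons : ∀ x ∈ σ, ∀ c : ℤ, S.tr c x ≤ S.tr a u ∨ S.tr b u' ≤ S.tr c x := by
    intro x hx c
    rcases lt_or_gt_of_ne (hne' x hx c) with h | h
    · exact Or.inl (tr_le_tr_of_chi hσ hx hu (hmax _ ⟨⟨x, hx, c, rfl⟩, h⟩))
    · exact Or.inr (tr_le_tr_of_chi hσ hu' hx (hmin _ ⟨⟨x, hx, c, rfl⟩, h⟩))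
  refine ⟨S.tr a u, S.tr b u', ⟨⟨u, hu, a, rfl⟩, ⟨u', hu', b, rfl⟩, ?_, ?_, hcons⟩, hlt, hgt⟩
  · refine lt_of_le_of_ne (tr_le_tr_of_chi hσ hu hu' (by omega)) fun h => ?_
    rw [h] at hlt
    omega
  · rw [S.tr_tr]
    rcases hcons u hu (1 + a) with h | h
    · have hl := (hσ.1 u hu).1
      have := (hl.tr _).chi_mono (hl.tr _) h
      rw [hl.chi_tr, hl.chi_tr] at this
      nlinarith
    · exact h

theorem exists_gap_of_card_lt (hσ : σ ∈ S.B) (hne : σ.Nonempty) (hc : σ.card < n) :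
    ∃ l r, S.Gap σ l r ∧ S.chi l + 2 ≤ S.chi r := by
  have : ∃ j ∈ Finset.Ico (0 : ℤ) n, j ∉ σ.image S.chi := by
    apply Finset.exists_mem_notMem_of_card_lt_card
    have := Finset.card_image_le (s := σ) (f := S.chi)
    simp only [Int.card_Ico, sub_zero, Int.toNat_natCast]
    omega
  obtain ⟨j, hj, hj'⟩ := this
  rw [Finset.mem_Ico] at hj
  obtain ⟨l, r, h, h1, h2⟩ := exists_gap hσ hne (j := j) (fun u hu h => hj' (by
    rw [Int.emod_eq_of_lt hj.1 hj.2] at h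
    exact Finset.mem_image.2 ⟨u, hu, h⟩))
  exact ⟨l, r, h, by omega⟩

theorem Gap.lat_left (h : S.Gap σ l r) (hσ : σ ∈ S.B) : S.Lat l := by
  obtain ⟨u, hu, a, rfl⟩ := h.left
  exact (hσ.1 u hu).1.tr a

theorem Gap.lat_right (h : S.Gap σ l r) (hσ : σ ∈ S.B) : S.Lat r := by
  obtain ⟨u, hu, a, rfl⟩ := h.right
  exact (hσ.1 u hu).1.tr a

theorem Gap.lat (h : S.Gap σ l r) (hσ : σ ∈ S.B) (h₁ : l ≤ w) (h₂ : w ≤ r) : S.Lat w :=
  (h.lat_left hσ).of_between h₁ (h₂.trans h.le_tr)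

/-- No vertex of `σ` has a type strictly inside a gap. -/
theorem Gap.chi_ne (h : S.Gap σ l r) (hσ : σ ∈ S.B) {j : ℤ} (h₁ : S.chi l < j) (h₂ : j < S.chi r)
    {u : Submodule F V} (hu : u ∈ σ) : S.chi u ≠ j % n := by
  intro hc
  have hl := (hσ.1 u hu).1
  have h3 : S.chi (S.tr (j / n) u) = j := by
    rw [hl.chi_tr, hc]
    exact Int.emod_add_ediv_mul j n
  rcases h.cons u hu (j / n) with h4 | h4
  · have := (hl.tr _).chi_mono (h.lat_left hσ) h4
    omega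
  · have := (h.lat_right hσ).chi_mono (hl.tr _) h4
    omega

/-- A lattice compatible with `σ` lies below, above or strictly inside a gap. -/
theorem Gap.tricho (h : S.Gap σ l r) (hσ : σ ∈ S.B) (hw : S.Lat w) (hc : ∀ u ∈ σ, S.Comp u w) :
    (S.chi w ≤ S.chi l → w ≤ l) ∧ (S.chi r ≤ S.chi w → r ≤ w) ∧
      (S.chi l < S.chi w → l < w) ∧ (S.chi w < S.chi r → w < r) := by
  have hl := h.lat_left hσ
  have hr := h.lat_right hσ
  have cl : S.Comp l w := by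
    obtain ⟨u, hu, a, rfl⟩ := h.left
    exact (comp_tr_left a).2 (hc u hu)
  have cr : S.Comp r w := by
    obtain ⟨u, hu, a, rfl⟩ := h.right
    exact (comp_tr_left a).2 (hc u hu)
  refine ⟨cl.symm.le_of_chi hw hl, cr.le_of_chi hr hw, fun h1 => ?_, fun h1 => ?_⟩
  · refine lt_of_le_of_ne (cl.le_of_chi hl hw h1.le) ?_
    rintro rfl
    exact lt_irrefl _ h1
  · refine lt_of_le_of_ne (cr.symm.le_of_chi hw hr h1.le) ?_
    rintro rfl
    exact lt_irrefl _ h1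

theorem singleton_mem_G_iff (hσ : σ ∈ S.B) {u : Submodule F V} :
    {u} ∈ S.G σ ↔ u ∉ σ ∧ S.Vert u ∧ (∀ u' ∈ σ, S.Comp u' u) ∧ S.Pts u ⊆ Reg S.Pts σ := by
  constructor
  · rintro ⟨h1, ⟨h2, h3⟩, h4⟩
    refine ⟨Finset.disjoint_singleton_left.1 h1, h2 u (by simp), fun u' hu' => ?_, h4 u (by simp)⟩
    exact h3 u' (by simp [hu']) u (by simp)
  · rintro ⟨h1, h2, h3, h4⟩
    refine ⟨Finset.disjoint_singleton_left.2 h1, ⟨fun x hx => ?_, fun x hx y hy => ?_⟩,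
      fun x hx => ?_⟩
    · rcases Finset.mem_union.1 hx with hx | hx
      · rw [Finset.mem_singleton.1 hx]; exact h2
      · exact hσ.1 x hx
    · rcases Finset.mem_union.1 hx with hx | hx <;> rcases Finset.mem_union.1 hy with hy | hy
      · rw [Finset.mem_singleton.1 hx, Finset.mem_singleton.1 hy]; exact h2.1.comp_self
      · rw [Finset.mem_singleton.1 hx]; exact (h3 y hy).symm
      · rw [Finset.mem_singleton.1 hy]; exact h3 x hx
      · exact hσ.2 x hx y hy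
    · rw [Finset.mem_singleton.1 hx]; exact h4

/-- The vertices of the generic link inside a gap. -/
theorem Gap.mem_G_iff (h : S.Gap σ l r) (hσ : σ ∈ S.B) (h₁ : l < w) (h₂ : w < r) :
    {S.nm w} ∈ S.G σ ↔ S.Free l r w := by
  have hl := h.lat_left hσ
  have hr := h.lat_right hσ
  have hw := h.lat hσ h₁.le h₂.le
  have hp : S.Pts (S.nm w) = S.Pts w := pts_tr _ _
  rw [singleton_mem_G_iff hσ, hp, free_iff]
  constructor
  · rintro ⟨-, -, -, H⟩ a
    have hlw : S.tr a l ≤ S.tr a w := (S.tr_le_tr_iff a).2 h₁.le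
    have hwr : S.tr a w ≤ S.tr a r := (S.tr_le_tr_iff a).2 h₂.le
    by_cases h0 : S.h0 (S.tr a w) = 0
    · left; rw [(hw.tr a).h0_eq_zero.1 h0]; exact bot_le
    by_cases h1 : S.h1 (S.tr a w) = 0
    · right; rw [(hw.tr a).h1_eq_zero.1 h1]; exact le_top
    obtain ⟨u, hu, y, ⟨-, -, b, rfl⟩, hy⟩ := H (a := (S.h0 (S.tr a w), S.h1 (S.tr a w)))
      ⟨by simp only; omega, by simp only; omega, a, rfl⟩
    obtain ⟨hy0, hy1⟩ := Prod.le_def.1 hy
    simp only at hy0 hy1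
    have hu' := (hσ.1 u hu).1
    have e : S.tr b u = S.tr a (S.tr (b - a) u) := by rw [S.tr_tr]; congr 1; ring
    rcases h.cons u hu (b - a) with h3 | h3
    · left
      have h4 : S.tr b u ≤ S.tr a l := by rw [e]; exact (S.tr_le_tr_iff a).2 h3
      exact (hw.tr a).inf_le_of_h0 hlw (hy0.trans ((hl.tr a).h0_mono h4))
    · right
      have h4 : S.tr a r ≤ S.tr b u := by rw [e]; exact (S.tr_le_tr_iff a).2 h3
      exact (hw.tr a).le_sup_of_h1 hwr (hy1.trans ((hr.tr a).h1_anti h4))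
  · intro H
    refine ⟨fun hm => ?_, hw.vert_nm, fun u hu => ?_, ?_⟩
    · have e : S.tr (S.chi w / n) (S.nm w) = w := tr_tr_neg _ _
      rcases h.cons _ hm (S.chi w / n) with h3 | h3
      · rw [e] at h3; exact absurd h3 (not_le_of_gt h₁)
      · rw [e] at h3; exact absurd h3 (not_le_of_gt h₂)
    · refine (comp_tr_right _).2 fun a => ?_
      rcases h.cons u hu a with h3 | h3
      · exact Or.inl (h3.trans h₁.le)
      · exact Or.inr (h₂.le.trans h3)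
    · rintro x ⟨hx0, hx1, a, rfl⟩
      simp only at hx0 hx1
      have hlw : S.tr a l ≤ S.tr a w := (S.tr_le_tr_iff a).2 h₁.le
      have hwr : S.tr a w ≤ S.tr a r := (S.tr_le_tr_iff a).2 h₂.le
      rcases H a with h3 | h3
      · obtain ⟨u, hu, c, hc⟩ := h.left
        have g0 : S.h0 (S.tr a w) ≤ S.h0 (S.tr a l) := by
          have := (hl.tr a).h0_mono h3
          have e : S.h0 (S.tr a w ⊓ S.M) = S.h0 (S.tr a w) := by
            unfold h0; rw [inf_assoc, inf_idem]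
          rwa [e] at this
        have g1 : S.h1 (S.tr a w) ≤ S.h1 (S.tr a l) := (hl.tr a).h1_anti hlw
        refine ⟨u, hu, (S.h0 (S.tr a l), S.h1 (S.tr a l)),
          ⟨hx0.trans g0, hx1.trans g1, a + c, by rw [hc, S.tr_tr]⟩, Prod.le_def.2 ⟨g0, g1⟩⟩
      · obtain ⟨u, hu, c, hc⟩ := h.right
        have g0 : S.h0 (S.tr a w) ≤ S.h0 (S.tr a r) := (hr.tr a).h0_mono hwr
        have g1 : S.h1 (S.tr a w) ≤ S.h1 (S.tr a r) := by
          have e : S.tr a r ⊔ S.M = S.tr a w ⊔ S.M :=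
            le_antisymm (sup_le h3 le_sup_right) (sup_le_sup_right hwr _)
          unfold h1
          rw [e]
        refine ⟨u, hu, (S.h0 (S.tr a r), S.h1 (S.tr a r)),
          ⟨hx0.trans g0, hx1.trans g1, a + c, by rw [hc, S.tr_tr]⟩, Prod.le_def.2 ⟨g0, g1⟩⟩

/-- The generic link is a flag complex. -/
theorem mem_G_iff (hσ : σ ∈ S.B) {ρ : Finset (Submodule F V)} :
    ρ ∈ S.G σ ↔ (∀ u ∈ ρ, {u} ∈ S.G σ) ∧ ∀ u ∈ ρ, ∀ u' ∈ ρ, S.Comp u u' := by
  simp only [singleton_mem_G_iff hσ]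
  constructor
  · rintro ⟨h1, ⟨h2, h3⟩, h4⟩
    refine ⟨fun u hu => ⟨Finset.disjoint_left.1 h1 hu, h2 u (by simp [hu]), fun u' hu' => ?_,
      h4 u hu⟩, fun u hu u' hu' => ?_⟩
    · exact h3 u' (by simp [hu']) u (by simp [hu])
    · exact h3 u (by simp [hu]) u' (by simp [hu'])
  · rintro ⟨h1, h2⟩
    refine ⟨Finset.disjoint_left.2 fun u hu => (h1 u hu).1, ⟨fun x hx => ?_, fun x hx y hy => ?_⟩,
      fun x hx => (h1 x hx).2.2.2⟩
    · rcases Finset.mem_union.1 hx with hx | hx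
      · exact (h1 x hx).2.1
      · exact hσ.1 x hx
    · rcases Finset.mem_union.1 hx with hx | hx <;> rcases Finset.mem_union.1 hy with hy | hy
      · exact h2 x hx y hy
      · exact ((h1 x hx).2.2.1 y hy).symm
      · exact (h1 y hy).2.2.1 x hx
      · exact hσ.2 x hx y hy

theorem free_left (l r : Submodule F V) : S.Free l r l := fun _ => Or.inl inf_le_left

/-- A generic vector. -/
theorem exists_generic [Fintype F] (hl : S.Lat l) (hr : S.Lat r) (s : Finset (Submodule F V))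
    (hs : s.card < Fintype.card F) (H : ∀ w ∈ s, l ≤ w ∧ w < r ∧ S.Free l r w) :
    ∃ v ∈ r, ∀ w ∈ s, v ∉ w ∧ S.Free l r (w ⊔ Submodule.span F {v}) := by
  have hm : ∀ w : {w // w ∈ s}, ∃ m : ℤ, ¬ r ≤ w.1 ⊔ S.tr m S.M ∧
      ∀ m' : ℤ, ¬ r ≤ w.1 ⊔ S.tr m' S.M → m ≤ m' := by
    rintro ⟨w, hw⟩
    obtain ⟨h1, h2, -⟩ := H w hw
    apply Int.exists_least_of_bdd
    · obtain ⟨a, ha⟩ := hl.exists_sup_eq_top
      refine ⟨-a, fun z hz => ?_⟩
      by_contra hlt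
      apply hz
      have e : l ⊔ S.tr (-a) S.M = ⊤ := by
        rw [← S.tr_top (-a), ← ha, S.tr_sup, tr_neg_tr]
      calc r ≤ ⊤ := le_top
        _ = l ⊔ S.tr (-a) S.M := e.symm
        _ ≤ w ⊔ S.tr z S.M := sup_le_sup h1 (S.tr_M_anti (by omega))
    · obtain ⟨a, ha⟩ := hr.exists_inf_eq_bot
      refine ⟨a, fun hz => ?_⟩
      have e : S.tr a S.M ⊓ r = ⊥ := by
        rw [← S.tr_bot a, ← ha, S.tr_inf, tr_tr_neg, inf_comm]
      have : r ≤ w := by
        calc r = (w ⊔ S.tr a S.M) ⊓ r := (inf_eq_right.2 hz).symm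
          _ = w ⊔ S.tr a S.M ⊓ r := sup_inf_assoc_of_le _ h2.le
          _ ≤ w := by rw [e, sup_bot_eq]
      exact absurd this (not_le_of_gt h2)
  choose m hm1 hm2 using hm
  obtain ⟨v, hv, hv'⟩ := exists_avoid s.attach (by simpa using hs) r
    (fun w => w.1 ⊔ S.tr (m w) S.M) (fun w _ => hm1 w)
  refine ⟨v, hv, fun w hw => ?_⟩
  have h0 := hv' ⟨w, hw⟩ (Finset.mem_attach _ _)
  refine ⟨fun h => h0 (Submodule.mem_sup_left h), fun k => ?_⟩
  by_cases hk : r ≤ w ⊔ S.tr k S.M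
  · exact Or.inr (hk.trans (sup_le_sup_right le_sup_left _))
  · left
    have h3 := ((H w hw).2.2 k).resolve_right hk
    have h4 := hm2 ⟨w, hw⟩ k hk
    rintro x ⟨hx1, hx2⟩
    obtain ⟨y, hy, z, hz, rfl⟩ := Submodule.mem_sup.1 hx1
    obtain ⟨c, rfl⟩ := Submodule.mem_span_singleton.1 hz
    by_cases hc : c = 0
    · subst hc
      rw [zero_smul, add_zero] at hx2 ⊢
      exact h3 ⟨hy, hx2⟩
    · exfalso
      apply h0
      have e : v = c⁻¹ • ((y + c • v) - y) := by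
        rw [add_sub_cancel_left, smul_smul, inv_mul_cancel₀ hc, one_smul]
      rw [e]
      exact Submodule.smul_mem _ _ (Submodule.sub_mem _
        (Submodule.mem_sup_right (S.tr_M_anti h4 hx2)) (Submodule.mem_sup_left hy))

/-- In an interval of length two at most one lattice is not in general position. -/
theorem eq_of_not_free (hl : S.Lat l) (hr : S.Lat r) (hr' : r ≤ S.tr 1 l)
    (hc : S.chi r = S.chi l + 2) {w w' : Submodule F V} (h₁ : l < w) (h₂ : w < r) (h₁' : l < w')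
    (h₂' : w' < r) (hw : ¬ S.Free l r w) (hw' : ¬ S.Free l r w') : w = w' := by
  have lat : ∀ x, l ≤ x → x ≤ r → S.Lat x := fun x h1 h2 => hl.of_between h1 (h2.trans hr')
  have chi1 : ∀ x, l < x → x < r → S.chi x = S.chi l + 1 := by
    intro x h1 h2
    have := hl.chi_lt (lat x h1.le h2.le) h1
    have := (lat x h1.le h2.le).chi_lt hr h2
    omega
  have key : ∀ x, l < x → x < r → ¬ S.Free l r x → ∃ m : ℤ, x = l ⊔ r ⊓ S.tr m S.M := by
    intro x h1 h2 hx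
    unfold Free at hx
    push Not at hx
    obtain ⟨m, hm1, hm2⟩ := hx
    refine ⟨m, ?_⟩
    have a1 : l < l ⊔ x ⊓ S.tr m S.M := left_lt_sup.2 hm1
    have a2 : l ⊔ x ⊓ S.tr m S.M ≤ x := sup_le h1.le inf_le_left
    have a3 : l ⊔ x ⊓ S.tr m S.M = x :=
      eq_of_le_of_chi (lat _ a1.le (a2.trans h2.le)) (lat x h1.le h2.le) a2
        (by rw [chi1 x h1 h2, chi1 _ a1 (lt_of_le_of_lt a2 h2)])
    have b1 : x ⊔ r ⊓ S.tr m S.M < r := by
      refine lt_of_le_of_ne (sup_le h2.le inf_le_left) fun e => hm2 ?_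
      rw [← e]
      exact sup_le_sup_left inf_le_right _
    have b2 : x = x ⊔ r ⊓ S.tr m S.M :=
      eq_of_le_of_chi (lat x h1.le h2.le) (lat _ (h1.le.trans le_sup_left) b1.le) le_sup_left
        (by rw [chi1 x h1 h2, chi1 _ (lt_of_lt_of_le h1 le_sup_left) b1])
    apply le_antisymm
    · rw [← a3]
      exact sup_le_sup_left (inf_le_inf_right _ h2.le) _
    · exact sup_le h1.le (le_sup_right.trans b2.ge)
  obtain ⟨m, hm⟩ := key w h₁ h₂ hw
  obtain ⟨m', hm'⟩ := key w' h₁' h₂' hw'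
  have c1 := chi1 w h₁ h₂
  have c2 := chi1 w' h₁' h₂'
  rcases le_total m m' with h | h
  · refine (eq_of_le_of_chi (lat w' h₁'.le h₂'.le) (lat w h₁.le h₂.le) ?_ (by omega)).symm
    rw [hm, hm']
    exact sup_le_sup_left (inf_le_inf_left _ (S.tr_M_anti h)) _
  · refine eq_of_le_of_chi (lat w h₁.le h₂.le) (lat w' h₁'.le h₂'.le) ?_ (by omega)
    rw [hm, hm']
    exact sup_le_sup_left (inf_le_inf_left _ (S.tr_M_anti h)) _

end Setup

end Crest.Agent.R66
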