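import Crest.Agent.R66.Chain

set_option autoImplicit false

namespace Crest.Agent.R66

open Finset

namespace Geo

variable {n : ℕ} {V : Type} [DecidableEq V] [Fintype V] (X : Geo n V)

theorem mem_ch {c : Finset V} : c ∈ X.ch ↔ c ∈ X.K ∧ c.card = n := by
  simp [ch]

theorem ch_nonempty : X.ch.Nonempty := by
  obtain ⟨c, hc, -, hn⟩ := X.pure ∅ X.empty
  exact ⟨c, X.mem_ch.2 ⟨hc, hn⟩⟩

omit [Fintype V] in
theorem card_le {σ : Finset V} (h : σ ∈ X.K) : σ.card ≤ n := by
  obtain ⟨c, -, hs, hn⟩ := X.pure σ h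
  exact hn ▸ card_le_card hs

theorem exists_ty {c : Finset V} (hc : c ∈ X.ch) (i : Fin n) : ∃! v, v ∈ c ∧ X.ty v = i := by
  obtain ⟨hK, hn⟩ := X.mem_ch.1 hc
  have h : c.image X.ty = univ :=
    eq_univ_of_card _ (by rw [card_image_of_injOn (X.inj c hK), hn, Fintype.card_fin])
  obtain ⟨v, hv, hi⟩ := mem_image.1 (h ▸ mem_univ i)
  exact ⟨v, ⟨hv, hi⟩, fun w hw => X.inj c hK hw.1 hv (hw.2.trans hi.symm)⟩

theorem image_ty_res {c : Finset V} (hc : c ∈ X.ch) (J : Finset (Fin n)) :
    (X.res J c).image X.ty = J := by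
  ext i
  simp only [res, mem_image, mem_filter]
  constructor
  · rintro ⟨v, ⟨-, hv⟩, rfl⟩
    exact hv
  · intro hi
    obtain ⟨v, ⟨hv, rfl⟩, -⟩ := X.exists_ty hc i
    exact ⟨v, ⟨hv, hi⟩, rfl⟩

theorem card_res {c : Finset V} (hc : c ∈ X.ch) (J : Finset (Fin n)) :
    (X.res J c).card = J.card := by
  conv_rhs => rw [← X.image_ty_res hc J]
  exact (card_image_of_injOn ((X.inj c (X.mem_ch.1 hc).1).mono (filter_subset _ c))).symm

theorem res_mem {c : Finset V} (hc : c ∈ X.ch) (J : Finset (Fin n)) : X.res J c ∈ X.K := by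
  exact X.down c (X.mem_ch.1 hc).1 _ (filter_subset _ _)

theorem res_image_ty {c σ : Finset V} (hc : c ∈ X.ch) (h : σ ⊆ c) :
    X.res (σ.image X.ty) c = σ := by
  ext v
  simp only [res, mem_image, mem_filter]
  constructor
  · rintro ⟨hv, w, hw, e⟩
    rwa [← X.inj c (X.mem_ch.1 hc).1 (h hw) hv e]
  · intro hv
    exact ⟨h hv, v, hv, rfl⟩

omit [Fintype V] in
theorem res_res {J J' : Finset (Fin n)} (h : J ⊆ J') (c : Finset V) :
    X.res J (X.res J' c) = X.res J c := by
  ext v
  simp only [res, mem_filter]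
  exact ⟨fun hv => ⟨hv.1.1, hv.2⟩, fun hv => ⟨⟨hv.1, h hv.2⟩, hv.2⟩⟩

/-- Two chambers have the same face of type `J` iff the second contains that face of the first. -/
theorem res_eq_iff {c c' : Finset V} (hc : c ∈ X.ch) (hc' : c' ∈ X.ch) (J : Finset (Fin n)) :
    X.res J c' = X.res J c ↔ X.res J c ⊆ c' := by
  constructor
  · intro h
    rw [← h]
    exact filter_subset _ _
  · intro h
    have := X.res_image_ty hc' h
    rwa [X.image_ty_res hc] at this

/-- Sums over the faces of a chamber are sums over sets of types. -/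
theorem sum_powersetCard {β : Type} [AddCommMonoid β] {c : Finset V} (hc : c ∈ X.ch) (b : ℕ)
    (f : Finset V → β) :
    ∑ σ ∈ c.powersetCard b, f σ = ∑ J ∈ (univ : Finset (Fin n)).powersetCard b, f (X.res J c) := by
  refine Finset.sum_bij' (fun σ _ => σ.image X.ty) (fun J _ => X.res J c) ?_ ?_ ?_ ?_ ?_
  · intro σ hσ
    rw [mem_powersetCard] at hσ ⊢
    exact ⟨subset_univ _, by
      rw [card_image_of_injOn ((X.inj c (X.mem_ch.1 hc).1).mono hσ.1), hσ.2]⟩
  · intro J hJ
    rw [mem_powersetCard] at hJ ⊢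
    exact ⟨filter_subset _ _, by rw [X.card_res hc, hJ.2]⟩
  · intro σ hσ
    exact X.res_image_ty hc (mem_powersetCard.1 hσ).1
  · intro J _
    exact X.image_ty_res hc J
  · intro σ hσ
    rw [X.res_image_ty hc (mem_powersetCard.1 hσ).1]

theorem W_eq_zero_iff (f : Finset V → F2) (b : ℕ) :
    X.W f b = 0 ↔ ∀ σ ∈ X.K, σ.card = b → f σ = 0 := by
  simp only [W, sum_eq_zero_iff, card_eq_zero, filter_eq_empty_iff, mem_powersetCard, not_not]
  constructor
  · intro h σ hσ hb
    obtain ⟨c, hc, hs, hn⟩ := X.pure σ hσ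
    exact h c (X.mem_ch.2 ⟨hc, hn⟩) ⟨hs, hb⟩
  · intro h c hc σ hσ
    exact h σ (X.down c (X.mem_ch.1 hc).1 σ hσ.1) hσ.2

theorem W_le (f : Finset V → F2) (b : ℕ) : X.W f b ≤ 2 ^ n * X.ch.card := by
  rw [mul_comm, ← smul_eq_mul]
  refine Finset.sum_le_card_nsmul _ _ _ fun c hc => (card_filter_le _ _).trans ?_
  rw [card_powersetCard, (X.mem_ch.1 hc).2]
  exact Nat.choose_le_two_pow n b

theorem W_add_le (f g : Finset V → F2) (b : ℕ) : X.W (f + g) b ≤ X.W f b + X.W g b := by
  unfold W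
  rw [← sum_add_distrib]
  refine Finset.sum_le_sum fun c _ => le_trans (card_le_card ?_) (card_union_le _ _)
  intro σ hσ
  simp only [mem_filter, mem_union, Pi.add_apply] at hσ ⊢
  by_cases h : f σ = 0
  · exact Or.inr ⟨hσ.1, by simpa [h] using hσ.2⟩
  · exact Or.inl ⟨hσ.1, h⟩

theorem W_congr {f g : Finset V → F2} {b : ℕ} (h : ∀ σ ∈ X.K, σ.card = b → f σ = g σ) :
    X.W f b = X.W g b := by
  refine Finset.sum_congr rfl fun c hc => congrArg _ (filter_congr fun σ hσ => ?_)
  rw [mem_powersetCard] at hσ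
  rw [h σ (X.down c (X.mem_ch.1 hc).1 σ hσ.1) hσ.2]

theorem card_filter_mem_le {D : ℕ} (h : X.Deg D) (v : V) :
    (X.ch.filter fun c => v ∈ c).card ≤ 2 ^ D := by
  obtain ⟨s, hs, hu⟩ := h v
  refine le_trans (card_le_card (t := s.powerset) fun c hc => ?_) ?_
  · rw [mem_filter] at hc
    refine mem_powerset.2 fun u hu' => hu u (X.down c (X.mem_ch.1 hc.1).1 _ ?_)
    exact insert_subset hc.2 (singleton_subset_iff.2 hu')
  · rw [card_powerset]
    exact Nat.pow_le_pow_right two_pos hs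

/-- Gallery connectedness. -/
theorem gallery (hc : ∀ σ ∈ X.K, σ.card + 2 ≤ n → SEx (lk X.K σ) 1) {β : Type}
    (φ : Finset V → β) (r : Finset (Fin n))
    (hφ : ∀ c ∈ X.ch, ∀ c' ∈ X.ch, ∀ i ∉ r,
      X.res (univ.erase i) c = X.res (univ.erase i) c' → φ c = φ c') :
    ∀ c ∈ X.ch, ∀ c' ∈ X.ch, X.res r c = X.res r c' → φ c = φ c' := by
  induction hk : n - r.card using Nat.strong_induction_on generalizing r with
  | _ k ih =>
  intro c hcc c' hcc' he
  have hr : r.card ≤ n := by simpa using card_le_univ r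
  have hσc : (X.res r c).card = r.card := X.card_res hcc r
  have hσc' : (X.res r c').card = r.card := X.card_res hcc' r
  have hn := (X.mem_ch.1 hcc).2
  have hn' := (X.mem_ch.1 hcc').2
  rcases Nat.lt_or_ge (r.card + 1) n with h2 | h2
  · have hσ : X.res r c ∈ X.K := X.res_mem hcc r
    have himg : (X.res r c).image X.ty = r := X.image_ty_res hcc r
    have hs : X.res r c ⊆ c := filter_subset _ _
    have hs' : X.res r c ⊆ c' := he ▸ filter_subset _ _
    generalize X.res r c = σ at hσ himg hs hs' hσc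
    have key : ∀ x, x ∉ σ → ∀ d ∈ X.ch, ∀ d' ∈ X.ch, insert x σ ⊆ d → insert x σ ⊆ d' →
        φ d = φ d' := by
      intro x hx d hd d' hd' h1 h1'
      have hty : X.ty x ∉ r := by
        rw [← himg, mem_image]
        rintro ⟨y, hy, e⟩
        have := X.inj d (X.mem_ch.1 hd).1 (h1 (mem_insert_of_mem hy)) (h1 (mem_insert_self _ _)) e
        exact hx (this ▸ hy)
      refine ih _ ?_ (insert (X.ty x) r)
        (fun c hc c' hc' i hi => hφ c hc c' hc' i fun h => hi (mem_insert_of_mem h)) rfl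
        d hd d' hd' ?_
      · rw [card_insert_of_notMem hty]; omega
      · rw [← himg, ← image_insert, X.res_image_ty hd h1, X.res_image_ty hd' h1']
    classical
    let ψ : V → β := fun x => if h : ∃ d ∈ X.ch, insert x σ ⊆ d then φ h.choose else φ c
    have hψ : ∀ x, x ∉ σ → ∀ d ∈ X.ch, insert x σ ⊆ d → ψ x = φ d := by
      intro x hx d hd h1
      have h : ∃ d ∈ X.ch, insert x σ ⊆ d := ⟨d, hd, h1⟩
      simp only [ψ, dif_pos h]
      exact key x hx _ h.choose_spec.1 d hd h.choose_spec.2 h1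
    have hv : ∀ d ∈ X.ch, σ ⊆ d → ∃ x, {x} ∈ lk X.K σ ∧ ψ x = φ d := by
      intro d hd h1
      obtain ⟨x, hx, hx'⟩ := exists_mem_notMem_of_card_lt_card (s := σ) (t := d)
        (by rw [(X.mem_ch.1 hd).2]; omega)
      have h3 : insert x σ ⊆ d := insert_subset hx h1
      exact ⟨x, ⟨disjoint_singleton_left.2 hx', X.down d (X.mem_ch.1 hd).1 _ (by
        rwa [← insert_eq])⟩, hψ x hx' d hd h3⟩
    obtain ⟨x, hx, ex⟩ := hv c hcc hs
    obtain ⟨y, hy, ey⟩ := hv c' hcc' hs'
    rw [← ex, ← ey]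
    refine (hc σ hσ (by omega)).const ψ (fun x y hxy => ?_) hx hy
    obtain ⟨hd, hK⟩ := hxy
    obtain ⟨d, hdK, hsub, hdn⟩ := X.pure _ hK
    have hdc := X.mem_ch.2 ⟨hdK, hdn⟩
    rw [hψ x (disjoint_left.1 hd (by simp)) d hdc
        (insert_subset (hsub (by simp)) (subset_union_right.trans hsub)),
      hψ y (disjoint_left.1 hd (by simp)) d hdc
        (insert_subset (hsub (by simp)) (subset_union_right.trans hsub))]
  · rcases Nat.lt_or_ge r.card n with h3 | h3
    · obtain ⟨i, -, hi⟩ := exists_mem_notMem_of_card_lt_card (s := r) (t := univ)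
        (by simpa using h3)
      have e : r = univ.erase i :=
        eq_of_subset_of_card_le (subset_erase.2 ⟨subset_univ _, hi⟩)
          (by rw [card_erase_of_mem (mem_univ i), card_univ, Fintype.card_fin]; omega)
      exact hφ c hcc c' hcc' i hi (e ▸ he)
    · have e1 : X.res r c = c := eq_of_subset_of_card_le (filter_subset _ _) (by omega)
      have e2 : X.res r c' = c' := eq_of_subset_of_card_le (filter_subset _ _) (by omega)
      rw [← e1, he, e2]

variable {X} {G : Type} [Group G] [MulAction G V]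

theorem Trans.image_mem_ch (h : X.Trans G) (g : G) {c : Finset V} (hc : c ∈ X.ch) :
    c.image (g • ·) ∈ X.ch := by
  rw [X.mem_ch] at hc ⊢
  exact ⟨h.inv g c hc.1, by rw [card_image_of_injective _ (MulAction.injective g), hc.2]⟩

theorem Trans.res_image (h : X.Trans G) (g : G) {c : Finset V} (hc : c ∈ X.ch)
    (J : Finset (Fin n)) : X.res J (c.image (g • ·)) = (X.res J c).image (g • ·) := by
  unfold res
  rw [filter_image]
  refine congrArg _ (filter_congr fun v hv => ?_)
  rw [h.ty_smul g v (X.down c (X.mem_ch.1 hc).1 _ (singleton_subset_iff.2 hv))]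

/-- All faces of one type lie in the same number of chambers. -/
theorem Trans.card_fiber_eq (h : X.Trans G) {c c' : Finset V} (hc : c ∈ X.ch) (hc' : c' ∈ X.ch)
    (J : Finset (Fin n)) :
    (X.ch.filter fun d => X.res J d = X.res J c).card =
      (X.ch.filter fun d => X.res J d = X.res J c').card := by
  obtain ⟨g, rfl⟩ := h.trans c (X.mem_ch.1 hc).1 c' (X.mem_ch.1 hc').1 (X.mem_ch.1 hc).2
    (X.mem_ch.1 hc').2
  have inv1 : ∀ (g : G) (d : Finset V), (d.image (g • ·)).image (g⁻¹ • ·) = d := fun g d => by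
    rw [image_image]; simp [Function.comp_def]
  have inv2 : ∀ (g : G) (d : Finset V), (d.image (g⁻¹ • ·)).image (g • ·) = d := fun g d => by
    rw [image_image]; simp [Function.comp_def]
  refine Finset.card_bij' (fun d _ => d.image (g • ·)) (fun d _ => d.image (g⁻¹ • ·)) ?_ ?_
    (fun d _ => inv1 g d) (fun d _ => inv2 g d)
  · intro d hd
    rw [mem_filter] at hd ⊢
    exact ⟨h.image_mem_ch g hd.1, by rw [h.res_image g hd.1, h.res_image g hc, hd.2]⟩
  · intro d hd
    rw [mem_filter] at hd ⊢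
    exact ⟨h.image_mem_ch _ hd.1, by rw [h.res_image _ hd.1, hd.2, h.res_image g hc, inv1]⟩

end Geo

end Crest.Agent.R66
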