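import Crest.Agent.R66.Defs

set_option autoImplicit false

namespace Crest.Agent.R66

open Finset Polynomial

variable {F : Type} [Field F] {n k : ℕ}

instance : (Ncg F n k).Normal := MonoidHom.normal_ker _

theorem mem_Ncg {g : GL (Fin n) F[X]} : g ∈ Ncg F n k ↔
    ∀ i j, (X : F[X]) ^ k ∣ (g : Matrix (Fin n) (Fin n) F[X]) i j -
      (1 : Matrix (Fin n) (Fin n) F[X]) i j := by
  rw [Ncg, MonoidHom.mem_ker, Units.ext_iff, ← Matrix.ext_iff]
  refine forall₂_congr fun i j => ?_
  rw [← Ideal.mem_span_singleton, ← Ideal.Quotient.eq, Matrix.GeneralLinearGroup.map_apply]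
  simp only [Units.val_one, Matrix.one_apply, apply_ite (Ideal.Quotient.mk _), map_one, map_zero]

theorem mem_Ncg_iff_smul {g : GL (Fin n) F[X]} : g ∈ Ncg F n k ↔
    ∀ (v : Fin n → F[X]) i, (X : F[X]) ^ k ∣ (g • v) i - v i := by
  rw [mem_Ncg]
  have key : ∀ (v : Fin n → F[X]) i, (g • v) i - v i =
      ∑ j, ((g : Matrix (Fin n) (Fin n) F[X]) i j - (1 : Matrix (Fin n) (Fin n) F[X]) i j) * v j := by
    intro v i
    have h1 : g • v = (g : Matrix (Fin n) (Fin n) F[X]).mulVec v := rfl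
    conv_lhs => rw [h1, ← Matrix.one_mulVec v]
    simp only [Matrix.one_mulVec, sub_mul, sum_sub_distrib]
    congr 1
    simp [Matrix.one_apply]
  constructor
  · intro h v i
    rw [key]
    exact dvd_sum fun j _ => (h i j).mul_right _
  · intro h i j
    have := h (Pi.single j 1) i
    rw [key] at this
    simpa [Pi.single_apply] using this

theorem Ncg_anti {k k' : ℕ} (h : k ≤ k') : Ncg F n k' ≤ Ncg F n k := by
  intro g hg
  rw [mem_Ncg] at hg ⊢
  exact fun i j => (pow_dvd_pow _ h).trans (hg i j)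

theorem det_eq_one_of_mem_Ncg (hk : 1 ≤ k) {g : GL (Fin n) F[X]} (hg : g ∈ Ncg F n k) :
    (g : Matrix (Fin n) (Fin n) F[X]).det = 1 := by
  have h1 := mem_Ncg.1 (Ncg_anti hk hg)
  obtain ⟨c, -, hc⟩ := Polynomial.isUnit_iff.1 (Matrix.isUnits_det_units g)
  have h2 : (constantCoeff : F[X] →+* F).mapMatrix (g : Matrix (Fin n) (Fin n) F[X]) = 1 := by
    rw [← map_one (constantCoeff : F[X] →+* F).mapMatrix]
    ext i j
    have h3 := h1 i j
    rw [pow_one, X_dvd_iff, coeff_sub, sub_eq_zero] at h3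
    exact h3
  have h4 := (constantCoeff : F[X] →+* F).map_det (g : Matrix (Fin n) (Fin n) F[X])
  rw [h2, Matrix.det_one, ← hc, constantCoeff_apply, coeff_C_zero] at h4
  rw [← hc, h4, C_1]

theorem finiteIndex_Ncg [Finite F] : (Ncg F n k).FiniteIndex := by
  have : Module.Finite F (F[X] ⧸ Ideal.span {(X : F[X]) ^ k}) := (monic_X_pow k).finite_quotient
  have : Finite (F[X] ⧸ Ideal.span {(X : F[X]) ^ k}) := Module.finite_of_finite F
  unfold Ncg
  infer_instance

theorem pow_mem_Ncg {p : ℕ} [Fact p.Prime] [CharP F p] {g : GL (Fin n) F[X]}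
    (hg : g ∈ Ncg F n 1) : g ^ p ^ k ∈ Ncg F n k := by
  rw [mem_Ncg] at hg ⊢
  intro i j
  have : Nonempty (Fin n) := ⟨i⟩
  simp only [pow_one] at hg
  choose Z hZ using hg
  have h1 : (g : Matrix (Fin n) (Fin n) F[X]) - 1 = (X : F[X]) • Matrix.of Z := by
    ext1 a b
    exact hZ a b
  have h2 := sub_pow_char_pow_of_commute p k
    (Commute.one_right (g : Matrix (Fin n) (Fin n) F[X]))
  rw [h1, one_pow, _root_.smul_pow] at h2
  rw [Units.val_pow_eq_pow_val, ← Matrix.sub_apply, ← h2, Matrix.smul_apply, smul_eq_mul]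
  exact (pow_dvd_pow _ (Nat.lt_pow_self (Fact.out : p.Prime).one_lt).le).mul_right _

theorem odd_relIndex_Ncg [Finite F] {p : ℕ} [CharP F p] (hp : Odd p) :
    Odd ((Ncg F n k).relIndex (Ncg F n 1)) := by
  have : Fact p.Prime := ⟨CharP.char_is_prime F p⟩
  have := finiteIndex_Ncg (F := F) (n := n) (k := k)
  have h1 : IsPGroup p (Ncg F n 1 ⧸ (Ncg F n k).subgroupOf (Ncg F n 1)) := by
    intro x
    obtain ⟨g, rfl⟩ := QuotientGroup.mk_surjective x
    refine ⟨k, ?_⟩
    rw [← QuotientGroup.mk_pow, QuotientGroup.eq_one_iff, Subgroup.mem_subgroupOf]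
    exact pow_mem_Ncg g.2
  obtain ⟨m, hm⟩ := IsPGroup.iff_card.1 h1
  rw [Subgroup.relIndex, Subgroup.index, hm]
  exact hp.pow

theorem infinite_GL (hn : 2 ≤ n) : Infinite (GL (Fin n) F[X]) := by
  let i : Fin n := ⟨0, by omega⟩
  let j : Fin n := ⟨1, by omega⟩
  have hij : i ≠ j := by simp [i, j]
  refine Infinite.of_injective (fun c : F[X] => Matrix.GeneralLinearGroup.mk''
    (Matrix.transvection i j c) (by rw [Matrix.det_transvection_of_ne i j hij]; exact isUnit_one))
    fun c c' h => ?_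
  have h1 : Matrix.transvection i j c = Matrix.transvection i j c' := congrArg Units.val h
  simpa [Matrix.transvection] using congrFun (congrFun h1 i) j

end Crest.Agent.R66
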