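import Crest.Agent.R66.Frames
import Crest.Agent.R66.Odd

set_option autoImplicit false

namespace Crest.Agent.R66

open Finset Polynomial

namespace Orb

section
variable {A R : Type} [CommRing A] [CommRing R] {n : ℕ}

theorem smul_single (g : GL (Fin n) A) (j i : Fin n) :
    (g • (Pi.single j 1 : Fin n → A)) i = (g : Matrix (Fin n) (Fin n) A) i j := by
  simp [Units.smul_def]

theorem map_smul' (π : A →+* R) (g : GL (Fin n) A) (v : Fin n → A) :
    π ∘ (g • v) = Matrix.GeneralLinearGroup.map π g • (π ∘ v) := by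
  funext i
  simp [Units.smul_def, Matrix.mulVec, dotProduct]

theorem map_single (π : A →+* R) (j : Fin n) :
    π ∘ (Pi.single j 1 : Fin n → A) = Pi.single j 1 := by
  funext i
  by_cases h : i = j
  · subst h; simp
  · simp [h]

theorem det_El {g : GL (Fin n) A} (hg : g ∈ El A n) :
    (g : Matrix (Fin n) (Fin n) A).det = 1 := by
  induction hg using Subgroup.closure_induction with
  | mem g hg =>
    obtain ⟨a, j, c, hj, h | h⟩ := Set.mem_iUnion.1 hg
    · rw [h, Matrix.det_transvection_of_ne _ _ hj.symm]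
    · rw [h, Matrix.det_transvection_of_ne _ _ hj]
  | one => simp
  | mul g h _ _ hg hh => rw [Units.val_mul, Matrix.det_mul, hg, hh, one_mul]
  | inv g _ hg =>
    have := congrArg Matrix.det g.inv_mul
    rwa [Matrix.det_mul, hg, mul_one, Matrix.det_one] at this

/-- Lifting of stabilisers of standard frames. -/
theorem lift_stab (hA : Euc A) (π : A →+* R) (hπ : Function.Surjective π)
    (hl : ∀ (J : Finset (Fin n)) (a a' : Fin n), a ∉ J → a' ∉ J → a' ≠ a → ∀ b c : Fin n → R,
      ∑ i ∈ Jᶜ, c i * b i = 1 → ∃ b' c' : Fin n → A, π ∘ b' = b ∧ ∑ i ∈ Jᶜ, c' i * b' i = 1)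
    (m : ℕ) : ∀ J : Finset (Fin n), Jᶜ.card = m → ∀ u : GL (Fin n) R,
      (m ≠ 0 → (u : Matrix (Fin n) (Fin n) R).det = 1) →
      (∀ j ∈ J, u • (Pi.single j 1 : Fin n → R) = Pi.single j 1) →
      ∃ u' : GL (Fin n) A, (∀ j ∈ J, u' • (Pi.single j 1 : Fin n → A) = Pi.single j 1) ∧
        Matrix.GeneralLinearGroup.map π u' = u := by
  induction m with
  | zero =>
    intro J hJ u _ hu
    refine ⟨1, fun _ _ => one_smul _ _, ?_⟩
    rw [map_one]
    ext i j
    have hj : j ∈ J := by
      by_contra h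
      exact absurd (card_eq_zero.1 hJ ▸ mem_compl.2 h) (notMem_empty j)
    rw [← smul_single u, hu j hj]
    simp [Matrix.one_apply, Pi.single_apply]
  | succ m ih =>
    intro J hJ u hdet hu
    have hdet := hdet (by omega)
    obtain ⟨a, ha⟩ := card_pos.1 (show 0 < Jᶜ.card by omega)
    rw [mem_compl] at ha
    have hcard : (insert a J)ᶜ.card = m := by
      rw [compl_insert, card_erase_of_mem (mem_compl.2 ha), hJ]; rfl
    have key : ∃ b' c' : Fin n → A, π ∘ b' = u • (Pi.single a 1 : Fin n → R) ∧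
        ∑ i ∈ Jᶜ, c' i * b' i = 1 := by
      by_cases h : ∃ a' ∉ J, a' ≠ a
      · obtain ⟨a', h1, h2⟩ := h
        refine hl J a a' ha h1 h2 _ (fun i => ((u⁻¹ : GL (Fin n) R) : Matrix _ _ R) a i) ?_
        have e1 := congrFun (congrFun u.inv_mul a) a
        rw [Matrix.mul_apply, Matrix.one_apply_eq, ← sum_add_sum_compl J,
          sum_eq_zero, zero_add] at e1
        · simpa only [smul_single] using e1
        · intro j hj
          have : u⁻¹ • (Pi.single j 1 : Fin n → R) = Pi.single j 1 := by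
            rw [inv_smul_eq_iff, hu j hj]
          rw [← smul_single u⁻¹, this, Pi.single_eq_of_ne (by rintro rfl; exact ha hj), zero_mul]
      · push Not at h
        have e1 : (u : Matrix (Fin n) (Fin n) R) =
            (1 : Matrix (Fin n) (Fin n) R).updateCol a (u • (Pi.single a 1 : Fin n → R)) := by
          ext i j
          by_cases hj : j = a
          · subst hj; rw [Matrix.updateCol_self, smul_single]
          · rw [Matrix.updateCol_ne hj, ← smul_single u, hu j (by
              by_contra hh; exact hj (h j hh))]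
            simp [Matrix.one_apply, Pi.single_apply]
        rw [e1, ← Matrix.cramer_apply, Matrix.cramer_one] at hdet
        choose s hs using hπ
        refine ⟨Function.update (s ∘ (u • (Pi.single a 1 : Fin n → R))) a 1, Pi.single a 1, ?_, ?_⟩
        · funext i
          by_cases hi : i = a
          · subst hi
            simp only [Function.comp_apply, Function.update_self, map_one]
            exact hdet.symm
          · simp [hi, hs]
        · rw [sum_eq_single a]
          · simp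
          · intro i _ hi; simp [hi]
          · intro hh; exact absurd (mem_compl.2 ha) hh
    obtain ⟨b', c', hb, hc⟩ := key
    obtain ⟨g, hg1, hg2, hg3⟩ := exists_smul_eq_single hA J ha ⟨c', hc⟩
    obtain ⟨u', h1, h2⟩ := ih (insert a J) hcard (Matrix.GeneralLinearGroup.map π g * u) (by
      intro hm
      obtain ⟨a', ha'⟩ := card_pos.1 (show 0 < (insert a J)ᶜ.card by omega)
      rw [mem_compl, mem_insert, not_or] at ha'
      have := det_El (hg3 ⟨a', ha'.2, ha'.1⟩)
      rw [Units.val_mul, Matrix.det_mul, hdet, mul_one]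
      change (π.mapMatrix (g : Matrix (Fin n) (Fin n) A)).det = 1
      rw [← RingHom.map_det, this, map_one]) (by
      intro j hj
      rcases mem_insert.1 hj with rfl | hj
      · rw [mul_smul, ← hb, ← map_smul', hg2, map_single]
      · rw [mul_smul, hu j hj, ← map_single π, ← map_smul', hg1 j hj])
    refine ⟨g⁻¹ * u', fun j hj => ?_, ?_⟩
    · rw [mul_smul, h1 j (mem_insert_of_mem hj), inv_smul_eq_iff, hg1 j hj]
    · rw [map_mul, h2, map_inv, inv_mul_cancel_left]

/-- Permuting columns and normalising the determinant. -/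
theorem adjust (g : GL (Fin n) A) (τ : Equiv.Perm (Fin n)) (a : Fin n) :
    ∃ g' : GL (Fin n) A, (g' : Matrix (Fin n) (Fin n) A).det = 1 ∧
      ∀ j ≠ a, g' • (Pi.single j 1 : Fin n → A) = g • (Pi.single (τ j) 1 : Fin n → A) := by
  have h1 : IsUnit ((g : Matrix (Fin n) (Fin n) A).submatrix id τ).det := by
    rw [Matrix.det_permute']
    refine IsUnit.mul ?_ (Matrix.isUnits_det_units g)
    rcases Int.units_eq_one_or (Equiv.Perm.sign τ) with h | h <;> simp [h]
  obtain ⟨d, hd⟩ := h1
  have h2 : ((g : Matrix (Fin n) (Fin n) A).submatrix id τ *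
      Matrix.diagonal (Function.update (1 : Fin n → A) a ((d⁻¹ : Aˣ) : A))).det = 1 := by
    rw [Matrix.det_mul, Matrix.det_diagonal, prod_update_of_mem (mem_univ a), ← hd]
    simp
  refine ⟨Matrix.GeneralLinearGroup.mk'' _ (h2 ▸ isUnit_one), h2, fun j hj => ?_⟩
  funext i
  rw [smul_single, smul_single]
  change ((g : Matrix (Fin n) (Fin n) A).submatrix id τ *
      Matrix.diagonal (Function.update (1 : Fin n → A) a ((d⁻¹ : Aˣ) : A))) i j = _
  simp [hj]

theorem single_inj [Nontrivial R] (g : GL (Fin n) R) {j j' : Fin n}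
    (h : g • (Pi.single j 1 : Fin n → R) = g • (Pi.single j' 1 : Fin n → R)) : j = j' := by
  have := congrFun (smul_left_cancel g h) j
  by_contra hj
  simp [hj] at this

theorem mem_Fr {σ : Finset (Fin n → A)} : σ ∈ Fr A n ↔
    ∃ g : GL (Fin n) A, ∀ v ∈ σ, ∃ j, v = g • (Pi.single j 1 : Fin n → A) := by
  have : ∀ (g : GL (Fin n) A) j, (fun i => (g : Matrix (Fin n) (Fin n) A) i j) =
      g • (Pi.single j 1 : Fin n → A) := fun g j => funext fun i => (smul_single g j i).symm
  simp only [Fr, Set.mem_ofPred_eq, this]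

variable [DecidableEq (Fin n → A)] [DecidableEq (Fin n → R)] (π : A →+* R)

omit [DecidableEq (Fin n → A)] in
theorem image_mem {σ : Finset (Fin n → A)} (h : σ ∈ Fr A n) : σ.image (π ∘ ·) ∈ Fr R n := by
  obtain ⟨g, hg⟩ := mem_Fr.1 h
  refine mem_Fr.2 ⟨Matrix.GeneralLinearGroup.map π g, fun v hv => ?_⟩
  obtain ⟨w, hw, rfl⟩ := mem_image.1 hv
  obtain ⟨j, rfl⟩ := hg w hw
  exact ⟨j, by rw [map_smul', map_single]⟩

omit [DecidableEq (Fin n → A)] [DecidableEq (Fin n → R)] in
theorem injOn [Nontrivial R] {σ : Finset (Fin n → A)} (h : σ ∈ Fr A n) :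
    Set.InjOn (fun v : Fin n → A => π ∘ v) σ := by
  obtain ⟨g, hg⟩ := mem_Fr.1 h
  intro v hv w hw e
  obtain ⟨j, rfl⟩ := hg v hv
  obtain ⟨j', rfl⟩ := hg w hw
  simp only [map_smul', map_single] at e
  rw [single_inj _ e]

theorem exists_not_mem {J : Finset (Fin n)} (h : J.card < n) : ∃ a, a ∉ J := by
  by_contra hh
  push Not at hh
  rw [eq_univ_of_forall hh] at h
  simp at h

/-- The reduction of chains. -/
noncomputable def red : Ch (Fin n → A) →ₗ[F2] Ch (Fin n → R) :=
  Finsupp.lmapDomain F2 F2 fun σ => σ.image (π ∘ ·)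

omit [DecidableEq (Fin n → A)] in
theorem red_single (σ : Finset (Fin n → A)) :
    red π (Finsupp.single σ 1) = Finsupp.single (σ.image (π ∘ ·)) 1 := by
  simp [red]

theorem Cb_ind {V : Type} {K : Set (Finset V)} {b : ℕ} {p : Ch V → Prop} (h0 : p 0)
    (hadd : ∀ x y, p x → p y → p (x + y))
    (h1 : ∀ σ ∈ K, σ.card = b → p (Finsupp.single σ 1)) {x : Ch V} (hx : x ∈ Cb K b) : p x := by
  rw [Cb, Finsupp.supported_eq_span_single] at hx
  induction hx using Submodule.span_induction with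
  | mem x hx => obtain ⟨σ, hσ, rfl⟩ := hx; exact h1 σ hσ.1 hσ.2
  | zero => exact h0
  | add x y _ _ hx hy => exact hadd x y hx hy
  | smul c x _ hx =>
    have : c = 0 ∨ c = 1 := by revert c; decide
    rcases this with rfl | rfl
    · simpa using h0
    · simpa using hx

theorem main [Nontrivial A] [Nontrivial R] (hA : Euc A) (hR : Euc R) (hπ : Function.Surjective π)
    (hl : ∀ (J : Finset (Fin n)) (a a' : Fin n), a ∉ J → a' ∉ J → a' ≠ a → ∀ b c : Fin n → R,
      ∑ i ∈ Jᶜ, c i * b i = 1 → ∃ b' c' : Fin n → A, π ∘ b' = b ∧ ∑ i ∈ Jᶜ, c' i * b' i = 1)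
    {i : ℕ} (hi : i + 3 ≤ n) :
    SVan (Matrix.GeneralLinearGroup.map π : GL (Fin n) A →* GL (Fin n) R).ker (Fr A n) i := by
  have O1 : ∀ σ ∈ Fr R n, σ.card < n → ∃ σ' ∈ Fr A n, σ'.image (π ∘ ·) = σ := by
    intro σ hσ hc
    obtain ⟨g, J, hJ, rfl⟩ := exists_std_of_mem_Fr hσ
    obtain ⟨a, ha⟩ := exists_not_mem (hJ ▸ hc)
    obtain ⟨g', h1, h2⟩ := adjust g 1 a
    obtain ⟨u, -, hu⟩ := lift_stab hA π hπ hl _ ∅ rfl g' (fun _ => h1) (by simp)
    refine ⟨J.image fun j => u • (Pi.single j 1 : Fin n → A), mem_Fr.2 ⟨u, fun v hv => ?_⟩, ?_⟩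
    · obtain ⟨j, -, rfl⟩ := mem_image.1 hv
      exact ⟨j, rfl⟩
    · rw [image_image]
      refine image_congr fun j hj => ?_
      simp only [Function.comp_apply, map_smul', map_single, hu]
      exact h2 j (by rintro rfl; exact ha hj)
  have O2 : ∀ σ ∈ Fr A n, ∀ σ' ∈ Fr A n, σ.card < n → σ.image (π ∘ ·) = σ'.image (π ∘ ·) →
      ∃ h ∈ (Matrix.GeneralLinearGroup.map π : GL (Fin n) A →* GL (Fin n) R).ker,
        σ.image (h • ·) = σ' := by
    intro σ hσ σ' hσ' hc e
    have hcard : σ.card = σ'.card := by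
      rw [← card_image_of_injOn (injOn π hσ), e, card_image_of_injOn (injOn π hσ')]
    obtain ⟨g, J, hJ, rfl⟩ := exists_std_of_mem_Fr hσ
    obtain ⟨a, ha⟩ := exists_not_mem (hJ ▸ hc)
    obtain ⟨g', hg'⟩ := mem_Fr.1 hσ'
    have : ∀ j : J, ∃ j', g' • (Pi.single j' 1 : Fin n → A) ∈ σ' ∧
        π ∘ (g' • (Pi.single j' 1 : Fin n → A)) = π ∘ (g • (Pi.single j.1 1 : Fin n → A)) := by
      intro j
      have : π ∘ (g • (Pi.single j.1 1 : Fin n → A)) ∈ σ'.image (π ∘ ·) :=
        e ▸ mem_image_of_mem _ (mem_image_of_mem _ j.2)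
      obtain ⟨w, hw, e'⟩ := mem_image.1 this
      obtain ⟨j', rfl⟩ := hg' w hw
      exact ⟨j', hw, e'⟩
    choose τ hτ1 hτ2 using this
    have hτ : Function.Injective τ := by
      intro j j' h
      have := hτ2 j
      rw [h, hτ2 j'] at this
      simp only [map_smul', map_single] at this
      exact Subtype.ext (single_inj _ this).symm
    obtain ⟨ρ, hρ⟩ := Equiv.Perm.exists_extending_pair _ _ Subtype.val_injective hτ
    obtain ⟨w, h1, h2⟩ := adjust (g⁻¹ * g') ρ a
    have h3 : ∀ j : J, (g * w) • (Pi.single j.1 1 : Fin n → A) =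
        g' • (Pi.single (τ j) 1 : Fin n → A) := by
      intro j
      rw [mul_smul, h2 j (by intro h; exact ha (h ▸ j.2)), hρ, mul_smul, smul_inv_smul]
    obtain ⟨u, hu1, hu2⟩ := lift_stab hA π hπ hl _ J rfl (Matrix.GeneralLinearGroup.map π w)
      (fun _ => by
        change (π.mapMatrix (w : Matrix (Fin n) (Fin n) A)).det = 1
        rw [← RingHom.map_det, h1, map_one]) (by
        intro j hj
        have := hτ2 ⟨j, hj⟩
        rw [← h3, map_smul', map_smul', map_single, map_mul, mul_smul] at this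
        exact smul_left_cancel _ this)
    refine ⟨g * w * u⁻¹ * g⁻¹, by simp [MonoidHom.mem_ker, hu2], ?_⟩
    refine eq_of_subset_of_card_le (fun v hv => ?_) ?_
    · rw [image_image] at hv
      obtain ⟨j, hj, rfl⟩ := mem_image.1 hv
      have : u⁻¹ • (Pi.single j 1 : Fin n → A) = Pi.single j 1 := by
        rw [inv_smul_eq_iff, hu1 j hj]
      simp only [Function.comp_apply]
      rw [mul_smul, inv_smul_smul, mul_smul, this, h3 ⟨j, hj⟩]
      exact hτ1 _
    · rw [card_image_of_injective _ (MulAction.injective _), hcard]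
  have hCb : ∀ {b : ℕ} {x : Ch (Fin n → A)}, x ∈ Cb (Fr A n) b →
      red π x ∈ Cb (Fr R n) b ∧ red π (bd x) = bd (red π x) := by
    intro b x hx
    refine Cb_ind (p := fun x => red π x ∈ Cb (Fr R n) b ∧ red π (bd x) = bd (red π x))
      (by simp) (fun x y hx hy => ?_) (fun σ hσ hc => ?_) hx
    · simp only [map_add]
      exact ⟨add_mem hx.1 hy.1, by rw [hx.2, hy.2]⟩
    · rw [red_single]
      refine ⟨single_mem_Cb (image_mem π hσ) (by rw [card_image_of_injOn (injOn π hσ), hc]), ?_⟩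
      rw [bd_single, bd_single, map_sum, sum_image (injOn π hσ)]
      refine sum_congr rfl fun v hv => ?_
      rw [red_single]
      congr 1
      ext w
      simp only [mem_image, mem_erase]
      constructor
      · rintro ⟨v', ⟨h1, h2⟩, rfl⟩
        exact ⟨fun h => h1 (injOn π hσ h2 hv h), v', h2, rfl⟩
      · rintro ⟨h1, v', h2, rfl⟩
        exact ⟨v', ⟨fun h => h1 (h ▸ rfl), h2⟩, rfl⟩
  have hI : ∀ {b : ℕ} {x : Ch (Fin n → A)},
      x ∈ Ib (Matrix.GeneralLinearGroup.map π : GL (Fin n) A →* GL (Fin n) R).ker (Fr A n) b →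
      red π x = 0 := by
    intro b x hx
    refine (Submodule.span_le (p := LinearMap.ker (red π))).2 ?_ hx
    rintro _ ⟨g, hg, σ, -, -, rfl⟩
    simp only [SetLike.mem_coe, LinearMap.mem_ker, map_sub, red_single, image_image]
    rw [sub_eq_zero]
    congr 2
    funext v
    simp only [Function.comp_apply]
    rw [map_smul', MonoidHom.mem_ker.1 hg, one_smul]
  intro x hx hbd
  obtain ⟨y', hy', e⟩ := sEx_Fr hR (show i + 1 < n by omega) _ (hCb hx).1
    (by rw [← (hCb hx).2, hI hbd])
  obtain ⟨y, hy, rfl⟩ : ∃ y ∈ Cb (Fr A n) (i + 2), red π y = y' := by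
    refine Cb_ind (p := fun y' => ∃ y ∈ Cb (Fr A n) (i + 2), red π y = y')
      ⟨0, zero_mem _, map_zero _⟩ ?_ (fun σ hσ hc => ?_) hy'
    · rintro _ _ ⟨y, hy, rfl⟩ ⟨z, hz, rfl⟩
      exact ⟨y + z, add_mem hy hz, map_add _ _ _⟩
    · obtain ⟨σ', h1, rfl⟩ := O1 σ hσ (by omega)
      exact ⟨_, single_mem_Cb h1 (by rw [← card_image_of_injOn (injOn π h1), hc]), red_single π σ'⟩
  refine ⟨y, hy, ?_⟩
  have hz : x - bd y ∈ Cb (Fr A n) (i + 1) := sub_mem hx (bd_mem_Cb down_Fr hy)
  have hz0 : red π (x - bd y) = 0 := by rw [map_sub, (hCb hy).2, e, sub_self]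
  generalize x - bd y = z at hz hz0
  choose! s hs1 hs2 using O1
  have : z - Finsupp.lmapDomain F2 F2 s (red π z) ∈
      Ib (Matrix.GeneralLinearGroup.map π : GL (Fin n) A →* GL (Fin n) R).ker (Fr A n) (i + 1) := by
    refine Cb_ind (p := fun z => z - Finsupp.lmapDomain F2 F2 s (red π z) ∈
      Ib (Matrix.GeneralLinearGroup.map π : GL (Fin n) A →* GL (Fin n) R).ker (Fr A n) (i + 1))
      (by simp) (fun x y hx hy => ?_) (fun σ hσ hc => ?_) hz
    · simp only [map_add]
      rw [add_sub_add_comm]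
      exact add_mem hx hy
    · have hc' : (σ.image (π ∘ ·)).card = i + 1 := by rw [card_image_of_injOn (injOn π hσ), hc]
      have h1 := hs1 _ (image_mem π hσ) (by omega)
      have h2 := hs2 _ (image_mem π hσ) (by omega)
      have h3 : (s (σ.image (π ∘ ·))).card = i + 1 := by
        rw [← card_image_of_injOn (injOn π h1), h2, hc']
      obtain ⟨h, hh, e⟩ := O2 _ h1 σ hσ (by omega) h2
      rw [red_single, Finsupp.lmapDomain_apply, Finsupp.mapDomain_single]
      exact Submodule.subset_span ⟨h, hh, _, h1, h3, by rw [e]⟩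
  simpa [hz0] using this

end

theorem lift_uni {F : Type} [Field F] {n k : ℕ} (hk : 1 ≤ k) (J : Finset (Fin n)) (a a' : Fin n)
    (ha : a ∉ J) (ha' : a' ∉ J) (hne : a' ≠ a)
    (b c : Fin n → F[X] ⧸ Ideal.span {(X : F[X]) ^ k}) (h : ∑ i ∈ Jᶜ, c i * b i = 1) :
    ∃ b' c' : Fin n → F[X], Ideal.Quotient.mk (Ideal.span {(X : F[X]) ^ k}) ∘ b' = b ∧
      ∑ i ∈ Jᶜ, c' i * b' i = 1 := by
  choose s hs using Ideal.Quotient.mk_surjective (I := Ideal.span {(X : F[X]) ^ k})
  have h1 : (X : F[X]) ∣ ∑ i ∈ Jᶜ, s (c i) * s (b i) - 1 := by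
    refine (dvd_pow_self X (by omega : k ≠ 0)).trans (Ideal.mem_span_singleton.1 ?_)
    rw [← Ideal.Quotient.eq]
    simp [hs, h]
  obtain ⟨p, hp, hp'⟩ : ∃ p ∈ Jᶜ, ¬ (X : F[X]) ∣ s (b p) := by
    by_contra hh
    push Not at hh
    have := (dvd_sum fun i hi => (hh i hi).mul_left (s (c i))).sub h1
    rw [sub_sub_cancel] at this
    exact not_isUnit_X (isUnit_of_dvd_one this)
  obtain ⟨q, hq, hqp⟩ : ∃ q ∈ Jᶜ, q ≠ p := by
    by_cases h : a = p
    · exact ⟨a', mem_compl.2 ha', h ▸ hne⟩
    · exact ⟨a, mem_compl.2 ha, h⟩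
  obtain ⟨α, β, e⟩ : IsCoprime ((X : F[X]) ^ k) (s (b p)) :=
    (irreducible_X.coprime_iff_not_dvd.2 hp').pow_left
  refine ⟨Function.update (s ∘ b) q (s (b q) + X ^ k * (α * (1 - s (b q)))),
    Pi.single q 1 + Pi.single p (β * (1 - s (b q))), ?_, ?_⟩
  · funext i
    by_cases hi : i = q
    · subst hi
      have : Ideal.Quotient.mk (Ideal.span {(X : F[X]) ^ k}) (X ^ k) = 0 :=
        Ideal.Quotient.eq_zero_iff_mem.2 (Ideal.mem_span_singleton_self _)
      simp only [Function.comp_apply, Function.update_self, map_add, map_mul, this, zero_mul,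
        add_zero, hs]
    · simp [hi, hs]
  · simp only [Pi.add_apply, add_mul, sum_add_distrib, Pi.single_apply, ite_mul, zero_mul,
      sum_ite_eq', hq, hp, if_true, Function.update_self, Function.update_of_ne hqp.symm,
      Function.comp_apply]
    linear_combination (1 - s (b q)) * e

end Orb

/-- The quotient of the frame complex by a congruence subgroup is the frame complex of the
quotient ring, in the range of frames with at most `n - 1` vectors. -/
theorem sVan_Fr {F : Type} [Field F] {n k i : ℕ} [DecidableEq (Fin n → F[X])] (hk : 1 ≤ k)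
    (hi : i + 3 ≤ n) : SVan (Ncg F n k) (Fr F[X] n) i := by
  classical
  have : Nontrivial (F[X] ⧸ Ideal.span {(X : F[X]) ^ k}) := by
    refine Ideal.Quotient.nontrivial_iff.2 ?_
    rw [Ne, Ideal.span_singleton_eq_top]
    exact fun h => not_isUnit_X ((isUnit_pow_iff (by omega)).1 h)
  exact Orb.main _ (euc_poly F) (euc_quot F k) Ideal.Quotient.mk_surjective (Orb.lift_uni hk) hi

end Crest.Agent.R66
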