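import Crest.Agent.R66.UT
import Crest.Agent.R66.Euclid
import Crest.Agent.R66.Odd

/-! Row 66: parabolic subgroups attached to an idempotent and their Levi retractions. -/

set_option autoImplicit false

namespace Crest.Agent.R66

open Finset Polynomial

namespace StabAux

section ring

variable {R : Type} [Ring R]

/-- Units with `u * E = E`. -/
def colS (E : R) : Subgroup Rˣ where
  carrier := {u | (u : R) * E = E}
  mul_mem' := by
    intro a b ha hb
    simp only [Set.mem_ofPred_eq] at ha hb ⊢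
    rw [Units.val_mul, mul_assoc, hb, ha]
  one_mem' := by simp
  inv_mem' := by
    intro a ha
    simp only [Set.mem_ofPred_eq] at ha ⊢
    conv_lhs => rw [← ha]
    rw [← mul_assoc, Units.inv_mul, one_mul]

/-- Units with `E * u = E`. -/
def rowS (E : R) : Subgroup Rˣ where
  carrier := {u | E * (u : R) = E}
  mul_mem' := by
    intro a b ha hb
    simp only [Set.mem_ofPred_eq] at ha hb ⊢
    rw [Units.val_mul, ← mul_assoc, ha, hb]
  one_mem' := by simp
  inv_mem' := by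
    intro a ha
    simp only [Set.mem_ofPred_eq] at ha ⊢
    conv_lhs => rw [← ha]
    rw [mul_assoc, Units.mul_inv, mul_one]

theorem mem_colS {E : R} {u : Rˣ} : u ∈ colS E ↔ (u : R) * E = E := Iff.rfl
theorem mem_rowS {E : R} {u : Rˣ} : u ∈ rowS E ↔ E * (u : R) = E := Iff.rfl

theorem one_add_pow {x : R} (hx : x * x = 0) (m : ℕ) : (1 + x) ^ m = 1 + (m : R) * x := by
  induction m with
  | zero => simp
  | succ m ih =>
    rw [pow_succ, ih, Nat.cast_succ]
    linear_combination (norm := noncomm_ring) (m : R) * hx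

theorem exists_retr {E : R} (hE : E * E = E) {N P : Subgroup Rˣ}
    (hN : ∀ u ∈ P, ∀ v : Rˣ, (v : R) = E + (1 - E) * u * (1 - E) → v ∈ N)
    (hle : N ⊓ (colS E ⊓ rowS E) ≤ P)
    (hc : ∀ u ∈ P, ∀ u' ∈ P, (1 - E) * (u : R) * E * u' * (1 - E) = 0)
    (hk : ∀ u ∈ P, ∀ u' ∈ P, (1 - E) * (u : R) * (1 - E) = 1 - E →
      (1 - E) * (u' : R) * (1 - E) = 1 - E → ((u : R) - 1) * (u' - 1) = 0)
    {p : ℕ} (hp : Odd p) (hp0 : (p : R) = 0) :
    ∃ π : P →* ↥(N ⊓ (colS E ⊓ rowS E)), Retr P (N ⊓ (colS E ⊓ rowS E)) π ∧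
      ∀ u : P, (1 - E) * ((u : Rˣ) : R) * (1 - E) = 1 - E → π u = 1 := by
  let f : P →* R :=
    { toFun := fun u => E + (1 - E) * ((u : Rˣ) : R) * (1 - E)
      map_one' := by
        simp only [OneMemClass.coe_one, Units.val_one]
        linear_combination (norm := noncomm_ring) hE
      map_mul' := fun u u' => by
        have h := hc u u.2 u' u'.2
        simp only [Subgroup.coe_mul, Units.val_mul]
        generalize ((u : Rˣ) : R) = a at *
        generalize ((u' : Rˣ) : R) = b at *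
        linear_combination (norm := noncomm_ring) h - hE + hE * b * (1 - E) +
          (1 - E) * a * hE - (1 - E) * a * hE * b * (1 - E) }
  have hf : ∀ u : P, f.toHomUnits u ∈ N ⊓ (colS E ⊓ rowS E) := by
    intro u
    refine ⟨hN u u.2 _ rfl, ?_, ?_⟩
    · change (E + (1 - E) * ((u : Rˣ) : R) * (1 - E)) * E = E
      linear_combination (norm := noncomm_ring) hE - (1 - E) * ((u : Rˣ) : R) * hE
    · change E * (E + (1 - E) * ((u : Rˣ) : R) * (1 - E)) = E
      linear_combination (norm := noncomm_ring) hE - hE * ((u : Rˣ) : R) * (1 - E)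
  have hker : ∀ u : P, f.toHomUnits.codRestrict _ hf u = 1 ↔
      (1 - E) * ((u : Rˣ) : R) * (1 - E) = 1 - E := by
    intro u
    rw [Subtype.ext_iff, Units.ext_iff]
    change E + (1 - E) * ((u : Rˣ) : R) * (1 - E) = 1 ↔ _
    rw [← eq_sub_iff_add_eq']
  refine ⟨f.toHomUnits.codRestrict _ hf, ⟨hle, fun l => ?_, fun u u' hu hu' => ?_,
    p, hp, fun u hu => ?_⟩, fun u hu => (hker u).2 hu⟩
  · refine Subtype.ext (Units.ext ?_)
    change E + (1 - E) * ((l : Rˣ) : R) * (1 - E) = ((l : Rˣ) : R)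
    have h1 : ((l : Rˣ) : R) * E = E := l.2.2.1
    have h2 : E * ((l : Rˣ) : R) = E := l.2.2.2
    linear_combination (norm := noncomm_ring) hE - h1 - h2 + E * h1
  · have h1 := hk u u.2 u' u'.2 ((hker u).1 hu) ((hker u').1 hu')
    have h2 := hk u' u'.2 u u.2 ((hker u').1 hu') ((hker u).1 hu)
    refine Subtype.ext (Units.ext ?_)
    simp only [Subgroup.coe_mul, Units.val_mul]
    linear_combination (norm := noncomm_ring) h1 - h2
  · have h1 := hk u u.2 u u.2 ((hker u).1 hu) ((hker u).1 hu)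
    refine Subtype.ext (Units.ext ?_)
    simp only [SubmonoidClass.coe_pow, Units.val_pow_eq_pow_val, OneMemClass.coe_one,
      Units.val_one]
    have h2 := one_add_pow h1 p
    rwa [add_sub_cancel, hp0, zero_mul, add_zero] at h2

variable {E : R} {N : Subgroup Rˣ}

theorem retr_col (hE : E * E = E)
    (hN : ∀ u ∈ N, ∀ v : Rˣ, (v : R) = E + (1 - E) * u * (1 - E) → v ∈ N)
    {p : ℕ} (hp : Odd p) (hp0 : (p : R) = 0) :
    ∃ π : ↥(N ⊓ colS E) →* ↥(N ⊓ (colS E ⊓ rowS E)), Retr (N ⊓ colS E) (N ⊓ (colS E ⊓ rowS E)) π ∧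
      ∀ u : ↥(N ⊓ colS E), (1 - E) * ((u : Rˣ) : R) * (1 - E) = 1 - E → π u = 1 := by
  refine exists_retr hE (fun u hu => hN u hu.1) (inf_le_inf_left _ inf_le_left)
    (fun u hu u' _ => ?_) (fun u hu u' hu' h h' => ?_) hp hp0
  · have h1 : (u : R) * E = E := hu.2
    linear_combination (norm := noncomm_ring) (1 - E) * h1 * u' * (1 - E) - hE * u' * (1 - E)
  · have h1 : (u : R) * E = E := hu.2
    have h2 : (u' : R) * E = E := hu'.2
    have e2 : (u' : R) - 1 = E * (u' - 1) := by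
      linear_combination (norm := noncomm_ring) h' + (1 - E) * h2 - hE
    rw [e2, ← mul_assoc, sub_mul, h1, one_mul, sub_self, zero_mul]

theorem retr_row (hE : E * E = E)
    (hN : ∀ u ∈ N, ∀ v : Rˣ, (v : R) = E + (1 - E) * u * (1 - E) → v ∈ N)
    {p : ℕ} (hp : Odd p) (hp0 : (p : R) = 0) :
    ∃ π : ↥(N ⊓ rowS E) →* ↥(N ⊓ (colS E ⊓ rowS E)), Retr (N ⊓ rowS E) (N ⊓ (colS E ⊓ rowS E)) π ∧
      ∀ u : ↥(N ⊓ rowS E), (1 - E) * ((u : Rˣ) : R) * (1 - E) = 1 - E → π u = 1 := by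
  refine exists_retr hE (fun u hu => hN u hu.1) (inf_le_inf_left _ inf_le_right)
    (fun u _ u' hu' => ?_) (fun u hu u' hu' h h' => ?_) hp hp0
  · have h1 : E * (u' : R) = E := hu'.2
    linear_combination (norm := noncomm_ring) (1 - E) * u * h1 * (1 - E) - (1 - E) * u * hE
  · have h1 : E * (u : R) = E := hu.2
    have h2 : E * (u' : R) = E := hu'.2
    have e2 : (u : R) - 1 = (u - 1) * E := by
      linear_combination (norm := noncomm_ring) h + h1 * (1 - E) - hE
    rw [e2, mul_assoc, mul_sub, h2, mul_one, sub_self, mul_zero]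

/-- Unipotent elements of both kinds act trivially on the classes from the Levi subgroup. -/
theorem sub_mem_Bd [N.Normal] (hE : E * E = E)
    (hN : ∀ u ∈ N, ∀ v : Rˣ, (v : R) = E + (1 - E) * u * (1 - E) → v ∈ N)
    {p : ℕ} (hp : Odd p) (hp0 : (p : R) = 0) {w : Rˣ}
    (hw : ((w : R) * E = E ∧ (1 - E) * (w : R) = 1 - E) ∨
      (E * (w : R) = E ∧ (w : R) * (1 - E) = 1 - E)) {b : ℕ} {x : (std Rˣ).X (b + 1)}
    (hx : x ∈ (std Rˣ).Z (N ⊓ (colS E ⊓ rowS E)) b) :
    (std Rˣ).ρ (b + 1) w x - x ∈ (std Rˣ).Bd N b := by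
  have hmem : ∀ l ∈ N, w * l * w⁻¹ * l⁻¹ ∈ N := fun l hl =>
    mul_mem (Subgroup.Normal.conj_mem ‹_› l hl w) (inv_mem hl)
  have hcomm : ∀ l ∈ colS E ⊓ rowS E, (1 - E) * (l : R) = l * (1 - E) := by
    intro l hl
    have h1 : (l : R) * E = E := hl.1
    have h2 : E * (l : R) = E := hl.2
    rw [sub_mul, mul_sub, h1, h2, one_mul, mul_one]
  have hD : (1 - E) * (1 - E) = 1 - E := by linear_combination (norm := noncomm_ring) hE
  rcases hw with ⟨h1, h2⟩ | ⟨h1, h2⟩
  · obtain ⟨π, hπ, hk⟩ := retr_col hE hN hp hp0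
    refine Cx.Bd_mono _ inf_le_left _ (hπ.sub_mem (fun l hl => ?_) hx)
    have hw : w ∈ colS E := h1
    have hl' : l ∈ colS E := hl.2.1
    have h3 : (1 - E) * ((w⁻¹ : Rˣ) : R) = 1 - E := inv_mem (show w ∈ rowS (1 - E) from h2)
    refine ⟨⟨w * l * w⁻¹ * l⁻¹, Subgroup.mem_inf.2 ⟨hmem l hl.1,
      mul_mem (mul_mem (mul_mem hw hl') (inv_mem hw)) (inv_mem hl')⟩⟩, hk _ ?_, rfl⟩
    simp only [Units.val_mul, ← mul_assoc]
    rw [h2, hcomm l hl.2, mul_assoc (l : R), h3, ← hcomm l hl.2, mul_assoc _ (l : R),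
      Units.mul_inv, mul_one, hD]
  · obtain ⟨π, hπ, hk⟩ := retr_row hE hN hp hp0
    refine Cx.Bd_mono _ inf_le_left _ (hπ.sub_mem (fun l hl => ?_) hx)
    have hw : w ∈ rowS E := h1
    have hl' : l ∈ rowS E := hl.2.2
    have h3 : ((w⁻¹ : Rˣ) : R) * (1 - E) = 1 - E := inv_mem (show w ∈ colS (1 - E) from h2)
    refine ⟨⟨w * l * w⁻¹ * l⁻¹, Subgroup.mem_inf.2 ⟨hmem l hl.1,
      mul_mem (mul_mem (mul_mem hw hl') (inv_mem hw)) (inv_mem hl')⟩⟩, hk _ ?_, rfl⟩
    simp only [Units.val_mul, mul_assoc]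
    rw [← hcomm l⁻¹ (inv_mem hl.2), ← mul_assoc ((w⁻¹ : Rˣ) : R), h3, hcomm l⁻¹ (inv_mem hl.2),
      ← mul_assoc (l : R), Units.mul_inv, one_mul, h2, hD]

end ring

section matrix

variable {A : Type} [CommRing A] {n : ℕ}

/-- All entries are divisible by `d`. -/
def Dv {α β : Type} (d : A) (M : Matrix α β A) : Prop := ∀ i j, d ∣ M i j

theorem Dv.mul {α β γ δ : Type} [Fintype β] [Fintype γ] {d : A} {M : Matrix β γ A} (h : Dv d M)
    (B : Matrix α β A) (C : Matrix γ δ A) : Dv d (B * M * C) := by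
  intro i j
  simp only [Matrix.mul_apply]
  exact Finset.dvd_sum fun l _ => Dvd.dvd.mul_right
    (Finset.dvd_sum fun r _ => Dvd.dvd.mul_left (h r l) _) _

/-- The coordinate projection onto `J`. -/
def idem (A : Type) [CommRing A] (J : Finset (Fin n)) : Matrix (Fin n) (Fin n) A :=
  Matrix.diagonal fun j => if j ∈ J then 1 else 0

theorem idem_mul_self (J : Finset (Fin n)) : idem A J * idem A J = idem A J := by
  rw [idem, Matrix.diagonal_mul_diagonal]
  congr 1
  funext j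
  split_ifs <;> simp

theorem mem_colS_idem {J : Finset (Fin n)} {u : GL (Fin n) A} :
    u ∈ colS (idem A J) ↔ ∀ j ∈ J, u • (Pi.single j 1 : Fin n → A) = Pi.single j 1 := by
  have e : ∀ j, u • (Pi.single j 1 : Fin n → A) = (u : Matrix (Fin n) (Fin n) A).col j :=
    fun j => Matrix.mulVec_single_one _ _
  rw [mem_colS]
  simp only [e]
  constructor
  · intro h j hj
    funext i
    have := congrFun (congrFun h i) j
    simp only [idem, Matrix.mul_diagonal, Matrix.diagonal_apply, if_pos hj, mul_one] at this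
    rw [Matrix.col_apply, this, Pi.single_apply]
    split_ifs with h1 h2
    · rfl
    · exact absurd (h1 ▸ hj) h2
    · rfl
  · intro h
    ext i j
    simp only [idem, Matrix.mul_diagonal, Matrix.diagonal_apply]
    by_cases hj : j ∈ J
    · have := congrFun (h j hj) i
      rw [Matrix.col_apply, Pi.single_apply] at this
      rw [this, if_pos hj, mul_one]
      split_ifs with h1 h2
      · rfl
      · exact absurd (h1 ▸ hj) h2
      · rfl
    · rw [if_neg hj, mul_zero]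
      split_ifs with h1 h2
      · exact absurd (h1 ▸ h2) hj
      · rfl
      · rfl

end matrix

section poly

variable {F : Type} [Field F] {n k : ℕ}

theorem mem_Ncg' {g : GL (Fin n) F[X]} :
    g ∈ Ncg F n k ↔ Dv ((X : F[X]) ^ k) ((g : Matrix (Fin n) (Fin n) F[X]) - 1) := mem_Ncg

theorem Ncg_cpr {E : Matrix (Fin n) (Fin n) F[X]} (hE : E * E = E) :
    ∀ u ∈ Ncg F n k, ∀ v : GL (Fin n) F[X],
      (v : Matrix (Fin n) (Fin n) F[X]) = E + (1 - E) * u * (1 - E) → v ∈ Ncg F n k := by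
  intro u hu v hv
  rw [mem_Ncg'] at hu ⊢
  have : (v : Matrix (Fin n) (Fin n) F[X]) - 1 = (1 - E) * (u - 1) * (1 - E) := by
    rw [hv]
    linear_combination (norm := noncomm_ring) hE
  rw [this]
  exact hu.mul _ _

theorem cast_p (p : ℕ) [CharP F p] : (p : Matrix (Fin n) (Fin n) F[X]) = 0 := by
  rw [← map_natCast (algebraMap F (Matrix (Fin n) (Fin n) F[X])), CharP.cast_eq_zero F p, map_zero]

variable [DecidableEq (Fin n → F[X])]

theorem conj_mem_col (hk : 1 ≤ k) (g : GL (Fin n) F[X]) (J : Finset (Fin n)) :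
    ∀ s ∈ Ncg F n k ⊓ fstab (GL (Fin n) F[X])
      (J.image fun j => g • (Pi.single j 1 : Fin n → F[X])),
      g⁻¹ * s * g⁻¹⁻¹ ∈ Ncg F n k ⊓ colS (idem F[X] J) := by
  rintro s ⟨hs, hs'⟩
  have hN : g⁻¹ * s * g⁻¹⁻¹ ∈ Ncg F n k := Subgroup.Normal.conj_mem inferInstance s hs _
  refine ⟨hN, mem_colS_idem.2 fun j hj => ?_⟩
  have h1 : s • g • (Pi.single j 1 : Fin n → F[X]) ∈
      J.image fun j => g • (Pi.single j 1 : Fin n → F[X]) := by
    have hs'' : Finset.image (s • ·) _ = _ := hs'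
    rw [← hs'']
    exact Finset.mem_image_of_mem _ (Finset.mem_image_of_mem _ hj)
  obtain ⟨j', -, hj'⟩ := Finset.mem_image.1 h1
  have h2 : (g⁻¹ * s * g⁻¹⁻¹) • (Pi.single j 1 : Fin n → F[X]) = Pi.single j' 1 := by
    rw [inv_inv, mul_smul, mul_smul, ← hj', inv_smul_smul]
  by_cases h : j' = j
  · rw [h2, h]
  · exfalso
    have h3 := mem_Ncg_iff_smul.1 hN (Pi.single j 1) j
    rw [h2, Pi.single_eq_same, Pi.single_eq_of_ne' h, zero_sub, dvd_neg] at h3
    exact Polynomial.not_isUnit_X (isUnit_of_dvd_one ((dvd_pow_self X (by omega)).trans h3))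

theorem conj_mem_fstab (g : GL (Fin n) F[X]) (J : Finset (Fin n)) :
    ∀ s ∈ Ncg F n k ⊓ colS (idem F[X] J), g * s * g⁻¹ ∈ Ncg F n k ⊓ fstab (GL (Fin n) F[X])
      (J.image fun j => g • (Pi.single j 1 : Fin n → F[X])) := by
  rintro s ⟨hs, hs'⟩
  refine ⟨Subgroup.Normal.conj_mem inferInstance s hs _, ?_⟩
  change Finset.image _ _ = _
  rw [Finset.image_image]
  refine Finset.image_congr fun j hj => ?_
  simp only [Function.comp]
  rw [mul_smul, inv_smul_smul, mul_smul, mem_colS_idem.1 hs' j hj]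

end poly

theorem ρ_inv {H : Type} [Group H] (c : Cx H) (b : ℕ) (g : H) (x : c.X b) :
    c.ρ b g (c.ρ b g⁻¹ x) = x := by
  rw [← Module.End.mul_apply, ← map_mul, mul_inv_cancel, map_one, Module.End.one_apply]

end StabAux

end Crest.Agent.R66
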