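import Crest.Agent.R66.UT
import Crest.Agent.R66.Euclid
import Crest.Agent.R66.Odd
import Crest.Agent.R66.StabAux

set_option autoImplicit false

namespace Crest.Agent.R66

open Finset Polynomial

namespace StabAux

variable {F : Type} [Field F] {n m k : ℕ}

/-- The Levi subgroup is a smaller congruence subgroup. -/
theorem van_levi (B : Matrix (Fin n) (Fin m) F[X]) (C : Matrix (Fin m) (Fin n) F[X])
    (hCB : C * B = 1) {E : Matrix (Fin n) (Fin n) F[X]} (hBC : B * C = 1 - E) {a : ℕ}
    (h : HV (Ncg F m k) a) :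
    (std (GL (Fin n) F[X])).Van (Ncg F n k ⊓ (colS E ⊓ rowS E)) a := by
  have hE : E = 1 - B * C := by rw [hBC, sub_sub_cancel]
  have hCE : C * E = 0 := by
    rw [hE, Matrix.mul_sub, ← Matrix.mul_assoc, hCB, Matrix.mul_one, Matrix.one_mul, sub_self]
  have hEB : E * B = 0 := by
    rw [hE, Matrix.sub_mul, Matrix.mul_assoc, hCB, Matrix.mul_one, Matrix.one_mul, sub_self]
  have hEE : E * E = E := by
    conv_lhs => rw [hE, Matrix.sub_mul, Matrix.one_mul, ← hE, Matrix.mul_assoc, hCE,
      Matrix.mul_zero, sub_zero]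
  let f : Matrix (Fin m) (Fin m) F[X] →* Matrix (Fin n) (Fin n) F[X] :=
    { toFun := fun M => E + B * M * C
      map_one' := by rw [Matrix.mul_one, hBC, add_sub_cancel]
      map_mul' := fun M M' => by
        rw [add_mul, mul_add, mul_add, hEE, ← Matrix.mul_assoc E, ← Matrix.mul_assoc E, hEB,
          Matrix.mul_assoc (B * M) C E, hCE, Matrix.mul_assoc (B * M) C, ← Matrix.mul_assoc C,
          ← Matrix.mul_assoc C, hCB]
        simp only [Matrix.zero_mul, Matrix.mul_zero, add_zero, zero_add, Matrix.one_mul,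
          Matrix.mul_assoc] }
  have hf : ∀ M : Matrix (Fin m) (Fin m) F[X], C * (E + B * M * C) * B = M := by
    intro M
    rw [Matrix.mul_add, hCE, zero_add, ← Matrix.mul_assoc, ← Matrix.mul_assoc, hCB,
      Matrix.one_mul, Matrix.mul_assoc, hCB, Matrix.mul_one]
  let φ : Ncg F m k →* GL (Fin n) F[X] := (Units.map f).comp (Ncg F m k).subtype
  have hφ : ∀ u : Ncg F m k, (φ u : Matrix (Fin n) (Fin n) F[X]) =
      E + B * ((u : GL (Fin m) F[X]) : Matrix (Fin m) (Fin m) F[X]) * C := fun _ => rfl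
  have hinj : Function.Injective φ := by
    intro u u' huu
    refine Subtype.ext (Units.ext ?_)
    have h1 : (φ u : Matrix (Fin n) (Fin n) F[X]) = φ u' := by rw [huu]
    rw [hφ, hφ] at h1
    exact (hf _).symm.trans ((congrArg (fun M => C * M * B) h1).trans (hf _))
  have hrange : φ.range = Ncg F n k ⊓ (colS E ⊓ rowS E) := by
    apply le_antisymm
    · rintro _ ⟨u, rfl⟩
      refine ⟨mem_Ncg'.2 ?_, mem_colS.2 ?_, mem_rowS.2 ?_⟩
      · have : (φ u : Matrix (Fin n) (Fin n) F[X]) - 1 =
            B * (((u : GL (Fin m) F[X]) : Matrix (Fin m) (Fin m) F[X]) - 1) * C := by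
          rw [hφ, Matrix.mul_sub, Matrix.sub_mul, Matrix.mul_one, hBC]
          abel
        rw [this]
        exact (mem_Ncg'.1 u.2).mul _ _
      · rw [hφ, add_mul, hEE, Matrix.mul_assoc, hCE, Matrix.mul_zero, add_zero]
      · rw [hφ, mul_add, hEE, ← Matrix.mul_assoc, ← Matrix.mul_assoc, hEB, Matrix.zero_mul,
          Matrix.zero_mul, add_zero]
    · intro l hl
      have key : ∀ u ∈ colS E, ∀ u' : GL (Fin n) F[X], u * u' = 1 →
          C * (u : Matrix (Fin n) (Fin n) F[X]) * B * (C * (u' : Matrix (Fin n) (Fin n) F[X]) * B)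
            = 1 := by
        intro u hu u' huu
        have h1 : (u : Matrix (Fin n) (Fin n) F[X]) * u' = 1 := by
          rw [← Units.val_mul, huu, Units.val_one]
        have h2 : (u : Matrix (Fin n) (Fin n) F[X]) * E = E := hu
        calc _ = C * ((u : Matrix (Fin n) (Fin n) F[X]) * (B * C) *
              (u' : Matrix (Fin n) (Fin n) F[X])) * B := by
              simp only [Matrix.mul_assoc]
          _ = 1 := by
              rw [hBC, mul_sub, sub_mul, mul_one, h1, h2, Matrix.mul_sub, ← Matrix.mul_assoc,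
                hCE, Matrix.zero_mul, sub_zero, Matrix.mul_one, hCB]
      have hl1 : l ∈ colS E := hl.2.1
      have h1 : (l : Matrix (Fin n) (Fin n) F[X]) * E = E := hl.2.1
      have h2 : E * (l : Matrix (Fin n) (Fin n) F[X]) = E := hl.2.2
      refine ⟨⟨⟨C * (l : Matrix (Fin n) (Fin n) F[X]) * B,
        C * ((l⁻¹ : GL (Fin n) F[X]) : Matrix (Fin n) (Fin n) F[X]) * B,
        key l hl1 _ (mul_inv_cancel l),
        key l⁻¹ (inv_mem hl1) _ (inv_mul_cancel l)⟩, mem_Ncg'.2 ?_⟩, Units.ext ?_⟩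
      · have : C * (l : Matrix (Fin n) (Fin n) F[X]) * B - 1 =
            C * ((l : Matrix (Fin n) (Fin n) F[X]) - 1) * B := by
          rw [Matrix.mul_sub, Matrix.sub_mul, Matrix.mul_one, hCB]
        change Dv _ (C * (l : Matrix (Fin n) (Fin n) F[X]) * B - 1)
        rw [this]
        exact (mem_Ncg'.1 hl.1).mul _ _
      · change E + B * (C * (l : Matrix (Fin n) (Fin n) F[X]) * B) * C = l
        have : B * (C * (l : Matrix (Fin n) (Fin n) F[X]) * B) * C =
            B * C * (l : Matrix (Fin n) (Fin n) F[X]) * (B * C) := by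
          simp only [Matrix.mul_assoc]
        rw [this, hBC]
        linear_combination (norm := noncomm_ring) hEE - h1 - h2 + E * h1
  rw [← hrange, van_std_iff φ hinj]
  exact h

theorem van_idem (J : Finset (Fin n)) (hm : J.card + m = n) {a : ℕ} (h : HV (Ncg F m k) a) :
    (std (GL (Fin n) F[X])).Van (Ncg F n k ⊓ (colS (idem F[X] J) ⊓ rowS (idem F[X] J))) a := by
  have hc : Jᶜ.card = m := by rw [Finset.card_compl, Fintype.card_fin]; omega
  let ι : Fin m ↪o Fin n := Jᶜ.orderEmbOfFin hc
  have hι : ∀ i, i ∉ J ↔ ∃ r, ι r = i := by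
    intro i
    rw [← Set.mem_range, Finset.range_orderEmbOfFin, Finset.mem_coe, Finset.mem_compl]
  refine van_levi (Matrix.of fun i r => if ι r = i then 1 else 0)
    (Matrix.of fun r j => if ι r = j then 1 else 0) ?_ ?_ h
  · ext r r' : 2
    simp only [Matrix.mul_apply, Matrix.of_apply, Matrix.one_apply, ite_mul, one_mul, zero_mul,
      Finset.sum_ite_eq, Finset.mem_univ, if_true, ι.injective.eq_iff, eq_comm (a := r)]
  · ext i j : 2
    simp only [Matrix.mul_apply, Matrix.of_apply, Matrix.sub_apply, Matrix.one_apply, idem,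
      Matrix.diagonal_apply]
    by_cases hi : i ∈ J
    · rw [Finset.sum_eq_zero fun r _ => by
        rw [if_neg fun h => (hι i).2 ⟨r, h⟩ hi, zero_mul]]
      rw [if_pos hi, sub_self]
    · obtain ⟨r, rfl⟩ := (hι i).1 hi
      rw [Finset.sum_eq_single r (fun r' _ hr => by
        rw [if_neg fun h => hr (ι.injective h), zero_mul]) (by simp), if_pos rfl, one_mul,
        if_neg hi, ite_self, sub_zero]

end StabAux

open StabAux

variable {F : Type} [Field F] {n k : ℕ} [DecidableEq (Fin n → F[X])]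

/-- Stabilisers of frames have the homology of smaller congruence subgroups. -/
theorem van_fstab {p : ℕ} [CharP F p] (hp : Odd p) (hk : 1 ≤ k) {σ : Finset (Fin n → F[X])}
    (hσ : σ ∈ Fr F[X] n) {m a : ℕ} (hm : σ.card + m = n) (h : HV (Ncg F m k) a) :
    (std (GL (Fin n) F[X])).Van (Ncg F n k ⊓ fstab (GL (Fin n) F[X]) σ) a := by
  obtain ⟨g, J, hJ, rfl⟩ := exists_std_of_mem_Fr hσ
  obtain ⟨π, hπ, -⟩ := retr_col (N := Ncg F n k) (idem_mul_self J) (Ncg_cpr (idem_mul_self J)) hp
    (cast_p p)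
  have hP := hπ.van (van_idem J (by omega) h)
  intro x hx
  rw [← ρ_inv _ _ g x]
  exact Cx.ρ_mem_Bd _ (conj_mem_fstab g J) (hP (Cx.ρ_mem_Z _ (conj_mem_col hk g J) hx))

end Crest.Agent.R66
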