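import Crest.Agent.R66.UT
import Crest.Agent.R66.Euclid
import Crest.Agent.R66.Odd
import Crest.Agent.R66.StabAux

set_option autoImplicit false

namespace Crest.Agent.R66

open Finset Polynomial

namespace StabAux

/-- The elements that fix a class modulo boundaries. -/
def fixS {H : Type} [Group H] (c : Cx H) (N : Subgroup H) [N.Normal] {b : ℕ} (x : c.X (b + 1)) :
    Subgroup H where
  carrier := {g | c.ρ (b + 1) g x - x ∈ c.Bd N b}
  mul_mem' := by
    intro g h hg hh
    simp only [Set.mem_ofPred_eq] at hg hh ⊢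
    have h1 := c.ρ_mem_Bd (g := g) (fun s hs => Subgroup.Normal.conj_mem ‹_› s hs g) hh
    have := add_mem h1 hg
    rwa [map_sub, sub_add_sub_cancel, ← Module.End.mul_apply, ← map_mul] at this
  one_mem' := by simp
  inv_mem' := by
    intro g hg
    simp only [Set.mem_ofPred_eq] at hg ⊢
    have h1 := c.ρ_mem_Bd (g := g⁻¹) (fun s hs => Subgroup.Normal.conj_mem ‹_› s hs g⁻¹) hg
    have h2 := ρ_inv c (b + 1) g⁻¹ x
    rw [inv_inv] at h2
    rw [map_sub, h2] at h1
    simpa using neg_mem h1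

theorem idem_single {A : Type} [CommRing A] {n : ℕ} (a : Fin n) :
    idem A {a} = Matrix.single a a 1 := by
  ext i j
  simp only [idem, Matrix.diagonal_apply, Finset.mem_singleton, Matrix.single_apply]
  by_cases h1 : i = j
  · subst h1
    simp only [if_true, and_self, eq_comm (a := a)]
  · rw [if_neg h1, if_neg]
    rintro ⟨rfl, rfl⟩
    exact h1 rfl

end StabAux

open StabAux

variable {F : Type} [Field F] {n k : ℕ} [DecidableEq (Fin n → F[X])]

/-- Classes that come from the stabiliser of a vector vanish. -/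
theorem Z_fstab_le [Finite F] {p : ℕ} [CharP F p] (hp : Odd p) (hk : 1 ≤ k) {i : ℕ}
    (hW : HV (Ncg F n 1) i) {v : Fin n → F[X]} (hv : {v} ∈ Fr F[X] n) :
    (std (GL (Fin n) F[X])).Z (Ncg F n k ⊓ fstab (GL (Fin n) F[X]) {v}) i ≤
      (std (GL (Fin n) F[X])).Bd (Ncg F n k) i := by
  obtain ⟨g, J, hJ, hv'⟩ := exists_std_of_mem_Fr hv
  rw [hv']
  obtain ⟨a, rfl⟩ := Finset.card_eq_one.1 (hJ.trans (Finset.card_singleton v))
  have hE := idem_mul_self (A := F[X]) ({a} : Finset (Fin n))
  obtain ⟨π, hπ, -⟩ := retr_col (N := Ncg F n k) hE (Ncg_cpr hE) hp (cast_p p)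
  intro x hx
  obtain ⟨x', hx', hxx⟩ := hπ.exists_cycle (Cx.ρ_mem_Z _ (conj_mem_col hk g {a}) hx)
  have hT : Tv F[X] a ⊆ fixS (std (GL (Fin n) F[X])) (Ncg F n k) x' := by
    rintro w ⟨j, c, hj, hw⟩
    refine sub_mem_Bd hE (Ncg_cpr hE) hp (cast_p p) ?_ hx'
    rw [idem_single]
    refine hw.imp (fun hw => ?_) (fun hw => ?_)
    · rw [hw, Matrix.transvection]
      constructor
      · rw [add_mul, one_mul, Matrix.single_mul_single_of_ne _ _ _ _ hj, add_zero]
      · rw [mul_add, mul_one, sub_mul, one_mul, Matrix.single_mul_single_same, one_mul, sub_self,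
          add_zero]
    · rw [hw, Matrix.transvection]
      constructor
      · rw [mul_add, mul_one, Matrix.single_mul_single_of_ne _ _ _ _ hj.symm, add_zero]
      · rw [add_mul, one_mul, mul_sub, mul_one, Matrix.single_mul_single_same, mul_one, sub_self,
          add_zero]
  have hEl : El F[X] n ≤ fixS (std (GL (Fin n) F[X])) (Ncg F n k) x' := by
    rw [← closure_Tv a]
    exact (Subgroup.closure_le _).2 hT
  have h1 : x' ∈ (std (GL (Fin n) F[X])).Bd (Ncg F n k) i :=
    Cx.avg _ (Ncg_anti hk) (odd_relIndex_Ncg hp) ((van_std_subgroup _ _).2 hW)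
      (Cx.Z_mono _ inf_le_left _ hx') fun g hg =>
        hEl (mem_El_of_det (euc_poly F) (det_eq_one_of_mem_Ncg le_rfl hg))
  have h2 := add_mem (Cx.Bd_mono _ inf_le_left _ hxx) h1
  rw [sub_add_cancel] at h2
  rw [← ρ_inv _ _ g x]
  exact Cx.ρ_mem_Bd _ (fun s hs => Subgroup.Normal.conj_mem inferInstance s hs g) h2

end Crest.Agent.R66
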