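import Crest.Agent.R66.Stair
import Crest.Agent.R66.Orbits
import Crest.Agent.R66.Stab
import Crest.Agent.R66.Vtx

set_option autoImplicit false

namespace Crest.Agent.R66

open Finset Polynomial

/-- The stable vanishing of the homology of congruence subgroups. -/
theorem hv_Ncg {F : Type} [Field F] [Finite F] {p : ℕ} [CharP F p] (hp : Odd p) {k : ℕ}
    (hk : 1 ≤ k) (n₀ : ℕ) (hW : ∀ n i, i + 3 ≤ n → n ≤ n₀ → HV (Ncg F n 1) i) :
    ∀ i n, 2 * i + 2 ≤ n → n ≤ n₀ → HV (Ncg F n k) i := by
  intro i
  induction i using Nat.strong_induction_on with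
  | _ i ih =>
    intro n hn hn₀
    rcases Nat.eq_zero_or_pos i with rfl | hi
    · exact hv_zero _
    classical
    rw [← van_std_subgroup]
    refine (stair (K := Fr F[X] n) down_Fr empty_mem_Fr inv_Fr (Ncg F n k) i
      (fun j hj => sEx_Fr (euc_poly F) (by omega)) (sVan_Fr hk (by omega))
      fun σ hσ a ha hc hac => ?_).trans (sup_le le_sup_right (iSup_le fun v => ?_))
    · exact van_fstab hp hk hσ (m := n - σ.card) (by omega)
        (ih a (by omega) _ (by omega) (by omega))
    · exact Z_fstab_le hp hk (hW n i (by omega) hn₀) v.2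

end Crest.Agent.R66
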