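import Crest.Agent.R66.Defs

set_option autoImplicit false

namespace Crest.Agent.R66

open Finset

namespace LatAux

open Submodule Cardinal

variable {F V V' V'' : Type} [Field F] [AddCommGroup V] [Module F V] [AddCommGroup V']
  [Module F V'] [AddCommGroup V''] [Module F V''] {u u' v w : Submodule F V}

theorem rank_map_add (f : V →ₗ[F] V') (p : Submodule F V) :
    Module.rank F ↥(p.map f) + Module.rank F ↥(p ⊓ LinearMap.ker f) = Module.rank F p := by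
  rw [← (f ∘ₗ p.subtype).rank_range_add_rank_ker, LinearMap.range_comp, range_subtype,
    LinearMap.ker_comp, ← rank_map_eq (injective_subtype p) (comap _ _), map_comap_subtype]

theorem rank_map_congr (f : V →ₗ[F] V') (g : V →ₗ[F] V'') (p : Submodule F V)
    (h : p ⊓ LinearMap.ker f = p ⊓ LinearMap.ker g) :
    Module.rank F ↥(p.map f) = Module.rank F ↥(p.map g) := by
  have h1 : LinearMap.ker (f ∘ₗ p.subtype) = LinearMap.ker (g ∘ₗ p.subtype) := by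
    apply map_injective_of_injective (injective_subtype p)
    rw [LinearMap.ker_comp, LinearMap.ker_comp, map_comap_subtype, map_comap_subtype, h]
  have h2 := ((f ∘ₗ p.subtype).quotKerEquivRange.symm.trans
    ((quotEquivOfEq _ _ h1).trans (g ∘ₗ p.subtype).quotKerEquivRange)).rank_eq
  rwa [LinearMap.range_comp, LinearMap.range_comp, range_subtype] at h2

/-- The relative dimension. -/
noncomputable def rd (u w : Submodule F V) : Cardinal := Module.rank F ↥(w.map u.mkQ)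

theorem rd_congr (h : w ⊓ u = w ⊓ u') : rd u w = rd u' w :=
  rank_map_congr _ _ _ (by rwa [ker_mkQ, ker_mkQ])

theorem rd_sup (u w : Submodule F V) : rd u (u ⊔ w) = rd u w := by
  rw [rd, Submodule.map_sup, mkQ_map_self, bot_sup_eq, rd]

theorem rd_add (h₁ : u ≤ v) (h₂ : v ≤ w) : rd u w = rd u v + rd v w := by
  have := rank_map_add (factor h₁) (w.map u.mkQ)
  rw [← map_comp, factor_comp_mk, ker_mapQ, comap_id, inf_eq_right.2 (map_mono h₂)] at this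
  rw [rd, ← this, add_comm, rd, rd]

theorem rd_bot (w : Submodule F V) : rd ⊥ w = Module.rank F w :=
  rank_map_eq (LinearMap.ker_eq_bot.1 (ker_mkQ _)) w

theorem rd_top (u : Submodule F V) : rd u ⊤ = Module.rank F (V ⧸ u) := by
  rw [rd, Submodule.map_top, range_mkQ, rank_top]

theorem rd_eq_zero : rd u w = 0 ↔ w ≤ u := by
  rw [rd, Submodule.rank_eq_zero, ← le_bot_iff, map_le_iff_le_comap, comap_bot, ker_mkQ]

theorem rd_map (e : V ≃ₗ[F] V) (u w : Submodule F V) :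
    rd (u.map (e : V →ₗ[F] V)) (w.map (e : V →ₗ[F] V)) = rd u w := by
  rw [rd, ← map_comp]
  refine rank_map_congr _ _ _ ?_
  rw [LinearMap.ker_comp, ker_mkQ, ker_mkQ, comap_map_eq_of_injective e.injective]

theorem rd_split (h : u ≤ w) (M : Submodule F V) :
    rd u w = rd (u ⊓ M) (w ⊓ M) + rd (u ⊔ M) (w ⊔ M) := by
  rw [rd_add (v := u ⊔ w ⊓ M) le_sup_left (sup_le h inf_le_left), rd_sup]
  congr 1
  · refine rd_congr (le_antisymm ?_ (inf_le_inf_left _ inf_le_left))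
    exact le_inf inf_le_left (le_inf inf_le_right (inf_le_left.trans inf_le_right))
  · have h1 : w ⊔ M = u ⊔ M ⊔ w :=
      le_antisymm (sup_le le_sup_right (le_sup_right.trans le_sup_left))
        (sup_le (sup_le_sup_right h M) le_sup_left)
    rw [h1, rd_sup]
    refine rd_congr ?_
    rw [inf_comm w M, ← sup_inf_assoc_of_le M h, inf_comm _ w, ← inf_assoc, inf_idem]

theorem rank_inf (h : u ≤ w) (M : Submodule F V) :
    Module.rank F ↥(w ⊓ M) = Module.rank F ↥(u ⊓ M) + rd (u ⊓ M) (w ⊓ M) := by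
  rw [← rd_bot, ← rd_bot, rd_add bot_le (inf_le_inf_right M h)]

theorem rank_sup (h : u ≤ w) (M : Submodule F V) :
    Module.rank F (V ⧸ (u ⊔ M)) = rd (u ⊔ M) (w ⊔ M) + Module.rank F (V ⧸ (w ⊔ M)) := by
  rw [← rd_top, ← rd_top, rd_add (sup_le_sup_right h M) le_top]

end LatAux

namespace Setup

open LatAux Cardinal

variable {F V : Type} [Field F] [AddCommGroup V] [Module F V] {n : ℕ} (S : Setup F V n)

variable {u w l : Submodule F V}

/-- Translation as an order isomorphism. -/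
def trIso_lx (a : ℤ) : Submodule F V ≃o Submodule F V :=
  Submodule.orderIsoMapComap (S.t ^ a : V ≃ₗ[F] V)

theorem mem_tr {a : ℤ} {v : V} : v ∈ S.tr a u ↔ (S.t ^ (-a) : V ≃ₗ[F] V) v ∈ u := by
  rw [tr, Submodule.mem_map_equiv, zpow_neg]
  rfl

theorem tr_zero (u : Submodule F V) : S.tr 0 u = u := by
  ext v
  simp [mem_tr]

theorem tr_tr (a b : ℤ) (u : Submodule F V) : S.tr a (S.tr b u) = S.tr (a + b) u := by
  ext v
  rw [mem_tr, mem_tr, mem_tr, ← LinearEquiv.mul_apply, ← zpow_add, neg_add_rev]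

theorem tr_le_tr_iff (a : ℤ) : S.tr a u ≤ S.tr a w ↔ u ≤ w := (S.trIso_lx a).le_iff_le

theorem tr_lt_tr_iff (a : ℤ) : S.tr a u < S.tr a w ↔ u < w := (S.trIso_lx a).lt_iff_lt

theorem tr_inj (a : ℤ) : S.tr a u = S.tr a w ↔ u = w := (S.trIso_lx a).injective.eq_iff

theorem tr_sup (a : ℤ) (u w : Submodule F V) : S.tr a (u ⊔ w) = S.tr a u ⊔ S.tr a w :=
  (S.trIso_lx a).map_sup u w

theorem tr_inf (a : ℤ) (u w : Submodule F V) : S.tr a (u ⊓ w) = S.tr a u ⊓ S.tr a w :=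
  (S.trIso_lx a).map_inf u w

theorem tr_top (a : ℤ) : S.tr a ⊤ = ⊤ := (S.trIso_lx a).map_top

theorem tr_bot (a : ℤ) : S.tr a ⊥ = ⊥ := (S.trIso_lx a).map_bot

theorem tr_one_lx (u : Submodule F V) : S.tr 1 u = u.map (S.t : V →ₗ[F] V) := by
  rw [tr, zpow_one]

theorem tr_le_iff_lx (a : ℤ) : S.tr a u ≤ w ↔ u ≤ S.tr (-a) w := by
  rw [← S.tr_le_tr_iff (-a), tr_tr, neg_add_cancel, tr_zero]

theorem le_tr_iff_lx (a : ℤ) : u ≤ S.tr a w ↔ S.tr (-a) u ≤ w := by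
  rw [tr_le_iff_lx, neg_neg]

theorem tr_M_anti {a b : ℤ} (h : a ≤ b) : S.tr b S.M ≤ S.tr a S.M := by
  refine antitone_int_of_succ_le (f := fun a => S.tr a S.M) (fun c => ?_) h
  rw [← tr_tr, tr_le_tr_iff, tr_one_lx]
  exact S.tM

theorem exists_mem_tr_M (v : V) : ∃ a : ℕ, v ∈ S.tr (-a) S.M := by
  obtain ⟨a, ha⟩ := S.exhM v
  exact ⟨a, by rwa [mem_tr, neg_neg, zpow_natCast]⟩

theorem lat_L0 : S.Lat S.L0 :=
  ⟨by rw [tr_one_lx]; exact S.tL, 0, by simp [tr_zero], by simp [tr_zero]⟩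

variable {S}

theorem Lat.tr_mono (h : S.Lat u) {a b : ℤ} (hab : a ≤ b) : S.tr a u ≤ S.tr b u := by
  refine monotone_int_of_le_succ (f := fun a => S.tr a u) (fun c => ?_) hab
  rw [← tr_tr, tr_le_tr_iff]
  exact h.1

theorem lat_of_le_lx (h : u ≤ S.tr 1 u) {a b : ℤ} (h₁ : S.tr a S.L0 ≤ u) (h₂ : u ≤ S.tr b S.L0) :
    S.Lat u :=
  ⟨h, a.natAbs + b.natAbs, (S.lat_L0.tr_mono (by omega)).trans h₁,
    h₂.trans (S.lat_L0.tr_mono (by omega))⟩

theorem Lat.tr (h : S.Lat u) (a : ℤ) : S.Lat (S.tr a u) := by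
  obtain ⟨h1, b, h2, h3⟩ := h
  refine lat_of_le_lx (a := a + -b) (b := a + b) ?_ ?_ ?_
  · rwa [tr_tr, add_comm, ← tr_tr, tr_le_tr_iff]
  · rwa [← tr_tr, tr_le_tr_iff]
  · rwa [← tr_tr, tr_le_tr_iff]

theorem Lat.of_between (h : S.Lat l) (h₁ : l ≤ u) (h₂ : u ≤ S.tr 1 l) : S.Lat u := by
  obtain ⟨a, h2, -⟩ := h.2
  obtain ⟨b, -, h3⟩ := (h.tr 1).2
  exact lat_of_le_lx (h₂.trans ((S.tr_le_tr_iff 1).2 h₁)) (h2.trans h₁) (h₂.trans h3)

theorem Lat.exists_le_tr (hu : S.Lat u) (hw : S.Lat w) : ∃ a : ℕ, w ≤ S.tr a u := by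
  obtain ⟨a, h2, -⟩ := hu.2
  obtain ⟨b, -, h3⟩ := hw.2
  refine ⟨b + a, h3.trans ?_⟩
  rwa [Nat.cast_add, ← tr_tr, tr_le_tr_iff, le_tr_iff_lx]

theorem Lat.exists_mem_tr (hu : S.Lat u) (v : V) : ∃ a : ℕ, v ∈ S.tr a u := by
  obtain ⟨b, hb⟩ := S.exhL v
  obtain ⟨a, ha⟩ := hu.exists_le_tr (S.lat_L0.tr b)
  exact ⟨a, ha (by rwa [Setup.tr, zpow_natCast])⟩

theorem Lat.exists_inf_eq_bot (hu : S.Lat u) : ∃ a : ℕ, S.tr (-a) u ⊓ S.M = ⊥ := by
  obtain ⟨a, -, h⟩ := hu.2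
  exact ⟨a, le_bot_iff.1 ((inf_le_inf_right _ ((S.le_tr_iff_lx a).1 h)).trans S.compl.inf_eq_bot.le)⟩

theorem Lat.exists_sup_eq_top (hu : S.Lat u) : ∃ a : ℕ, S.tr a u ⊔ S.M = ⊤ := by
  obtain ⟨a, h, -⟩ := hu.2
  exact ⟨a, top_le_iff.1 (S.compl.sup_eq_top.ge.trans (sup_le_sup_right ((S.le_tr_iff_lx a).2 h) _))⟩

theorem rd_tr_lx (a : ℤ) (u w : Submodule F V) : rd (S.tr a u) (S.tr a w) = rd u w := rd_map _ u w

theorem rd_succ_lx (a : ℤ) : rd (S.tr a S.L0) (S.tr (a + 1) S.L0) = n := by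
  have h := S.fin
  have : Module.Finite F ↥(S.L0.map (S.t : V →ₗ[F] V) ⊓ S.M) :=
    Module.finite_of_finrank_pos (by rw [h]; exact S.pos)
  rw [← tr_tr, rd_tr_lx, rd_split S.lat_L0.1 S.M, S.compl.inf_eq_bot, S.compl.sup_eq_top,
    rd_eq_zero.2 le_top, add_zero, rd_bot, tr_one_lx, ← Module.finrank_eq_rank, h]

theorem rd_L0_lt_lx {a b : ℤ} (h : a ≤ b) : rd (S.tr a S.L0) (S.tr b S.L0) < ℵ₀ := by
  induction b, h using Int.leInduction with
  | base => rw [rd_eq_zero.2 le_rfl]; exact aleph0_pos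
  | succ b hb ih =>
    rw [rd_add (S.lat_L0.tr_mono hb) (S.lat_L0.tr_mono (Int.le_add_one le_rfl)), rd_succ_lx]
    exact add_lt_aleph0 ih natCast_lt_aleph0

theorem Lat.finite_inf (h : S.Lat u) : FiniteDimensional F ↥(u ⊓ S.M) := by
  obtain ⟨a, -, h2⟩ := h.2
  have h0 : S.tr 0 S.L0 ≤ S.tr a S.L0 := S.lat_L0.tr_mono (by omega)
  have h3 := rd_L0_lt_lx (S := S) (a := 0) (b := a) (by omega)
  rw [rd_split h0 S.M, tr_zero, S.compl.inf_eq_bot, rd_bot] at h3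
  exact Module.rank_lt_aleph0_iff.1 ((Submodule.rank_mono (inf_le_inf_right _ h2)).trans_lt
    (le_self_add.trans_lt h3))

theorem Lat.finite_quot (h : S.Lat u) : FiniteDimensional F (V ⧸ (u ⊔ S.M)) := by
  obtain ⟨a, h2, -⟩ := h.2
  have h0 : S.tr (-a) S.L0 ≤ S.tr 0 S.L0 := S.lat_L0.tr_mono (by omega)
  have h3 := rd_L0_lt_lx (S := S) (a := -a) (b := 0) (by omega)
  rw [rd_split h0 S.M, tr_zero, S.compl.sup_eq_top, rd_top, rank_sup h2] at h3
  exact Module.rank_lt_aleph0_iff.1 (le_add_self.trans_lt (le_add_self.trans_lt h3))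

theorem Lat.h0_eq_zero (h : S.Lat u) : S.h0 u = 0 ↔ u ⊓ S.M = ⊥ := by
  have := h.finite_inf
  exact Submodule.finrank_eq_zero

theorem Lat.h1_eq_zero (h : S.Lat u) : S.h1 u = 0 ↔ u ⊔ S.M = ⊤ := by
  have := h.finite_quot
  exact Module.finrank_zero_iff.trans Submodule.Quotient.subsingleton_iff

theorem Lat.h0_mono (hw : S.Lat w) (h : u ≤ w) : S.h0 u ≤ S.h0 w := by
  have := hw.finite_inf
  exact Submodule.finrank_mono (inf_le_inf_right _ h)

theorem Lat.h0_eq_lx (hw : S.Lat w) (h : u ≤ w) : rd (u ⊓ S.M) (w ⊓ S.M) < ℵ₀ ∧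
    S.h0 w = S.h0 u + toNat (rd (u ⊓ S.M) (w ⊓ S.M)) := by
  have h1 := Module.rank_lt_aleph0_iff.2 hw.finite_inf
  have h2 := rank_inf h S.M
  rw [h2, add_lt_aleph0_iff] at h1
  exact ⟨h1.2, by rw [h0, h0, Module.finrank, Module.finrank, h2, toNat_add h1.1 h1.2]⟩

theorem Lat.h1_eq_lx (hu : S.Lat u) (h : u ≤ w) : rd (u ⊔ S.M) (w ⊔ S.M) < ℵ₀ ∧
    S.h1 u = toNat (rd (u ⊔ S.M) (w ⊔ S.M)) + S.h1 w := by
  have h1 := Module.rank_lt_aleph0_iff.2 hu.finite_quot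
  have h2 := rank_sup h S.M
  rw [h2, add_lt_aleph0_iff] at h1
  exact ⟨h1.1, by rw [Setup.h1, Setup.h1, Module.finrank, Module.finrank, h2, toNat_add h1.1 h1.2]⟩

theorem Lat.h1_anti (hu : S.Lat u) (h : u ≤ w) : S.h1 w ≤ S.h1 u := by
  have := (hu.h1_eq_lx h).2
  omega

theorem Lat.inf_le_of_h0 (hw : S.Lat w) (h : u ≤ w) (h0 : S.h0 w ≤ S.h0 u) : w ⊓ S.M ≤ u := by
  have := hw.finite_inf
  exact (Submodule.eq_of_le_of_finrank_le (inf_le_inf_right _ h) h0).ge.trans inf_le_left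

theorem Lat.le_sup_of_h1 (hu : S.Lat u) (h : u ≤ w) (h1 : S.h1 u ≤ S.h1 w) : w ≤ u ⊔ S.M := by
  obtain ⟨h2, h3⟩ := hu.h1_eq_lx h
  have h4 : toNat (rd (u ⊔ S.M) (w ⊔ S.M)) = 0 := by omega
  exact le_sup_left.trans (rd_eq_zero.1 ((toNat_eq_zero.1 h4).resolve_right h2.not_ge))

/-- The relative dimension of two lattices is the difference of the Euler characteristics. -/
theorem Lat.finrank_map_mkQ (hu : S.Lat u) (hw : S.Lat w) (h : u ≤ w) :
    FiniteDimensional F ↥(w.map u.mkQ) ∧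
      (Module.finrank F ↥(w.map u.mkQ) : ℤ) = S.chi w - S.chi u := by
  obtain ⟨h1, h2⟩ := hw.h0_eq_lx h
  obtain ⟨h3, h4⟩ := hu.h1_eq_lx h
  have h5 : Module.rank F ↥(w.map u.mkQ) = _ := rd_split h S.M
  refine ⟨Module.rank_lt_aleph0_iff.1 (h5 ▸ add_lt_aleph0 h1 h3), ?_⟩
  rw [Module.finrank, h5, toNat_add h1 h3, chi, chi, h2, h4]
  push_cast
  ring

theorem Lat.toNat_rd_lx (hu : S.Lat u) (hw : S.Lat w) (h : u ≤ w) :
    (toNat (rd u w) : ℤ) = S.chi w - S.chi u := (hu.finrank_map_mkQ hw h).2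

theorem chi_L0 : S.chi S.L0 = 0 := by
  rw [chi, S.lat_L0.h0_eq_zero.2 S.compl.inf_eq_bot, S.lat_L0.h1_eq_zero.2 S.compl.sup_eq_top]
  rfl

theorem chi_tr_L0_lx (a : ℤ) : S.chi (S.tr a S.L0) = a * n := by
  have key : ∀ a : ℤ, S.chi (S.tr (a + 1) S.L0) = S.chi (S.tr a S.L0) + n := fun a => by
    have := (S.lat_L0.tr a).toNat_rd_lx (S.lat_L0.tr (a + 1)) (S.lat_L0.tr_mono (by omega))
    rw [rd_succ_lx, toNat_natCast] at this
    omega
  induction a using Int.induction_on with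
  | zero => rw [tr_zero, chi_L0, zero_mul]
  | succ a ih => rw [key, ih]; ring
  | pred a ih =>
    have := key (-a - 1)
    rw [sub_add_cancel, ih] at this
    linarith

theorem Lat.chi_tr (h : S.Lat u) (a : ℤ) : S.chi (S.tr a u) = S.chi u + a * n := by
  obtain ⟨b, -, h2⟩ := h.2
  have h3 := h.toNat_rd_lx (S.lat_L0.tr b) h2
  have h4 := (h.tr a).toNat_rd_lx ((S.lat_L0.tr b).tr a) ((S.tr_le_tr_iff a).2 h2)
  rw [rd_tr_lx, h3, tr_tr, chi_tr_L0_lx, chi_tr_L0_lx] at h4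
  linarith

theorem Lat.chi_mono (hu : S.Lat u) (hw : S.Lat w) (h : u ≤ w) : S.chi u ≤ S.chi w := by
  have := hu.toNat_rd_lx hw h
  omega

theorem Lat.chi_lt (hu : S.Lat u) (hw : S.Lat w) (h : u < w) : S.chi u < S.chi w := by
  obtain ⟨h1, h2⟩ := hu.finrank_map_mkQ hw h.le
  have h3 : Module.finrank F ↥(w.map u.mkQ) ≠ 0 := fun h0 => h.not_ge (by
    rwa [Submodule.finrank_eq_zero, ← le_bot_iff, Submodule.map_le_iff_le_comap,
      Submodule.comap_bot, Submodule.ker_mkQ] at h0)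
  omega

theorem Lat.chi_sup_span (hu : S.Lat u) {v : V} (hv : v ∉ u) (hv' : v ∈ S.tr 1 u) :
    S.chi (u ⊔ Submodule.span F {v}) = S.chi u + 1 := by
  have h1 : S.Lat (u ⊔ Submodule.span F {v}) := hu.of_between le_sup_left
    (sup_le hu.1 ((Submodule.span_singleton_le_iff_mem _ _).2 hv'))
  have h2 := (hu.finrank_map_mkQ h1 le_sup_left).2
  rw [Submodule.map_sup, Submodule.mkQ_map_self, bot_sup_eq, Submodule.map_span,
    Set.image_singleton, finrank_span_singleton (by simpa using hv)] at h2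
  omega

theorem Lat.finite_pts (h : S.Lat u) : (S.Pts u).Finite := by
  obtain ⟨a, ha⟩ := h.exists_inf_eq_bot
  obtain ⟨b, hb⟩ := h.exists_sup_eq_top
  refine ((Set.finite_Icc (-a : ℤ) b).image
    fun c => (S.h0 (S.tr c u), S.h1 (S.tr c u))).subset ?_
  rintro _ ⟨h1, h2, c, rfl⟩
  refine ⟨c, ⟨le_of_not_ge fun hc => ?_, le_of_not_ge fun hc => ?_⟩, rfl⟩
  · have := (h.tr _).h0_mono (h.tr_mono hc)
    rw [(h.tr _).h0_eq_zero.2 ha] at this
    exact absurd (h1.trans this) (by simp)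
  · have := (h.tr _).h1_anti (h.tr_mono hc)
    rw [(h.tr _).h1_eq_zero.2 hb] at this
    exact absurd (h2.trans this) (by simp)

theorem pts_tr (a : ℤ) (u : Submodule F V) : S.Pts (S.tr a u) = S.Pts u := by
  ext x
  refine and_congr_right fun _ => and_congr_right fun _ => ⟨?_, ?_⟩
  · rintro ⟨b, hb⟩
    exact ⟨b + a, by rwa [tr_tr] at hb⟩
  · rintro ⟨b, hb⟩
    exact ⟨b - a, by rwa [tr_tr, sub_add_cancel]⟩

theorem Lat.pts_eq_empty (h : S.Lat u) :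
    S.Pts u = ∅ ↔ ∀ a : ℤ, S.tr a u ⊓ S.M = ⊥ ∨ S.tr a u ⊔ S.M = ⊤ := by
  rw [Set.eq_empty_iff_forall_notMem]
  refine ⟨fun hx a => ?_, ?_⟩
  · rw [← (h.tr a).h0_eq_zero, ← (h.tr a).h1_eq_zero]
    by_contra hc
    exact hx _ ⟨by omega, by omega, a, rfl⟩
  · rintro hx _ ⟨h1, h2, a, rfl⟩
    have := hx a
    rw [← (h.tr a).h0_eq_zero, ← (h.tr a).h1_eq_zero] at this
    dsimp only at h1 h2
    omega

theorem Lat.chi_nm_lx (h : S.Lat u) : S.chi (S.nm u) = S.chi u % n := by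
  rw [nm, h.chi_tr, Int.emod_def]
  ring

theorem Lat.vert_nm (h : S.Lat u) : S.Vert (S.nm u) := by
  have := S.pos
  refine ⟨h.tr _, ?_⟩
  rw [h.chi_nm_lx]
  exact ⟨Int.emod_nonneg _ (by omega), Int.emod_lt_of_pos _ (by omega)⟩

theorem Vert.nm_tr (h : S.Vert u) (a : ℤ) : S.nm (S.tr a u) = u := by
  have := S.pos
  rw [nm, h.1.chi_tr, Int.add_mul_ediv_right _ _ (by omega), Int.ediv_eq_zero_of_lt h.2.1 h.2.2,
    zero_add, tr_tr, neg_add_cancel, tr_zero]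

theorem Vert.ty_eq (h : S.Vert u) : ((S.ty u : ℕ) : ℤ) = S.chi u := by
  obtain ⟨-, h1, h2⟩ := h
  change (((S.chi u).toNat % n : ℕ) : ℤ) = _
  rw [Nat.mod_eq_of_lt (by omega)]
  omega

theorem Lat.ty_nm (h : S.Lat u) : ((S.ty (S.nm u) : ℕ) : ℤ) = S.chi u % n := by
  rw [h.vert_nm.ty_eq, h.chi_nm_lx]

theorem Comp.symm (h : S.Comp u w) : S.Comp w u := fun a => by
  rw [tr_le_iff_lx, S.le_tr_iff_lx a]
  exact (h (-a)).symm

theorem comp_tr_left (a : ℤ) : S.Comp (S.tr a u) w ↔ S.Comp u w :=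
  ⟨fun h b => by simpa only [tr_tr, sub_add_cancel] using h (b - a),
    fun h b => by simpa only [tr_tr] using h (b + a)⟩

theorem comp_tr_right (a : ℤ) : S.Comp u (S.tr a w) ↔ S.Comp u w :=
  ⟨fun h => ((comp_tr_left a).1 h.symm).symm, fun h => ((comp_tr_left a).2 h.symm).symm⟩

theorem Lat.comp_of_le (hu : S.Lat u) (h₁ : u ≤ w) (h₂ : w ≤ S.tr 1 u) : S.Comp u w := by
  intro a
  rcases le_or_gt a 0 with ha | ha
  · exact Or.inl (((hu.tr_mono ha).trans (S.tr_zero u).le).trans h₁)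
  · exact Or.inr (h₂.trans (hu.tr_mono ha))

theorem Lat.comp_self (hu : S.Lat u) : S.Comp u u := hu.comp_of_le le_rfl hu.1

theorem Comp.le_of_chi (h : S.Comp u w) (hu : S.Lat u) (hw : S.Lat w) (hc : S.chi u ≤ S.chi w) :
    u ≤ w := by
  have := h 0
  rw [tr_zero] at this
  exact this.elim id fun h' => h'.eq_or_lt.elim (fun e => e.ge)
    fun h'' => absurd (hw.chi_lt hu h'') hc.not_gt

theorem Comp.eq_of_chi_lx (h : S.Comp u w) (hu : S.Lat u) (hw : S.Lat w) (hc : S.chi u = S.chi w) :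
    u = w :=
  le_antisymm (h.le_of_chi hu hw hc.le) (h.symm.le_of_chi hw hu hc.ge)

theorem Comp.disjoint_pts (h : S.Comp u w) (hu : S.Vert u) (hw : S.Vert w) (hne : u ≠ w) :
    Disjoint (S.Pts u) (S.Pts w) := by
  refine Set.disjoint_left.2 ?_
  rintro _ ⟨-, -, a, rfl⟩ ⟨-, -, b, hb⟩
  rw [Prod.mk.injEq] at hb
  have h1 : S.tr a u = S.tr b w := ((comp_tr_left a).2 ((comp_tr_right b).2 h)).eq_of_chi_lx
    (hu.1.tr a) (hw.1.tr b) (by rw [chi, chi, hb.1, hb.2])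
  exact hne (by rw [← hu.nm_tr a, h1, hw.nm_tr])

theorem down_B : Down S.B := fun _ h _ hτ =>
  ⟨fun u hu => h.1 u (hτ hu), fun u hu w hw => h.2 u (hτ hu) w (hτ hw)⟩

theorem injOn_ty {σ : Finset (Submodule F V)} (h : σ ∈ S.B) : Set.InjOn S.ty σ :=
  fun u hu w hw huw => (h.2 u hu w hw).eq_of_chi_lx (h.1 u hu).1 (h.1 w hw).1
    (by rw [← (h.1 u hu).ty_eq, ← (h.1 w hw).ty_eq, huw])

end Setup

end Crest.Agent.R66
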