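import Crest.Agent.R66.GeoB

set_option autoImplicit false

namespace Crest.Agent.R66

open Finset

namespace Geo

variable {n : ℕ} {V : Type} [DecidableEq V] [Fintype V] (X : Geo n V)

/-- A cochain on the faces with `a` vertices is minimal at `σ`. -/
def MinAt (g : Finset V → F2) (a : ℕ) (σ : Finset V) : Prop :=
  ∀ h : Finset V → F2, (∀ ρ, h ρ ≠ 0 → σ ⊆ ρ) → X.W g a ≤ X.W (g + cob h) a

namespace Loc

open scoped Pointwise

variable {X} {G : Type} [Group G] [MulAction G V]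

omit [Fintype V] in
theorem smul_erase (γ : G) (τ : Finset V) (v : V) : γ • τ.erase v = (γ • τ).erase (γ • v) :=
  Finset.image_erase (MulAction.injective γ) τ v

omit [Fintype V] in
theorem cob_smul (γ : G) (f : Finset V → F2) (τ : Finset V) :
    cob (fun ρ => f (γ • ρ)) τ = cob f (γ • τ) := by
  unfold cob
  rw [Finset.smul_finset_def (a := γ) (s := τ), Finset.sum_image fun x _ y _ h => MulAction.injective γ h]
  exact Finset.sum_congr rfl fun v _ => congrArg f (smul_erase γ τ v)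

theorem smul_mem_ch (hT : X.Trans G) (γ : G) {c : Finset V} (hc : c ∈ X.ch) : γ • c ∈ X.ch :=
  hT.image_mem_ch γ hc

theorem sum_ch_smul (hT : X.Trans G) (γ : G) (p : Finset V → Prop) [DecidablePred p]
    (hp : ∀ c, p (γ • c) ↔ p c) (F : Finset V → ℕ) :
    ∑ c ∈ X.ch.filter p, F (γ • c) = ∑ c ∈ X.ch.filter p, F c := by
  refine Finset.sum_bij' (fun c _ => γ • c) (fun c _ => γ⁻¹ • c) ?_ ?_ ?_ ?_ ?_
  · intro c hc
    rw [mem_filter] at hc ⊢
    exact ⟨smul_mem_ch hT γ hc.1, (hp c).2 hc.2⟩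
  · intro c hc
    rw [mem_filter] at hc ⊢
    exact ⟨smul_mem_ch hT γ⁻¹ hc.1, (hp _).1 (by rw [smul_inv_smul]; exact hc.2)⟩
  · intro c _; exact inv_smul_smul γ c
  · intro c _; exact smul_inv_smul γ c
  · intro c _; rfl

omit [Fintype V] in
theorem card_filter_smul (γ : G) (a : ℕ) (c : Finset V) (P : Finset V → Prop) [DecidablePred P] :
    ((c.powersetCard a).filter fun τ => P (γ • τ)).card =
      (((γ • c).powersetCard a).filter P).card := by
  refine Finset.card_bij' (fun c _ => γ • c) (fun c _ => γ⁻¹ • c) ?_ ?_ ?_ ?_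
  · intro τ h
    simp only [mem_filter, mem_powersetCard] at h ⊢
    exact ⟨⟨Finset.smul_finset_subset_smul_finset h.1.1, by
      rw [Finset.card_smul_finset]; exact h.1.2⟩, h.2⟩
  · intro τ h
    simp only [mem_filter, mem_powersetCard] at h ⊢
    refine ⟨⟨?_, by rw [Finset.card_smul_finset]; exact h.1.2⟩, by
      rw [smul_inv_smul]; exact h.2⟩
    have := Finset.smul_finset_subset_smul_finset (a := γ⁻¹) h.1.1
    rwa [inv_smul_smul] at this
  · intro c _; exact inv_smul_smul γ c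
  · intro c _; exact smul_inv_smul γ c

theorem W_smul (hT : X.Trans G) (γ : G) (f : Finset V → F2) (a : ℕ) :
    X.W (fun ρ => f (γ • ρ)) a = X.W f a := by
  unfold W
  have := sum_ch_smul hT γ (fun _ => True) (fun _ => Iff.rfl)
    fun c => ((c.powersetCard a).filter fun σ => f σ ≠ 0).card
  rw [filter_true] at this
  rw [← this]
  exact Finset.sum_congr rfl fun c _ => card_filter_smul γ a c fun σ => f σ ≠ 0

theorem minAt_smul (hT : X.Trans G) {γ : G} {σ : Finset V} (hγ : γ • σ = σ)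
    {g : Finset V → F2} {a : ℕ} (h : X.MinAt g a σ) : X.MinAt (fun ρ => g (γ • ρ)) a σ := by
  intro k hk
  have h1 := h (fun ρ => k (γ⁻¹ • ρ)) fun ρ hρ => by
    have := Finset.smul_finset_subset_smul_finset (a := γ) (hk _ hρ)
    rwa [hγ, smul_inv_smul] at this
  rw [← W_smul hT γ g, ← W_smul hT γ (g + _)] at h1
  convert h1 using 2
  funext τ
  simp only [Pi.add_apply]
  rw [cob_smul, inv_smul_smul]

omit [Fintype V] [DecidableEq V] in
theorem exists_of_lin_ne {f : Finset V → F2} {x : Ch V}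
    (h : Finsupp.linearCombination F2 f x ≠ 0) : ∃ T ∈ x.support, f T ≠ 0 := by
  by_contra hc
  push Not at hc
  apply h
  rw [Finsupp.linearCombination_apply, Finsupp.sum]
  exact Finset.sum_eq_zero fun T hT => by rw [hc T hT, smul_zero]

omit [Fintype V] [DecidableEq V] in
theorem lin_congr {f f' : Finset V → F2} {x : Ch V} (h : ∀ T ∈ x.support, f T = f' T) :
    Finsupp.linearCombination F2 f x = Finsupp.linearCombination F2 f' x := by
  rw [Finsupp.linearCombination_apply, Finsupp.linearCombination_apply, Finsupp.sum, Finsupp.sum]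
  exact Finset.sum_congr rfl fun T hT => by rw [h T hT]

/-- The inequality for one contraction. -/
theorem core {a : ℕ} {g : Finset V → F2} (hg : ∀ τ ∈ X.K, τ.card = a + 1 → cob g τ = 0)
    {σ : Finset V} (hmin : X.MinAt g a σ) {h : Finset V → Ch V}
    (hh : ∀ ρ ∈ lk X.K σ, ρ.card + σ.card = a → h ρ ∈ Cb (lk X.K σ) (ρ.card + 1) ∧
      bd (h ρ) + Finsupp.linearCombination F2 h (bd (Finsupp.single ρ 1)) = Finsupp.single ρ 1) :
    ∑ c ∈ X.ch.filter (σ ⊆ ·), ((c.powersetCard a).filter fun τ => σ ⊆ τ ∧ g τ ≠ 0).card ≤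
      ∑ c ∈ X.ch.filter (σ ⊆ ·), ∑ τ ∈ (c.powersetCard a).filter (σ ⊆ ·),
        ∑ T ∈ (h (τ \ σ)).support, ∑ v ∈ σ, if g ((T ∪ σ).erase v) ≠ 0 then 1 else 0 := by
  set H : Finset V → F2 := fun ρ =>
    if σ ⊆ ρ then Finsupp.linearCombination F2 (fun T => g (T ∪ σ)) (h (ρ \ σ)) else 0 with hH
  have h1 := hmin H fun ρ hρ => by
    by_contra hc
    exact hρ (if_neg hc)
  have hoff : ∀ τ, ¬ σ ⊆ τ → (g + cob H) τ = g τ := by
    intro τ hτ
    rw [Pi.add_apply, cob, Finset.sum_eq_zero, add_zero]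
    intro v _
    exact if_neg fun hc => hτ (hc.trans (erase_subset _ _))
  have split : ∀ f : Finset V → F2, X.W f a =
      ∑ c ∈ X.ch.filter (σ ⊆ ·), ((c.powersetCard a).filter fun τ => σ ⊆ τ ∧ f τ ≠ 0).card +
      ∑ c ∈ X.ch, ((c.powersetCard a).filter fun τ => ¬ σ ⊆ τ ∧ f τ ≠ 0).card := by
    intro f
    rw [sum_filter, ← sum_add_distrib]
    refine Finset.sum_congr rfl fun c _ => ?_
    rw [← card_filter_add_card_filter_not (s := (c.powersetCard a).filter fun σ => f σ ≠ 0)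
      (fun τ => σ ⊆ τ), filter_filter, filter_filter]
    congr 1
    · split_ifs with hc
      · exact congrArg _ (filter_congr fun τ _ => and_comm)
      · rw [card_eq_zero, filter_eq_empty_iff]
        intro τ hτ h'
        exact hc (h'.2.trans (mem_powersetCard.1 hτ).1)
    · exact congrArg _ (filter_congr fun τ _ => and_comm)
  rw [split g, split (g + cob H)] at h1
  have e2 : ∑ c ∈ X.ch, ((c.powersetCard a).filter fun τ => ¬ σ ⊆ τ ∧ (g + cob H) τ ≠ 0).card =
      ∑ c ∈ X.ch, ((c.powersetCard a).filter fun τ => ¬ σ ⊆ τ ∧ g τ ≠ 0).card :=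
    Finset.sum_congr rfl fun c _ => congrArg _ (filter_congr fun τ _ =>
      and_congr_right fun hτ => by rw [hoff τ hτ])
  rw [e2] at h1
  refine (Nat.le_of_add_le_add_right h1).trans (Finset.sum_le_sum fun c hc => ?_)
  rw [← filter_filter, card_filter]
  refine Finset.sum_le_sum fun τ hτ => ?_
  split_ifs with hne
  swap
  · exact Nat.zero_le _
  rw [mem_filter, mem_powersetCard] at hτ
  obtain ⟨⟨hτc, hτa⟩, hστ⟩ := hτ
  have hτK : τ ∈ X.K := X.down c ((X.mem_ch).1 (mem_filter.1 hc).1).1 τ hτc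
  have hρ : τ \ σ ∈ lk X.K σ := ⟨sdiff_disjoint, by rwa [sdiff_union_of_subset hστ]⟩
  have hcard : (τ \ σ).card + σ.card = a := by rw [card_sdiff_add_card_eq_card hστ, hτa]
  obtain ⟨hb, hid⟩ := hh _ hρ hcard
  have key : (g + cob H) τ = Finsupp.linearCombination F2
      (fun T => ∑ v ∈ σ, g ((T ∪ σ).erase v)) (h (τ \ σ)) := by
    have e := congrArg (Finsupp.linearCombination F2 fun T => g (T ∪ σ)) hid
    rw [map_add, pair_bd, bd_single, map_sum, map_sum, Finsupp.linearCombination_single, one_smul,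
      sdiff_union_of_subset hστ] at e
    have e3 : cob H τ = ∑ v ∈ τ \ σ, Finsupp.linearCombination F2 (fun T => g (T ∪ σ))
        (Finsupp.linearCombination F2 h (Finsupp.single ((τ \ σ).erase v) 1)) := by
      rw [cob, ← Finset.sum_subset (sdiff_subset (s := τ) (t := σ))]
      · refine Finset.sum_congr rfl fun v hv => ?_
        rw [Finsupp.linearCombination_single, one_smul, hH]
        simp only
        rw [if_pos (subset_erase.2 ⟨hστ, (mem_sdiff.1 hv).2⟩), erase_sdiff_comm]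
      · intro v hv hv'
        have hvσ : v ∈ σ := by
          by_contra hc
          exact hv' (mem_sdiff.2 ⟨hv, hc⟩)
        exact if_neg fun hc => notMem_erase v τ (hc hvσ)
    rw [Pi.add_apply, e3, ← e, add_assoc, CharTwo.add_self_eq_zero, add_zero]
    refine lin_congr fun T hT => ?_
    obtain ⟨⟨hd, hK⟩, hc⟩ := mem_Cb.1 hb T hT
    have h0 := hg _ hK (by rw [card_union_of_disjoint hd, hc]; omega)
    rw [cob, sum_union hd, CharTwo.add_eq_zero] at h0
    rw [← h0, cob]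
    refine Finset.sum_congr rfl fun v hv => ?_
    rw [erase_union_distrib, erase_eq_of_notMem (disjoint_left.1 hd hv)]
  rw [key] at hne
  obtain ⟨T, hT, hT'⟩ := exists_of_lin_ne hne
  obtain ⟨v, hv, hv'⟩ := Finset.exists_ne_zero_of_sum_ne_zero hT'
  refine le_trans ?_ (Finset.single_le_sum (fun _ _ => Nat.zero_le _) hT)
  refine le_trans ?_ (Finset.single_le_sum (f := fun v => if g ((T ∪ σ).erase v) ≠ 0 then 1 else 0)
    (fun _ _ => Nat.zero_le _) hv)
  rw [if_pos hv']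

end Loc

open scoped Pointwise in
/-- The local inequality for locally minimal cocycles. -/
theorem local_ineq {G : Type} [Group G] [Fintype G] [MulAction G V] (hT : X.Trans G) {R : ℕ}
    (hR : X.Cones R) {a : ℕ} (ha : a < n) {g : Finset V → F2}
    (hg : ∀ τ ∈ X.K, τ.card = a + 1 → cob g τ = 0) {σ : Finset V} (hσ : σ ∈ X.K)
    (hne : σ.Nonempty) (hmin : X.MinAt g a σ) :
    ∑ c ∈ X.ch.filter (σ ⊆ ·), ((c.powersetCard a).filter fun τ => σ ⊆ τ ∧ g τ ≠ 0).card ≤
      2 ^ n * R * ∑ c ∈ X.ch.filter (σ ⊆ ·), ∑ v ∈ σ,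
        ((c.powersetCard a).filter fun τ => σ.erase v ⊆ τ ∧ v ∉ τ ∧ g τ ≠ 0).card := by
  obtain ⟨h, hh⟩ := hR σ hσ hne
  set S : Finset G := univ.filter fun γ => ∀ v ∈ σ, γ • v = v with hS
  have memS : ∀ γ, γ ∈ S ↔ ∀ v ∈ σ, γ • v = v := fun γ => by simp [hS]
  have fixS : ∀ γ ∈ S, γ • σ = σ := fun γ hγ => by
    rw [Finset.smul_finset_def]
    exact (Finset.image_congr fun v hv => (memS γ).1 hγ v hv).trans image_id
  have subS : ∀ γ ∈ S, ∀ c : Finset V, σ ⊆ γ • c ↔ σ ⊆ c := fun γ hγ c => by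
    conv_lhs => rw [← fixS γ hγ]
    exact Finset.smul_finset_subset_smul_finset_iff
  set N : Finset V → ℕ := fun c => ∑ v ∈ σ,
    ((c.powersetCard a).filter fun τ => σ.erase v ⊆ τ ∧ v ∉ τ ∧ g τ ≠ 0).card with hN
  -- the stabiliser is transitive on the chambers over `σ`
  have hconst : ∀ c ∈ X.ch.filter (σ ⊆ ·), ∀ c' ∈ X.ch.filter (σ ⊆ ·),
      ∑ γ ∈ S, N (γ • c') = ∑ γ ∈ S, N (γ • c) := by
    intro c hc c' hc'
    rw [mem_filter, X.mem_ch] at hc hc'
    obtain ⟨γ₀, h0⟩ := hT.trans c hc.1.1 c' hc'.1.1 hc.1.2 hc'.1.2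
    have h0' : γ₀ • c = c' := h0
    have hγ₀ : ∀ v ∈ σ, γ₀ • v = v := fun v hv =>
      X.inj c' hc'.1.1 (by rw [← h0']; exact Finset.smul_mem_smul_finset (hc.2 hv)) (hc'.2 hv)
        (hT.ty_smul γ₀ v (X.down σ hσ _ (singleton_subset_iff.2 hv)))
    refine Finset.sum_bij' (fun γ _ => γ * γ₀) (fun γ _ => γ * γ₀⁻¹) ?_ ?_ ?_ ?_ ?_
    · intro γ hγ
      rw [memS] at hγ ⊢
      intro v hv
      rw [mul_smul, hγ₀ v hv, hγ v hv]
    · intro γ hγ
      rw [memS] at hγ ⊢
      intro v hv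
      rw [mul_smul, inv_smul_eq_iff.2 (hγ₀ v hv).symm, hγ v hv]
    · intro γ _; simp
    · intro γ _; simp
    · intro γ _; rw [mul_smul, h0']
  have hSpos : 0 < S.card := card_pos.2 ⟨1, (memS 1).2 fun v _ => one_smul G v⟩
  refine Nat.le_of_mul_le_mul_left ?_ hSpos
  have step1 : S.card *
      ∑ c ∈ X.ch.filter (σ ⊆ ·), ((c.powersetCard a).filter fun τ => σ ⊆ τ ∧ g τ ≠ 0).card ≤
      ∑ γ ∈ S, ∑ c ∈ X.ch.filter (σ ⊆ ·), ∑ τ ∈ (c.powersetCard a).filter (σ ⊆ ·),
        ∑ T ∈ (h (τ \ σ)).support, ∑ v ∈ σ, if g (γ • (T ∪ σ).erase v) ≠ 0 then 1 else 0 := by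
    rw [← smul_eq_mul, ← sum_const]
    refine Finset.sum_le_sum fun γ hγ => ?_
    refine le_trans (le_of_eq ?_) (Loc.core (g := fun ρ => g (γ • ρ)) (fun τ hτ hc => ?_)
      (Loc.minAt_smul hT (fixS γ hγ) hmin) (h := h) fun ρ hρ hc => ?_)
    · rw [← Loc.sum_ch_smul hT γ (σ ⊆ ·) (subS γ hγ)]
      refine Finset.sum_congr rfl fun c _ => ?_
      rw [← Loc.card_filter_smul γ a c]
      exact congrArg _ (filter_congr fun τ _ => and_congr_left' (subS γ hγ τ))
    · rw [Loc.cob_smul]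
      exact hg _ (hT.inv γ τ hτ) (by rw [Finset.card_smul_finset]; exact hc)
    · exact ⟨(hh ρ hρ (by omega)).1, (hh ρ hρ (by omega)).2.2⟩
  have step3 : S.card * (2 ^ n * R * ∑ c ∈ X.ch.filter (σ ⊆ ·), N c) =
      ∑ c ∈ X.ch.filter (σ ⊆ ·), 2 ^ n * (R * ∑ γ ∈ S, N (γ • c)) := by
    rw [← mul_sum, ← mul_sum, sum_comm (t := S),
      Finset.sum_congr rfl fun γ hγ => Loc.sum_ch_smul hT γ (σ ⊆ ·) (subS γ hγ) N, sum_const,
      smul_eq_mul]
    ring
  refine step1.trans ?_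
  rw [step3, sum_comm]
  refine Finset.sum_le_sum fun c hc => ?_
  have hcK := (X.mem_ch).1 (mem_filter.1 hc).1
  rw [sum_comm]
  refine (Finset.sum_le_card_nsmul _ _ (R * ∑ γ ∈ S, N (γ • c)) fun τ hτ => ?_).trans ?_
  swap
  · rw [smul_eq_mul]
    refine Nat.mul_le_mul_right _ ((card_filter_le _ _).trans ?_)
    rw [card_powersetCard, hcK.2]
    exact Nat.choose_le_two_pow n a
  rw [mem_filter, mem_powersetCard] at hτ
  obtain ⟨⟨hτc, hτa⟩, hστ⟩ := hτ
  have hτK : τ ∈ X.K := X.down c hcK.1 τ hτc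
  have hρ : τ \ σ ∈ lk X.K σ := ⟨sdiff_disjoint, by rwa [sdiff_union_of_subset hστ]⟩
  have hcard : (τ \ σ).card + σ.card = a := by rw [card_sdiff_add_card_eq_card hστ, hτa]
  obtain ⟨hb, hsz, -⟩ := hh _ hρ (by omega)
  rw [sum_comm]
  refine (Finset.sum_le_card_nsmul _ _ (∑ γ ∈ S, N (γ • c)) fun T hT' => ?_).trans ?_
  swap
  · rw [smul_eq_mul]; exact Nat.mul_le_mul_right _ hsz
  obtain ⟨⟨hd, hK⟩, hcT⟩ := mem_Cb.1 hb T hT'
  obtain ⟨c', hc'K, hsub, hc'n⟩ := X.pure _ hK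
  rw [← hconst c hc c' (mem_filter.2 ⟨(X.mem_ch).2 ⟨hc'K, hc'n⟩, subset_union_right.trans hsub⟩)]
  refine Finset.sum_le_sum fun γ hγ => Finset.sum_le_sum fun v hv => ?_
  split_ifs with hgv
  swap
  · exact Nat.zero_le _
  refine card_pos.2 ⟨γ • (T ∪ σ).erase v, mem_filter.2 ⟨mem_powersetCard.2 ⟨
    Finset.smul_finset_subset_smul_finset ((erase_subset _ _).trans hsub), ?_⟩, ?_, ?_, hgv⟩⟩
  · rw [Finset.card_smul_finset, card_erase_of_mem (mem_union_right _ hv),
      card_union_of_disjoint hd, hcT]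
    omega
  · rw [Loc.smul_erase, (memS γ).1 hγ v hv]
    exact erase_subset_erase _ ((subS γ hγ _).2 subset_union_right)
  · rw [Loc.smul_erase, (memS γ).1 hγ v hv]
    exact notMem_erase _ _

end Geo

end Crest.Agent.R66
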