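import Crest.Agent.R66.Chain

/-! Row 66: covering type maps of complexes (auxiliary file for `Quot.lean`). -/

set_option autoImplicit false
set_option linter.unusedSectionVars false

namespace Crest.Agent.R66.Quot

open Finset

section push

variable {V V' : Type} [DecidableEq V] [DecidableEq V'] (π : V → V')

/-- Pushing chains forward. -/
noncomputable def push : Ch V →ₗ[F2] Ch V' := Finsupp.lmapDomain F2 F2 fun σ => σ.image π

theorem push_single (σ : Finset V) (r : F2) :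
    push π (Finsupp.single σ r) = Finsupp.single (σ.image π) r := by
  simp [push]

theorem card_support_push (x : Ch V) : (push π x).support.card ≤ x.support.card :=
  le_trans (Finset.card_le_card Finsupp.mapDomain_support) Finset.card_image_le

variable {π}

theorem image_erase_of_injOn {σ : Finset V} (h : Set.InjOn π σ) {v : V} (hv : v ∈ σ) :
    (σ.erase v).image π = (σ.image π).erase (π v) := by
  ext w
  simp only [Finset.mem_image, Finset.mem_erase]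
  constructor
  · rintro ⟨u, ⟨hu, hu'⟩, rfl⟩
    exact ⟨fun e => hu (h hu' hv e), u, hu', rfl⟩
  · rintro ⟨hw, u, hu, rfl⟩
    exact ⟨u, ⟨fun e => hw (by rw [e]), hu⟩, rfl⟩

theorem sum_image_erase {M : Type} [AddCommMonoid M] {σ : Finset V} (h : Set.InjOn π σ)
    (F : Finset V' → M) :
    ∑ w ∈ σ.image π, F ((σ.image π).erase w) = ∑ v ∈ σ, F ((σ.erase v).image π) := by
  rw [Finset.sum_image h]
  exact Finset.sum_congr rfl fun v hv => by rw [image_erase_of_injOn h hv]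

theorem bd_push_single {σ : Finset V} (h : Set.InjOn π σ) :
    bd (Finsupp.single (σ.image π) (1 : F2)) = push π (bd (Finsupp.single σ 1)) := by
  rw [bd_single, bd_single, map_sum,
    sum_image_erase h (fun τ => Finsupp.single τ (1 : F2))]
  exact Finset.sum_congr rfl fun v _ => (push_single π _ _).symm

theorem Cb_eq_span (K : Set (Finset V)) (b : ℕ) : Cb K b =
    Submodule.span F2 ((fun σ => Finsupp.single σ (1 : F2)) '' {σ | σ ∈ K ∧ σ.card = b}) :=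
  Finsupp.supported_eq_span_single F2 _

theorem bd_push {K : Set (Finset V)} (hK : ∀ σ ∈ K, Set.InjOn π σ) {b : ℕ} {x : Ch V}
    (hx : x ∈ Cb K b) : bd (push π x) = push π (bd x) := by
  rw [Cb_eq_span] at hx
  refine LinearMap.eqOn_span (f := bd ∘ₗ push π) (g := push π ∘ₗ bd) ?_ hx
  rintro _ ⟨σ, hσ, rfl⟩
  show bd (push π (Finsupp.single σ 1)) = push π (bd (Finsupp.single σ 1))
  rw [push_single, bd_push_single (hK σ hσ.1)]

theorem push_mem_Cb {K : Set (Finset V)} {K' : Set (Finset V')} (hK : ∀ σ ∈ K, Set.InjOn π σ)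
    (hK' : ∀ σ ∈ K, σ.image π ∈ K') {b : ℕ} {x : Ch V} (hx : x ∈ Cb K b) :
    push π x ∈ Cb K' b := by
  rw [Cb_eq_span] at hx
  have : Submodule.span F2 ((fun σ => Finsupp.single σ (1 : F2)) '' {σ | σ ∈ K ∧ σ.card = b}) ≤
      (Cb K' b).comap (push π) := by
    rw [Submodule.span_le]
    rintro _ ⟨σ, hσ, rfl⟩
    show push π (Finsupp.single σ 1) ∈ Cb K' b
    rw [push_single]
    exact single_mem_Cb (hK' σ hσ.1) ((Finset.card_image_of_injOn (hK σ hσ.1)).trans hσ.2)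
  exact this hx

theorem exists_push_eq {K : Set (Finset V)} {K' : Set (Finset V')} (hK : ∀ σ ∈ K, Set.InjOn π σ)
    (hK' : ∀ σ' ∈ K', ∃ σ ∈ K, σ.image π = σ') {b : ℕ} {x' : Ch V'} (hx : x' ∈ Cb K' b) :
    ∃ x ∈ Cb K b, push π x = x' := by
  rw [Cb_eq_span] at hx
  have : Submodule.span F2 ((fun σ => Finsupp.single σ (1 : F2)) '' {σ | σ ∈ K' ∧ σ.card = b}) ≤
      (Cb K b).map (push π) := by
    rw [Submodule.span_le]
    rintro _ ⟨σ', hσ', rfl⟩
    obtain ⟨σ, hσ, rfl⟩ := hK' σ' hσ'.1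
    exact ⟨Finsupp.single σ 1,
      single_mem_Cb hσ ((Finset.card_image_of_injOn (hK σ hσ)).symm.trans hσ'.2),
      push_single π _ _⟩
  exact this hx

/-- A contraction is transported along a bijection of complexes. -/
theorem cone_push {L : Set (Finset V)} {L' : Set (Finset V')} (hL : Down L)
    (hK : ∀ σ ∈ L, Set.InjOn π σ) (hK' : ∀ σ ∈ L, σ.image π ∈ L')
    (hs : ∀ σ' ∈ L', ∃ σ ∈ L, σ.image π = σ')
    (hi : ∀ σ ∈ L, ∀ τ ∈ L, σ.image π = τ.image π → σ = τ) {c R : ℕ} (h : Cone L c R) :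
    Cone L' c R := by
  classical
  obtain ⟨h, hh⟩ := h
  choose! lift hl1 hl2 using hs
  have hlift : ∀ σ ∈ L, lift (σ.image π) = σ := fun σ hσ =>
    hi _ (hl1 _ (hK' σ hσ)) _ hσ (hl2 _ (hK' σ hσ))
  refine ⟨fun ρ' => push π (h (lift ρ')), fun ρ' hρ' hc => ?_⟩
  have hρ := hl1 ρ' hρ'
  have he := hl2 ρ' hρ'
  generalize lift ρ' = ρ at hρ he
  subst he
  rw [Finset.card_image_of_injOn (hK ρ hρ)] at hc ⊢
  obtain ⟨h1, h2, h3⟩ := hh ρ hρ hc
  have h4 : Finsupp.linearCombination F2 (fun ρ' => push π (h (lift ρ')))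
      (bd (Finsupp.single (ρ.image π) 1)) =
      push π (Finsupp.linearCombination F2 h (bd (Finsupp.single ρ 1))) := by
    rw [bd_single, bd_single, map_sum, map_sum, map_sum]
    simp only [Finsupp.linearCombination_single, one_smul]
    rw [sum_image_erase (hK ρ hρ) (fun τ => push π (h (lift τ)))]
    refine Finset.sum_congr rfl fun v _ => ?_
    rw [hlift _ (hL ρ hρ _ (Finset.erase_subset _ _))]
  rw [h4]
  dsimp only
  rw [hlift ρ hρ]
  refine ⟨push_mem_Cb hK hK' h1, (card_support_push π _).trans h2, ?_⟩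
  rw [bd_push hK h1, ← map_add, h3, push_single]

end push

variable {n : ℕ} {V V' Γ : Type} [DecidableEq V] [DecidableEq V'] [Group Γ] [MulAction Γ V]

/-- `π` is the quotient map of the vertex set by `N`. -/
structure QD (Y : Geo n V) (N : Subgroup Γ) (π : V → V') : Prop where
  inv : Inv Γ Y.K
  hinj : ∀ v u, ∀ g ∈ N, {v, u} ∈ Y.K → {v, g • u} ∈ Y.K → g • u = u
  eq_iff : ∀ u v, {u} ∈ Y.K → {v} ∈ Y.K → (π u = π v ↔ ∃ g ∈ N, g • u = v)
  surj : ∀ v', ∃ v, {v} ∈ Y.K ∧ π v = v'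

/-- The images of the faces. -/
def img (Y : Geo n V) (π : V → V') : Set (Finset V') := {σ' | ∃ σ ∈ Y.K, σ.image π = σ'}

theorem vert_of_mem {Y : Geo n V} {σ : Finset V} (hσ : σ ∈ Y.K) {v : V} (hv : v ∈ σ) :
    {v} ∈ Y.K := Y.down σ hσ _ (Finset.singleton_subset_iff.2 hv)

theorem pair_of_mem {Y : Geo n V} {σ : Finset V} (hσ : σ ∈ Y.K) {v u : V} (hv : v ∈ σ)
    (hu : u ∈ σ) : {v, u} ∈ Y.K :=
  Y.down σ hσ _ (Finset.insert_subset hv (Finset.singleton_subset_iff.2 hu))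

theorem lk_down {Y : Geo n V} {σ ρ τ : Finset V} (h : ρ ∈ lk Y.K σ) (hτ : τ ⊆ ρ) :
    τ ∈ lk Y.K σ :=
  ⟨Finset.disjoint_of_subset_left hτ h.1,
    Y.down _ h.2 _ (Finset.union_subset_union_left hτ)⟩

namespace QD

variable {Y : Geo n V} {N : Subgroup Γ} {π : V → V'} (h : QD Y N π)
include h

theorem vert_smul (g : Γ) {v : V} (hv : {v} ∈ Y.K) : {g • v} ∈ Y.K := by
  simpa using h.inv g _ hv

theorem smul_eq {g : Γ} (hg : g ∈ N) {v : V} (hv : {v} ∈ Y.K) : π (g • v) = π v :=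
  ((h.eq_iff v (g • v) hv (h.vert_smul g hv)).2 ⟨g, hg, rfl⟩).symm

theorem nb_inj {v u w : V} (hu : {v, u} ∈ Y.K) (hw : {v, w} ∈ Y.K) (e : π u = π w) : u = w := by
  obtain ⟨g, hg, rfl⟩ := (h.eq_iff u w (vert_of_mem hu (by simp)) (vert_of_mem hw (by simp))).1 e
  exact (h.hinj v u g hg hu hw).symm

theorem injOn {σ : Finset V} (hσ : σ ∈ Y.K) : Set.InjOn π σ := fun _ hu _ hw e =>
  h.nb_inj (pair_of_mem hσ hu hu) (pair_of_mem hσ hu hw) e

theorem card_image {σ : Finset V} (hσ : σ ∈ Y.K) : (σ.image π).card = σ.card :=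
  Finset.card_image_of_injOn (h.injOn hσ)

theorem image_smul {g : Γ} (hg : g ∈ N) {σ : Finset V} (hσ : σ ∈ Y.K) :
    (σ.image (g • ·)).image π = σ.image π := by
  rw [Finset.image_image]
  exact Finset.image_congr fun v hv => h.smul_eq hg (vert_of_mem hσ hv)

theorem eq_of_common {σ τ : Finset V} (hσ : σ ∈ Y.K) (hτ : τ ∈ Y.K) {w : V} (h1 : w ∈ σ)
    (h2 : w ∈ τ) (e : σ.image π = τ.image π) : σ = τ := by
  have key : ∀ {σ τ : Finset V}, σ ∈ Y.K → τ ∈ Y.K → w ∈ σ → w ∈ τ → σ.image π = τ.image π →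
      σ ⊆ τ := by
    intro σ τ hσ hτ h1 h2 e u hu
    obtain ⟨t, ht, he⟩ := Finset.mem_image.1 (e ▸ Finset.mem_image_of_mem π hu)
    rw [← h.nb_inj (pair_of_mem hτ h2 ht) (pair_of_mem hσ h1 hu) he]
    exact ht
  exact Finset.Subset.antisymm (key hσ hτ h1 h2 e) (key hτ hσ h2 h1 e.symm)

/-- Faces with the same image are conjugate. -/
theorem conj {σ τ : Finset V} (hσ : σ ∈ Y.K) (hτ : τ ∈ Y.K) (e : σ.image π = τ.image π) :
    ∃ g ∈ N, σ.image (g • ·) = τ := by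
  rcases σ.eq_empty_or_nonempty with rfl | ⟨v, hv⟩
  · refine ⟨1, N.one_mem, ?_⟩
    rw [Finset.image_empty] at e ⊢
    exact (Finset.image_eq_empty.1 e.symm).symm
  · obtain ⟨w, hw, he⟩ := Finset.mem_image.1 (e ▸ Finset.mem_image_of_mem π hv)
    obtain ⟨g, hg, rfl⟩ := (h.eq_iff v w (vert_of_mem hσ hv) (vert_of_mem hτ hw)).1 he.symm
    exact ⟨g, hg, h.eq_of_common (h.inv g σ hσ) hτ (Finset.mem_image_of_mem _ hv) hw
      ((h.image_smul hg hσ).trans e)⟩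

/-- Lifting a face that contains the image of a given face. -/
theorem lift {σ : Finset V} (hσ : σ ∈ Y.K) {τ' : Finset V'} (hτ : τ' ∈ img Y π)
    (hs : σ.image π ⊆ τ') : ∃ τ ∈ Y.K, σ ⊆ τ ∧ τ.image π = τ' := by
  obtain ⟨τ₀, hτ₀, rfl⟩ := hτ
  have h0 : τ₀.filter (fun v => π v ∈ σ.image π) ∈ Y.K :=
    Y.down _ hτ₀ _ (Finset.filter_subset _ _)
  have h1 : (τ₀.filter (fun v => π v ∈ σ.image π)).image π = σ.image π := by
    ext w
    constructor
    · intro hw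
      obtain ⟨v, hv, rfl⟩ := Finset.mem_image.1 hw
      exact (Finset.mem_filter.1 hv).2
    · intro hw
      obtain ⟨v, hv, rfl⟩ := Finset.mem_image.1 (hs hw)
      exact Finset.mem_image_of_mem _ (Finset.mem_filter.2 ⟨hv, hw⟩)
  obtain ⟨g, hg, he⟩ := h.conj h0 hσ h1
  refine ⟨τ₀.image (g • ·), h.inv g _ hτ₀, ?_, h.image_smul hg hτ₀⟩
  rw [← he]
  exact Finset.image_subset_image (Finset.filter_subset _ _)

theorem lk_map {σ ρ : Finset V} (hρ : ρ ∈ lk Y.K σ) : ρ.image π ∈ lk (img Y π) (σ.image π) := by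
  refine ⟨?_, ρ ∪ σ, hρ.2, Finset.image_union _ _⟩
  rw [Finset.disjoint_left]
  intro w hw hw'
  obtain ⟨u, hu, rfl⟩ := Finset.mem_image.1 hw
  obtain ⟨v, hv, he⟩ := Finset.mem_image.1 hw'
  have := h.injOn hρ.2 (Finset.mem_coe.2 (Finset.mem_union_right _ hv))
    (Finset.mem_coe.2 (Finset.mem_union_left _ hu)) he
  exact Finset.disjoint_left.1 hρ.1 hu (this ▸ hv)

theorem lk_surj {σ : Finset V} (hσ : σ ∈ Y.K) {ρ' : Finset V'}
    (hρ : ρ' ∈ lk (img Y π) (σ.image π)) : ∃ ρ ∈ lk Y.K σ, ρ.image π = ρ' := by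
  obtain ⟨τ, hτ, hs, he⟩ := h.lift hσ hρ.2 Finset.subset_union_right
  refine ⟨τ \ σ, ⟨Finset.sdiff_disjoint, by rwa [Finset.sdiff_union_of_subset hs]⟩, ?_⟩
  ext w
  constructor
  · intro hw
    obtain ⟨u, hu, rfl⟩ := Finset.mem_image.1 hw
    have hu' := Finset.mem_sdiff.1 hu
    rcases Finset.mem_union.1 (he ▸ Finset.mem_image_of_mem π hu'.1) with h1 | h1
    · exact h1
    · obtain ⟨v, hv, e⟩ := Finset.mem_image.1 h1
      have := h.injOn hτ (Finset.mem_coe.2 (hs hv)) (Finset.mem_coe.2 hu'.1) e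
      exact absurd (this ▸ hv) hu'.2
  · intro hw
    obtain ⟨u, hu, rfl⟩ := Finset.mem_image.1 (he ▸ Finset.mem_union_left _ hw :
      w ∈ τ.image π)
    refine Finset.mem_image_of_mem _ (Finset.mem_sdiff.2 ⟨hu, fun hu' => ?_⟩)
    exact Finset.disjoint_left.1 hρ.1 hw (Finset.mem_image_of_mem _ hu')

theorem lk_vert_inj {σ ρ τ : Finset V} (hne : σ.Nonempty) (hρ : ρ ∈ lk Y.K σ)
    (hτ : τ ∈ lk Y.K σ) {x y : V} (hx : x ∈ ρ) (hy : y ∈ τ) (e : π x = π y) : x = y := by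
  obtain ⟨v, hv⟩ := hne
  exact h.nb_inj (pair_of_mem hρ.2 (Finset.mem_union_right _ hv) (Finset.mem_union_left _ hx))
    (pair_of_mem hτ.2 (Finset.mem_union_right _ hv) (Finset.mem_union_left _ hy)) e

theorem lk_inj {σ ρ τ : Finset V} (hne : σ.Nonempty) (hρ : ρ ∈ lk Y.K σ) (hτ : τ ∈ lk Y.K σ)
    (e : ρ.image π = τ.image π) : ρ = τ := by
  have key : ∀ {ρ τ : Finset V}, ρ ∈ lk Y.K σ → τ ∈ lk Y.K σ → ρ.image π = τ.image π →
      ρ ⊆ τ := by
    intro ρ τ hρ hτ e u hu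
    obtain ⟨t, ht, he⟩ := Finset.mem_image.1 (e ▸ Finset.mem_image_of_mem π hu)
    rw [← h.lk_vert_inj hne hτ hρ ht hu he]
    exact ht
  exact Finset.Subset.antisymm (key hρ hτ e) (key hτ hρ e.symm)

theorem lk_pair {σ : Finset V} (hσ : σ ∈ Y.K) {x y : V'}
    (hρ : {x, y} ∈ lk (img Y π) (σ.image π)) :
    ∃ u v, {u, v} ∈ lk Y.K σ ∧ π u = x ∧ π v = y := by
  obtain ⟨ρ, h1, h2⟩ := h.lk_surj hσ hρ
  obtain ⟨u, hu, e1⟩ := Finset.mem_image.1 (h2 ▸ (by simp) : x ∈ ρ.image π)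
  obtain ⟨v, hv, e2⟩ := Finset.mem_image.1 (h2 ▸ (by simp) : y ∈ ρ.image π)
  exact ⟨u, v, lk_down h1 (Finset.insert_subset hu (Finset.singleton_subset_iff.2 hv)), e1, e2⟩

theorem lk_single {σ : Finset V} (hσ : σ ∈ Y.K) {x : V'}
    (hρ : {x} ∈ lk (img Y π) (σ.image π)) : ∃ u, {u} ∈ lk Y.K σ ∧ π u = x := by
  obtain ⟨ρ, h1, h2⟩ := h.lk_surj hσ hρ
  obtain ⟨u, hu, e1⟩ := Finset.mem_image.1 (h2 ▸ (by simp) : x ∈ ρ.image π)
  exact ⟨u, lk_down h1 (Finset.singleton_subset_iff.2 hu), e1⟩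

theorem sex (hS : SEx Y.K 1) : SEx (img Y π) 1 := by
  intro x' hx' h0
  obtain ⟨x, hx, rfl⟩ := exists_push_eq (fun _ hσ => h.injOn hσ) (fun _ hσ => hσ) hx'
  rw [bd_push (fun _ hσ => h.injOn hσ) hx] at h0
  have h1 : bd x ∈ Cb Y.K 0 := bd_mem_Cb Y.down hx
  have h2 : bd x = Finsupp.single ∅ (bd x ∅) := by
    refine Finsupp.support_subset_singleton.1 fun σ hσ => ?_
    exact Finset.mem_singleton.2 (Finset.card_eq_zero.1 (mem_Cb.1 h1 σ hσ).2)
  have h3 : bd x = 0 := by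
    rw [h2, push_single, Finsupp.single_eq_zero] at h0
    rw [h2, h0, Finsupp.single_zero]
  obtain ⟨y, hy, rfl⟩ := hS x hx h3
  exact ⟨push π y, push_mem_Cb (K' := img Y π) (fun _ hσ => h.injOn hσ)
    (fun σ hσ => ⟨σ, hσ, rfl⟩) hy,
    bd_push (fun _ hσ => h.injOn hσ) hy⟩

theorem vanish {a : ℕ} (hV : SVan N Y.K a) (f : Finset V' → F2)
    (hf : ∀ τ ∈ img Y π, τ.card = a + 2 → cob f τ = 0) :
    ∃ g : Finset V' → F2, ∀ σ ∈ img Y π, σ.card = a + 1 → f σ = cob g σ := by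
  classical
  set φ : Ch V →ₗ[F2] F2 := Finsupp.linearCombination F2 fun σ => f (σ.image π) with hφ
  have hφ1 : ∀ z ∈ Ib N Y.K (a + 1), φ z = 0 := by
    have : Ib N Y.K (a + 1) ≤ LinearMap.ker φ := by
      unfold Ib
      rw [Submodule.span_le]
      rintro _ ⟨g, hg, σ, hσ, -, rfl⟩
      show φ _ = 0
      rw [map_sub, hφ, Finsupp.linearCombination_single, Finsupp.linearCombination_single,
        h.image_smul hg hσ, sub_self]
    exact fun z hz => this hz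
  have hφ2 : ∀ y ∈ Cb Y.K (a + 2), φ (bd y) = 0 := by
    intro y hy
    rw [Cb_eq_span] at hy
    refine LinearMap.eqOn_span (f := φ ∘ₗ bd) (g := 0) ?_ hy
    rintro _ ⟨τ, hτ, rfl⟩
    show φ (bd (Finsupp.single τ 1)) = 0
    have h1 := hf _ ⟨τ, hτ.1, rfl⟩ ((h.card_image hτ.1).trans hτ.2)
    unfold cob at h1
    rw [sum_image_erase (h.injOn hτ.1) f] at h1
    rw [bd_single, map_sum, ← h1]
    exact Finset.sum_congr rfl fun v _ => by rw [hφ, Finsupp.linearCombination_single, one_smul]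
  set T : Cb Y.K (a + 1) →ₗ[F2] (Ch V ⧸ Ib N Y.K a) :=
    (Ib N Y.K a).mkQ ∘ₗ bd ∘ₗ (Cb Y.K (a + 1)).subtype with hT
  have h1 : φ ∘ₗ (Cb Y.K (a + 1)).subtype ∈ LinearMap.range T.dualMap := by
    rw [LinearMap.range_dualMap_eq_dualAnnihilator_ker, Submodule.mem_dualAnnihilator]
    intro x hx
    have h2 : bd x.1 ∈ Ib N Y.K a := (Submodule.Quotient.mk_eq_zero _).1 hx
    obtain ⟨y, hy, hy'⟩ := hV x.1 x.2 h2
    have h3 := hφ1 _ hy'
    rw [map_sub, hφ2 y hy, sub_zero] at h3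
    exact h3
  obtain ⟨ψ, hψ⟩ := h1
  have hs : ∀ σ' ∈ img Y π, ∃ σ ∈ Y.K, σ.image π = σ' := fun _ hσ => hσ
  choose! lf hl1 hl2 using hs
  refine ⟨fun ρ' => ψ ((Ib N Y.K a).mkQ (Finsupp.single (lf ρ') 1)), ?_⟩
  rintro _ ⟨σ, hσ, rfl⟩ hc
  rw [h.card_image hσ] at hc
  have h2 := LinearMap.congr_fun hψ ⟨Finsupp.single σ 1, single_mem_Cb hσ hc⟩
  have h3 : ψ ((Ib N Y.K a).mkQ (bd (Finsupp.single σ 1))) = φ (Finsupp.single σ 1) := h2
  rw [hφ, Finsupp.linearCombination_single, one_smul, bd_single, map_sum, map_sum] at h3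
  unfold cob
  rw [← h3, sum_image_erase (h.injOn hσ)
    (fun ρ' => ψ ((Ib N Y.K a).mkQ (Finsupp.single (lf ρ') 1)))]
  refine Finset.sum_congr rfl fun v hv => ?_
  have hρ : σ.erase v ∈ Y.K := Y.down σ hσ _ (Finset.erase_subset _ _)
  have hi : (σ.erase v).image π ∈ img Y π := ⟨_, hρ, rfl⟩
  obtain ⟨g, hg, he⟩ := h.conj hρ (hl1 _ hi) (hl2 _ hi).symm
  congr 1
  rw [← he]
  symm
  refine (Submodule.Quotient.eq _).2 (Submodule.subset_span ⟨g, hg, _, hρ, ?_, rfl⟩)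
  rw [Finset.card_erase_of_mem hv, hc, Nat.add_sub_cancel]

end QD

end Crest.Agent.R66.Quot
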