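import Crest.Agent.R66.Chain
import Crest.Agent.R66.QuotAux

set_option autoImplicit false

namespace Crest.Agent.R66

open Finset

namespace Quot

variable {n : ℕ} {V V' Γ : Type} [DecidableEq V] [DecidableEq V'] [Group Γ] [MulAction Γ V]

/-- A chosen lift of a vertex. -/
noncomputable def QD.rep {Y : Geo n V} {N : Subgroup Γ} {π : V → V'} (h : QD Y N π) (v' : V') :
    V := (h.surj v').choose

namespace QD

variable {Y : Geo n V} {N : Subgroup Γ} {π : V → V'} (h : QD Y N π)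

omit [DecidableEq V'] in
theorem rep_vert (v' : V') : {h.rep v'} ∈ Y.K := (h.surj v').choose_spec.1

omit [DecidableEq V'] in
theorem pi_rep (v' : V') : π (h.rep v') = v' := (h.surj v').choose_spec.2

theorem ty_rep (hT : Y.Trans Γ) {v : V} (hv : {v} ∈ Y.K) : Y.ty (h.rep (π v)) = Y.ty v := by
  obtain ⟨g, -, hg⟩ := (h.eq_iff v _ hv (h.rep_vert _)).1 (h.pi_rep (π v)).symm
  rw [← hg, hT.ty_smul g v hv]

/-- The quotient geometry. -/
noncomputable def geo (hT : Y.Trans Γ) : Geo n V' where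
  K := img Y π
  ty v' := Y.ty (h.rep v')
  down := by
    rintro _ ⟨σ, hσ, rfl⟩ τ hτ
    obtain ⟨ρ, hρ, rfl⟩ := Finset.subset_image_iff.1 hτ
    exact ⟨ρ, Y.down σ hσ ρ hρ, rfl⟩
  empty := ⟨∅, Y.empty, rfl⟩
  inj := by
    rintro _ ⟨σ, hσ, rfl⟩ x hx y hy e
    obtain ⟨u, hu, rfl⟩ := Finset.mem_image.1 hx
    obtain ⟨v, hv, rfl⟩ := Finset.mem_image.1 hy
    have e' : Y.ty (h.rep (π u)) = Y.ty (h.rep (π v)) := e
    rw [h.ty_rep hT (vert_of_mem hσ hu), h.ty_rep hT (vert_of_mem hσ hv)] at e'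
    rw [Y.inj σ hσ hu hv e']
  pure := by
    rintro _ ⟨σ, hσ, rfl⟩
    obtain ⟨c, hc, hs, hn⟩ := Y.pure σ hσ
    exact ⟨c.image π, ⟨c, hc, rfl⟩, Finset.image_subset_image hs, (h.card_image hc).trans hn⟩

theorem geo_ty (hT : Y.Trans Γ) {v : V} (hv : {v} ∈ Y.K) : (h.geo hT).ty (π v) = Y.ty v :=
  h.ty_rep hT hv

theorem pi_smul_rep [N.Normal] (g : Γ) {v : V} (hv : {v} ∈ Y.K) :
    π (g • h.rep (π v)) = π (g • v) := by
  obtain ⟨k, hk, e⟩ := (h.eq_iff v _ hv (h.rep_vert _)).1 (h.pi_rep (π v)).symm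
  rw [← e, ← h.smul_eq (Subgroup.Normal.conj_mem inferInstance k hk g) (h.vert_smul g hv),
    ← mul_smul, ← mul_smul, inv_mul_cancel_right]

/-- The induced action on the quotient. -/
noncomputable def hom [N.Normal] : Γ →* Equiv.Perm V' :=
  @MulAction.toPermHom Γ V' _
    { smul := fun g v' => π (g • h.rep v')
      one_smul := fun v' => by
        show π ((1 : Γ) • h.rep v') = v'
        rw [one_smul, h.pi_rep]
      mul_smul := fun g k v' => by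
        show π ((g * k) • h.rep v') = π (g • h.rep (π (k • h.rep v')))
        rw [h.pi_smul_rep g (h.vert_smul k (h.rep_vert v')), mul_smul] }

theorem hom_apply [N.Normal] (g : Γ) {v : V} (hv : {v} ∈ Y.K) : h.hom g (π v) = π (g • v) :=
  h.pi_smul_rep g hv

theorem image_hom [N.Normal] (g : Γ) {σ : Finset V} (hσ : σ ∈ Y.K) :
    (σ.image π).image (h.hom g) = (σ.image (g • ·)).image π := by
  rw [Finset.image_image, Finset.image_image]
  exact Finset.image_congr fun v hv => h.hom_apply g (vert_of_mem hσ hv)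

theorem trans [N.Normal] (hT : Y.Trans Γ) : (h.geo hT).Trans h.hom.range := by
  refine ⟨?_, ?_, ?_⟩
  · rintro ⟨_, g, rfl⟩ v' -
    obtain ⟨v, hv, rfl⟩ := h.surj v'
    show (h.geo hT).ty (h.hom g (π v)) = _
    rw [h.hom_apply g hv, h.geo_ty hT (h.vert_smul g hv), h.geo_ty hT hv, hT.ty_smul g v hv]
  · rintro ⟨_, g, rfl⟩ _ ⟨σ, hσ, rfl⟩
    exact ⟨_, h.inv g σ hσ, (h.image_hom g hσ).symm⟩
  · rintro _ ⟨c, hc, rfl⟩ _ ⟨c', hc', rfl⟩ h1 h2
    rw [h.card_image hc] at h1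
    rw [h.card_image hc'] at h2
    obtain ⟨g, hg⟩ := hT.trans c hc c' hc' h1 h2
    refine ⟨⟨_, g, rfl⟩, ?_⟩
    rw [← hg]
    exact h.image_hom g hc

theorem thick (hn : 3 ≤ n) (hT : Y.Trans Γ) {q : ℕ} (hq : Y.Thick q) : (h.geo hT).Thick q := by
  rintro _ ⟨p, hp, rfl⟩ hc
  rw [h.card_image hp] at hc
  have hne : p.Nonempty := Finset.card_pos.1 (by omega)
  obtain ⟨s, hs, hx⟩ := hq p hp hc
  refine ⟨s.image π, ?_, ?_⟩
  · rw [Finset.card_image_of_injOn]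
    · exact hs
    · intro x hx' y hy' e
      exact h.lk_vert_inj hne (hx x hx') (hx y hy') (Finset.mem_singleton_self _)
        (Finset.mem_singleton_self _) e
  · intro x' hx'
    obtain ⟨x, hx'', rfl⟩ := Finset.mem_image.1 hx'
    have := h.lk_map (hx x hx'')
    rwa [Finset.image_singleton] at this

theorem rank2 (hn : 3 ≤ n) (hT : Y.Trans Γ) {q : ℕ} (hq : Y.Rank2 q) : (h.geo hT).Rank2 q := by
  rintro _ ⟨σ, hσ, rfl⟩ hc
  rw [h.card_image hσ] at hc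
  have hne : σ.Nonempty := Finset.card_pos.1 (by omega)
  have hv : ∀ {ρ : Finset V} {x : V}, ρ ∈ lk Y.K σ → x ∈ ρ → {x} ∈ Y.K := fun hρ hx =>
    vert_of_mem hρ.2 (Finset.mem_union_left _ hx)
  rcases hq σ hσ hc with h1 | ⟨a, h1, ⟨s, hs, h2⟩, h3⟩
  · left
    intro x' y' hx hy hty
    obtain ⟨x, hx', rfl⟩ := h.lk_single hσ hx
    obtain ⟨y, hy', rfl⟩ := h.lk_single hσ hy
    rw [h.geo_ty hT (hv hx' (Finset.mem_singleton_self _)),
      h.geo_ty hT (hv hy' (Finset.mem_singleton_self _))] at hty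
    have := h.lk_map (h1 x y hx' hy' hty)
    rwa [Finset.image_insert, Finset.image_singleton] at this
  · right
    refine ⟨a, ?_, ⟨s.image π, Finset.card_image_le.trans hs, ?_⟩, ?_⟩
    · intro v' hv'
      obtain ⟨v, hv'', rfl⟩ := Finset.mem_image.1 hv'
      rw [h.geo_ty hT (vert_of_mem hσ hv'')]
      exact h1 v hv''
    · intro x' hx hty
      obtain ⟨x, hx', rfl⟩ := h.lk_single hσ hx
      rw [h.geo_ty hT (hv hx' (Finset.mem_singleton_self _))] at hty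
      exact Finset.mem_image_of_mem _ (h2 x hx' hty)
    · intro x x' y y' t1 t2 hxx t3 t4 p1 p2 p3 p4
      obtain ⟨x₁, y₁, q1, rfl, rfl⟩ := h.lk_pair hσ p1
      obtain ⟨x₂, y₂, q2, rfl, e2⟩ := h.lk_pair hσ p2
      obtain ⟨x₃, y₃, q3, e3, rfl⟩ := h.lk_pair hσ p3
      obtain ⟨x₄, y₄, q4, e4, e5⟩ := h.lk_pair hσ p4
      obtain rfl : y₂ = y₁ := h.lk_vert_inj hne q2 q1 (by simp) (by simp) e2
      obtain rfl : x₃ = x₁ := h.lk_vert_inj hne q3 q1 (by simp) (by simp) e3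
      obtain rfl : x₄ = x₂ := h.lk_vert_inj hne q4 q2 (by simp) (by simp) e4
      obtain rfl : y₄ = y₃ := h.lk_vert_inj hne q4 q3 (by simp) (by simp) e5
      rw [h.geo_ty hT (hv q1 (by simp))] at t1 t3
      rw [h.geo_ty hT (hv q4 (by simp))] at t2 t4
      rw [h3 _ _ _ _ t1 t2 (fun e => hxx (by rw [e])) t3 t4 q1 q2 q3 q4]

theorem cones (hT : Y.Trans Γ) {R : ℕ} (hR : Y.Cones R) : (h.geo hT).Cones R := by
  rintro _ ⟨σ, hσ, rfl⟩ hne
  have hne' : σ.Nonempty := Finset.image_nonempty.1 hne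
  rw [h.card_image hσ]
  exact cone_push (π := π) (L' := lk (img Y π) (σ.image π)) (fun _ hρ _ hτ => lk_down hρ hτ)
    (fun ρ hρ => (h.injOn hρ.2).mono (Finset.coe_subset.2 Finset.subset_union_left))
    (fun _ hρ => h.lk_map hρ) (fun _ hρ => h.lk_surj hσ hρ)
    (fun _ hρ _ hτ e => h.lk_inj hne' hρ hτ e) (hR σ hσ hne')

theorem deg (hT : Y.Trans Γ) {D : ℕ} (hD : Y.Deg D) : (h.geo hT).Deg D := by
  intro v'
  obtain ⟨v, hv, rfl⟩ := h.surj v'
  obtain ⟨s, hs, h1⟩ := hD v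
  refine ⟨s.image π, Finset.card_image_le.trans hs, fun u' hu' => ?_⟩
  obtain ⟨τ, hτ, h2, h3⟩ := h.lift hv hu' (by simp)
  obtain ⟨u, hu, rfl⟩ := Finset.mem_image.1 (h3 ▸ (by simp) : u' ∈ τ.image π)
  exact Finset.mem_image_of_mem _
    (h1 u (pair_of_mem hτ (h2 (Finset.mem_singleton_self _)) hu))

include h in
theorem finite [N.Normal] [N.FiniteIndex] (hT : Y.Trans Γ) : Finite V' := by
  obtain ⟨c, hc, -, hcn⟩ := Y.pure ∅ Y.empty
  refine Finite.of_surjective (fun p : (Γ ⧸ N) × c => π (p.1.out • p.2.1)) fun v' => ?_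
  obtain ⟨v, hv, rfl⟩ := h.surj v'
  obtain ⟨c', hc', hs, hcn'⟩ := Y.pure _ hv
  obtain ⟨g, hg⟩ := hT.trans c hc c' hc' hcn hcn'
  obtain ⟨u, hu, rfl⟩ := Finset.mem_image.1 (hg ▸ hs (Finset.mem_singleton_self v) :
    v ∈ c.image (g • ·))
  refine ⟨(QuotientGroup.mk g, ⟨u, hu⟩), ?_⟩
  obtain ⟨k, hk⟩ := QuotientGroup.mk_out_eq_mul N g
  show π ((QuotientGroup.mk g : Γ ⧸ N).out • u) = π (g • u)
  rw [hk, ← h.smul_eq (Subgroup.Normal.conj_mem inferInstance k.1 k.2 g) hv,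
    ← mul_smul, inv_mul_cancel_right]

end QD

omit [DecidableEq V'] in
/-- The quotient map exists. -/
theorem exists_qd (hn : 3 ≤ n) (Y : Geo n V) (hT : Y.Trans Γ) (N : Subgroup Γ)
    (hinj : ∀ v u, ∀ g ∈ N, {v, u} ∈ Y.K → {v, g • u} ∈ Y.K → g • u = u) :
    ∃ (W : Type) (π : V → W), QD Y N π := by
  classical
  obtain ⟨c, hc, -, hcn⟩ := Y.pure ∅ Y.empty
  obtain ⟨v₀, hv₀⟩ : c.Nonempty := Finset.card_pos.1 (by omega)
  refine ⟨{q : MulAction.orbitRel.Quotient N V // ∃ v, {v} ∈ Y.K ∧ Quotient.mk _ v = q},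
    fun v => if hv : {v} ∈ Y.K then ⟨Quotient.mk _ v, v, hv, rfl⟩
      else ⟨Quotient.mk _ v₀, v₀, vert_of_mem hc hv₀, rfl⟩, hT.inv, hinj, ?_, ?_⟩
  · intro u v hu hv
    simp only [dif_pos hu, dif_pos hv, Subtype.mk.injEq]
    rw [eq_comm, Quotient.eq, MulAction.orbitRel_apply, MulAction.mem_orbit_iff]
    exact ⟨fun ⟨g, hg⟩ => ⟨g.1, g.2, hg⟩, fun ⟨g, hg, e⟩ => ⟨⟨g, hg⟩, e⟩⟩
  · rintro ⟨_, v, hv, rfl⟩
    exact ⟨v, hv, by simp only [dif_pos hv]⟩

end Quot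

/-- The quotient of a geometry by a normal subgroup of finite index that moves vertices far. -/
theorem quot {n : ℕ} (hn : 3 ≤ n) {V Γ : Type} [DecidableEq V] [Group Γ] [MulAction Γ V]
    (Y : Geo n V) (hT : Y.Trans Γ) (N : Subgroup Γ) [N.Normal] [N.FiniteIndex]
    (hinj : ∀ v u, ∀ g ∈ N, {v, u} ∈ Y.K → {v, g • u} ∈ Y.K → g • u = u) :
    ∃ (V' : Type) (_ : DecidableEq V') (_ : Fintype V') (X : Geo n V')
      (G : Subgroup (Equiv.Perm V')), X.Trans G ∧ (∀ v, {v} ∈ X.K) ∧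
      (∀ q, Y.Thick q → X.Thick q) ∧ (∀ q, Y.Rank2 q → X.Rank2 q) ∧
      (∀ R, Y.Cones R → X.Cones R) ∧ (∀ D, Y.Deg D → X.Deg D) ∧ (SEx Y.K 1 → SEx X.K 1) ∧
      (∀ a, SVan N Y.K a → X.Vanish a) ∧
      ∀ s : Finset V, (∀ v ∈ s, {v} ∈ Y.K) → (∀ v ∈ s, ∀ g ∈ N, g • v ∈ s → g • v = v) →
        s.card ≤ Fintype.card V' := by
  obtain ⟨W, π, h⟩ := Quot.exists_qd hn Y hT N hinj
  letI : DecidableEq W := Classical.decEq W
  haveI : Finite W := h.finite hT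
  letI : Fintype W := Fintype.ofFinite W
  refine ⟨W, inferInstance, inferInstance, h.geo hT, h.hom.range, h.trans hT, fun v' => ?_,
    fun _ hq => h.thick hn hT hq, fun _ hq => h.rank2 hn hT hq, fun _ hR => h.cones hT hR,
    fun _ hD => h.deg hT hD, h.sex, fun _ hV => h.vanish hV, fun s hs hN => ?_⟩
  · obtain ⟨v, hv, rfl⟩ := h.surj v'
    exact ⟨{v}, hv, Finset.image_singleton _ _⟩
  · rw [← Finset.card_univ]
    refine Finset.card_le_card_of_injOn π (fun _ _ => Finset.mem_coe.2 (Finset.mem_univ _)) ?_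
    intro u hu v hv e
    obtain ⟨g, hg, rfl⟩ := (h.eq_iff u v (hs u hu) (hs v hv)).1 e
    exact (hN u hu g hg hv).symm

end Crest.Agent.R66
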