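import Crest.Agent.R66.Std
import Crest.Agent.R66.Chain

set_option autoImplicit false

namespace Crest.Agent.R66

open Finset

variable {Γ V : Type} [Group Γ] [DecidableEq V] [MulAction Γ V] {K : Set (Finset V)}

namespace SimpAux

/-- The faces of `K` with `a` vertices. -/
abbrev T (K : Set (Finset V)) (a : ℕ) : Type := {σ : Finset V // σ ∈ K ∧ σ.card = a}

/-- The action on faces. -/
@[reducible] def act (hinv : Inv Γ K) (a : ℕ) : MulAction Γ (T K a) where
  smul g σ := ⟨σ.1.image (g • ·), hinv g _ σ.2.1, by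
    rw [Finset.card_image_of_injective _ (MulAction.injective g), σ.2.2]⟩
  one_smul σ := Subtype.ext (by
    change σ.1.image ((1 : Γ) • ·) = σ.1
    simp)
  mul_smul g h σ := Subtype.ext (by
    change σ.1.image ((g * h) • ·) = (σ.1.image (h • ·)).image (g • ·)
    rw [Finset.image_image]
    exact Finset.image_congr fun x _ => mul_smul g h x)

/-- The inclusion into all chains. -/
noncomputable def ι (K : Set (Finset V)) (a : ℕ) : (T K a →₀ F2) →ₗ[F2] Ch V :=
  Finsupp.lmapDomain F2 F2 Subtype.val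

omit [DecidableEq V] in
theorem ι_single (a : ℕ) (σ : T K a) (r : F2) :
    ι K a (Finsupp.single σ r) = Finsupp.single σ.1 r := by
  simp [ι]

omit [DecidableEq V] in
theorem ι_inj (a : ℕ) : Function.Injective (ι K a) :=
  Finsupp.mapDomain_injective Subtype.val_injective

omit [DecidableEq V] in
theorem ι_mem (a : ℕ) (x : T K a →₀ F2) : ι K a x ∈ Cb K a := by
  induction x using Finsupp.induction_linear with
  | zero => simp
  | add x y hx hy => rw [map_add]; exact add_mem hx hy
  | single σ r =>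
    rw [ι_single]
    exact Finsupp.single_mem_supported F2 _ σ.2

/-- The restriction of chains. -/
noncomputable def π (K : Set (Finset V)) (a : ℕ) : Ch V →ₗ[F2] (T K a →₀ F2) :=
  Finsupp.lcomapDomain Subtype.val Subtype.val_injective

theorem ι_π {a : ℕ} {y : Ch V} (hy : y ∈ Cb K a) : ι K a (π K a y) = y := by
  refine Finsupp.mapDomain_comapDomain _ Subtype.val_injective y fun σ hσ => ?_
  exact ⟨⟨σ, mem_Cb.1 hy σ hσ⟩, rfl⟩

/-- The differential. -/
noncomputable def d (K : Set (Finset V)) (a : ℕ) : (T K (a + 1) →₀ F2) →ₗ[F2] (T K a →₀ F2) :=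
  π K a ∘ₗ bd ∘ₗ ι K (a + 1)

theorem ι_d (hK : Down K) (a : ℕ) (x : T K (a + 1) →₀ F2) :
    ι K a (d K a x) = bd (ι K (a + 1) x) :=
  ι_π (bd_mem_Cb hK (ι_mem _ x))

theorem ι_perm (hinv : Inv Γ K) (a : ℕ) (g : Γ) (x : T K a →₀ F2) :
    ι K a (@perm Γ (T K a) _ (act hinv a) g x) =
      Finsupp.mapDomain (fun σ : Finset V => σ.image (g • ·)) (ι K a x) := by
  induction x using Finsupp.induction_linear with
  | zero => simp
  | add x y hx hy => simp only [map_add, Finsupp.mapDomain_add, hx, hy]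
  | single σ r =>
    rw [@perm_single _ _ _ (act hinv a), ι_single, ι_single, Finsupp.mapDomain_single]
    rfl

theorem bd_map (g : Γ) (y : Ch V) :
    bd (Finsupp.mapDomain (fun σ : Finset V => σ.image (g • ·)) y) =
      Finsupp.mapDomain (fun σ : Finset V => σ.image (g • ·)) (bd y) := by
  induction y using ChainAux.ch_ind with
  | h0 => simp
  | hadd x y hx hy => simp only [map_add, Finsupp.mapDomain_add, hx, hy]
  | h1 σ =>
    rw [Finsupp.mapDomain_single, bd_single, bd_single, Finsupp.mapDomain_finsetSum,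
      Finset.sum_image fun x _ y _ h => MulAction.injective g h]
    refine Finset.sum_congr rfl fun v _ => ?_
    rw [Finsupp.mapDomain_single, Finset.image_erase (MulAction.injective g)]

omit [DecidableEq V] in
theorem subsingleton_T : Subsingleton (T K 0) :=
  ⟨fun σ τ => Subtype.ext ((Finset.card_eq_zero.1 σ.2.2).trans (Finset.card_eq_zero.1 τ.2.2).symm)⟩

/-- The simplicial chain complex. -/
noncomputable def cx (hK : Down K) (h0 : ∅ ∈ K) (hinv : Inv Γ K) : Cx Γ where
  X a := T K a →₀ F2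
  ρ a := @perm Γ (T K a) _ (act hinv a)
  d := d K
  d_ρ a g x := ι_inj a (by rw [ι_d hK, ι_perm, ι_perm, ι_d hK, bd_map])
  dd a x := ι_inj a (by rw [ι_d hK, ι_d hK, bd_bd, map_zero])
  ε := haveI := subsingleton_T (K := K)
    Finsupp.uniqueLinearEquiv F2 F2 ⟨∅, h0, rfl⟩
  ρ_zero g x := by
    induction x using Finsupp.induction_linear with
    | zero => simp
    | add x y hx hy => simp only [map_add, hx, hy]
    | single σ r =>
      rw [@perm_single _ _ _ (act hinv 0)]
      congr 1
      exact subsingleton_T.elim _ _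

/-- The augmentation submodule of the simplicial chain complex. -/
noncomputable def J (hinv : Inv Γ K) (S : Subgroup Γ) (a : ℕ) : Submodule F2 (T K a →₀ F2) :=
  Submodule.span F2 {z | ∃ g ∈ S, ∃ x, z = @perm Γ (T K a) _ (act hinv a) g x - x}

theorem mem_J (hinv : Inv Γ K) (S : Subgroup Γ) (a : ℕ)
    (x : T K a →₀ F2) : x ∈ J hinv S a ↔ ι K a x ∈ Ib S K a := by
  have key : (J hinv S a).map (ι K a) = Ib S K a := by
    apply le_antisymm
    · rw [Submodule.map_le_iff_le_comap]
      refine Submodule.span_le.2 ?_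
      rintro _ ⟨g, hg, y, rfl⟩
      change ι K a (@perm Γ (T K a) _ (act hinv a) g y - y) ∈ Ib S K a
      rw [map_sub, ι_perm]
      induction y using Finsupp.induction_linear with
      | zero => simp
      | add x y hx hy =>
        have := add_mem hx hy
        rw [map_add, Finsupp.mapDomain_add]
        convert this using 1
        abel
      | single σ r =>
        have h1 : Finsupp.single (σ.1.image (g • ·)) (1 : F2) - Finsupp.single σ.1 1 ∈ Ib S K a :=
          Submodule.subset_span ⟨g, hg, σ.1, σ.2.1, σ.2.2, rfl⟩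
        have := Submodule.smul_mem _ r h1
        rw [ι_single, Finsupp.mapDomain_single]
        simpa [smul_sub] using this
    · refine Submodule.span_le.2 ?_
      rintro _ ⟨g, hg, σ, h1, h2, rfl⟩
      refine ⟨@perm Γ (T K a) _ (act hinv a) g (Finsupp.single ⟨σ, h1, h2⟩ 1) -
        Finsupp.single ⟨σ, h1, h2⟩ 1, Submodule.subset_span ⟨g, hg, _, rfl⟩, ?_⟩
      rw [map_sub, ι_perm, ι_single, Finsupp.mapDomain_single]
  rw [← key]
  constructor
  · exact fun h => ⟨x, h, rfl⟩
  · rintro ⟨y, hy, h⟩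
    rwa [← ι_inj a h]

theorem van_iff (hK : Down K) (h0 : ∅ ∈ K) (hinv : Inv Γ K) (S : Subgroup Γ) (b : ℕ) :
    (cx hK h0 hinv).Van S b ↔ SVan S K b := by
  change (J hinv S b).comap (d K b) ≤ LinearMap.range (d K (b + 1)) ⊔ J hinv S (b + 1) ↔ _
  constructor
  · intro h x hx hb
    have h1 : π K (b + 1) x ∈ (J hinv S b).comap (d K b) := by
      rw [Submodule.mem_comap, mem_J, ι_d hK, ι_π hx]
      exact hb
    obtain ⟨_, ⟨y, rfl⟩, z, hz, e⟩ := Submodule.mem_sup.1 (h h1)
    refine ⟨ι K (b + 2) y, ι_mem _ y, ?_⟩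
    rw [← ι_π hx, ← e, map_add, ι_d hK, add_sub_cancel_left]
    exact (mem_J hinv S _ z).1 hz
  · intro h x hx
    rw [Submodule.mem_comap, mem_J, ι_d hK] at hx
    obtain ⟨y, hy, e⟩ := h _ (ι_mem _ x) hx
    refine Submodule.mem_sup.2 ⟨d K (b + 1) (π K (b + 2) y), ⟨π K (b + 2) y, rfl⟩,
      x - d K (b + 1) (π K (b + 2) y), ?_, add_sub_cancel _ _⟩
    rw [mem_J, map_sub, ι_d hK, ι_π hy]
    exact e

theorem ex (hK : Down K) (h0 : ∅ ∈ K) (hinv : Inv Γ K) {a : ℕ} (h : SEx K a) :
    (cx hK h0 hinv).Ex a := by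
  have key : ∀ x : T K a →₀ F2, bd (ι K a x) = 0 → ∃ y, d K a y = x := by
    intro x hx
    obtain ⟨y, hy, e⟩ := h _ (ι_mem a x) hx
    exact ⟨π K (a + 1) y, ι_inj a (by rw [ι_d hK, ι_π hy, e])⟩
  cases a with
  | zero =>
    intro x
    refine key x ?_
    induction x using Finsupp.induction_linear with
    | zero => simp
    | add x y hx hy => rw [map_add, map_add, hx, hy, add_zero]
    | single σ r =>
      rw [ι_single, Finset.card_eq_zero.1 σ.2.2]
      simp [bd]
  | succ a =>
    intro x hx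
    refine key x ?_
    have hx' : d K a x = 0 := hx
    rw [← ι_d hK, hx', map_zero]

end SimpAux

open SimpAux in
/-- The homology of the quotient of an acyclic complex is the homology of the group. -/
theorem sVan_iff (hK : Down K) (h0 : ∅ ∈ K) (hinv : Inv Γ K) {S N : Subgroup Γ} [N.Normal]
    (hle : N ≤ S) (hodd : Odd (N.relIndex S))
    (hfree : ∀ g ∈ N, ∀ σ ∈ K, σ.Nonempty → σ.image (g • ·) = σ → g = 1) {b : ℕ}
    (hex : ∀ a, a ≤ b + 1 → SEx K a) : SVan S K b ↔ HV S b := by
  have hl : ∀ a, 1 ≤ a → Lift (((cx hK h0 hinv).comap S.subtype).ρ a) := by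
    intro a ha
    refine Lift.of_odd (N.subgroupOf S) hodd ?_
    refine @lift_perm Γ _ _ _ (T K a) (act hinv a) (S.subtype.comp (N.subgroupOf S).subtype) ?_
    intro g σ h
    have h1 := hfree g.1.1 g.2 σ.1 σ.2.1 (Finset.card_pos.1 (by rw [σ.2.2]; exact ha))
      (congrArg Subtype.val h)
    exact Subtype.ext (Subtype.ext h1)
  have he : ∀ a, a ≤ b + 1 → ((cx hK h0 hinv).comap S.subtype).Ex a := fun a ha =>
    (Cx.comap_Ex _ _ a).2 (ex hK h0 hinv (hex a ha))
  rw [← van_iff hK h0 hinv]
  conv_lhs => rw [← S.range_subtype, MonoidHom.range_eq_map, ← Cx.comap_Van]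
  exact ⟨Cx.van_of_van (fun a ha _ => std_lift' S ha) (fun a _ => std_ex S a)
      (fun a ha _ => hl a ha) fun a ha => he a (ha.trans b.le_succ),
    Cx.van_of_van (fun a ha _ => hl a ha) he (fun a ha _ => std_lift' S ha)
      fun a _ => std_ex S a⟩

end Crest.Agent.R66
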