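import Crest.Agent.R66.Trans
import Crest.Agent.R66.Chain

set_option autoImplicit false

namespace Crest.Agent.R66

open Finset

namespace WconeAux

open TransAux

variable {F V : Type} [Field F] [AddCommGroup V] [Module F V] {n : ℕ}

theorem exists_proj {L L' T M : Submodule F V} (h1 : L ⊓ T = ⊥) (h2 : L ⊔ T = M)
    (h1' : L' ⊓ T = ⊥) (h2' : L' ⊔ T = M) : ∃ φ : L ≃ₗ[F] L', ∀ x : L, (φ x : V) - x ∈ T := by
  have inj : ∀ {L : Submodule F V}, L ⊓ T = ⊥ → Function.Injective (T.mkQ.comp L.subtype) := by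
    intro L h
    rw [← LinearMap.ker_eq_bot, LinearMap.ker_comp, Submodule.ker_mkQ]
    exact Submodule.disjoint_iff_comap_eq_bot.1 (disjoint_iff.2 h)
  have rng : ∀ {L : Submodule F V}, L ⊔ T = M →
      LinearMap.range (T.mkQ.comp L.subtype) = M.map T.mkQ := by
    intro L h
    rw [LinearMap.range_comp, Submodule.range_subtype, ← h, Submodule.map_sup,
      Submodule.mkQ_map_self, sup_bot_eq]
  refine ⟨(LinearEquiv.ofInjective _ (inj h1)).trans ((LinearEquiv.ofEq _ _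
    ((rng h2).trans (rng h2').symm)).trans (LinearEquiv.ofInjective _ (inj h1')).symm),
    fun x => ?_⟩
  rw [← Submodule.Quotient.eq]
  exact LinearEquiv.ofInjective_symm_apply _ (h := inj h1') _

variable {S : Setup F V n} {τ : Finset (Submodule F V)} {v v' : Submodule F V}

theorem exists_N (h : insert v τ ∈ S.Y) (h' : insert v' τ ∈ S.Y) (h0 : S.chi v = 0)
    (h0' : S.chi v' = 0) : ∃ g ∈ S.N 1, (insert v τ).image (g • ·) = insert v' τ := by
  have hv := mem_insert_self v τ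
  have hv' := mem_insert_self v' τ
  have hC := isCompl h hv h0
  have hC' := isCompl h' hv' h0'
  obtain ⟨a1, a2⟩ := (vert h hv).1.isCompl_sections hC
  obtain ⟨b1, b2⟩ := (vert h' hv').1.isCompl_sections hC'
  obtain ⟨φ, hφ⟩ := exists_proj a1 a2 b1 b2
  obtain ⟨g, hg, hgv⟩ := Setup.exists_aut (vert h hv).1 (vert h' hv').1 hC hC' φ
  refine ⟨g, fun m hm => ?_, ?_⟩
  · rw [← a2] at hm
    obtain ⟨x, hx, y, hy, rfl⟩ := Submodule.mem_sup.1 hm
    have e1 : S.val g x - x ∈ S.tr 1 S.M := by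
      rw [hg ⟨x, hx⟩]
      exact hφ ⟨x, hx⟩
    have e2 : S.val g y ∈ S.tr 1 S.M := by
      rw [← Setup.mem_smul g, Setup.smul_tr, Setup.smul_M] at hy
      exact hy
    have := sub_mem (add_mem e1 e2) hy
    rw [map_add]
    convert this using 1
    · simp
    · abel
  · rw [image_insert, hgv]
    congr 1
    conv_rhs => rw [← image_id (s := τ)]
    refine image_congr fun u hu => ?_
    have hu1 := mem_insert_of_mem (b := v) hu
    have hu2 := mem_insert_of_mem (b := v') hu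
    have : g • (u ⊓ S.M) = u ⊓ S.M := by
      rw [smul_eq_map g (ψ := LinearMap.id), Submodule.map_id]
      intro x hx
      have hx1 : x ∈ S.tr 1 v ⊓ S.M := inf_le_inf_right _ (le_tr h hv h0 hu1) hx
      have hx2 : x ∈ S.tr 1 v' ⊓ S.M := inf_le_inf_right _ (le_tr h' hv' h0' hu2) hx
      have e : (φ ⟨x, hx1⟩ : V) - x ∈ S.tr 1 v' ⊓ S.M ⊓ S.tr 1 S.M :=
        ⟨sub_mem (φ ⟨x, hx1⟩).2 hx2, hφ ⟨x, hx1⟩⟩
      rw [b1, Submodule.mem_bot, sub_eq_zero] at e
      exact (hg ⟨x, hx1⟩).trans e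
    change g • u = u
    conv_lhs => rw [eq_sup h hv h0 hu1, Setup.smul_sup, hgv, this]
    exact (eq_sup h' hv' h0' hu2).symm

theorem sub_mem_Ib (h : insert v τ ∈ S.Y) (h' : insert v' τ ∈ S.Y) (h0 : S.chi v = 0)
    (h0' : S.chi v' = 0) {b : ℕ} (hb : (insert v τ).card = b) :
    Finsupp.single (insert v' τ) (1 : F2) - Finsupp.single (insert v τ) 1 ∈ Ib (S.N 1) S.Y b := by
  obtain ⟨g, hg, e⟩ := exists_N h h' h0 h0'
  exact Submodule.subset_span ⟨g, hg, _, h, hb, by rw [e]⟩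

theorem exists_apex [Fintype F] (S : Setup F V n) : ∃ e : Finset (Submodule F V) → Submodule F V,
    ∀ τ ∈ S.Y, S.chi (e τ) = 0 ∧ insert (e τ) τ ∈ S.Y := by
  have : ∀ τ, ∃ v, τ ∈ S.Y → S.chi v = 0 ∧ insert v τ ∈ S.Y := fun τ => by
    by_cases h : τ ∈ S.Y
    · obtain ⟨c, hc, hs, hn⟩ := Setup.pure_Y h
      obtain ⟨v, hv, h0⟩ := Setup.exists_of_chamber (S.mem_Y.1 hc).1 hn (j := 0) le_rfl
        (by exact_mod_cast S.pos)
      exact ⟨v, fun _ => ⟨h0, S.down_Y c hc _ (insert_subset hv hs)⟩⟩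
    · exact ⟨⊥, fun h' => absurd h' h⟩
  choose e he using this
  exact ⟨e, he⟩

theorem map_mem_of_single {W : Type} [DecidableEq W] {K : Set (Finset W)} {b : ℕ}
    (T : Ch W →ₗ[F2] Ch W) (P : Submodule F2 (Ch W))
    (h : ∀ σ ∈ K, σ.card = b → T (Finsupp.single σ 1) ∈ P) {x : Ch W} (hx : x ∈ Cb K b) :
    T x ∈ P := by
  rw [Cb, Finsupp.supported_eq_span_single] at hx
  refine (Submodule.span_le (p := P.comap T)).2 ?_ hx
  rintro _ ⟨σ, hσ, rfl⟩
  exact h σ hσ.1 hσ.2

end WconeAux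

namespace Setup

variable {F V : Type} [Field F] [AddCommGroup V] [Module F V] {n : ℕ} (S : Setup F V n)

open WconeAux in
/-- The quotient of `Y` by the congruence subgroup of level one is a cone. -/
theorem sVan_one [Fintype F] (b : ℕ) : SVan (S.N 1) S.Y b := by
  obtain ⟨e, he⟩ := exists_apex S
  let c : Ch (Submodule F V) →ₗ[F2] Ch (Submodule F V) :=
    Finsupp.linearCombination F2 fun τ =>
      if ∃ v ∈ τ, S.chi v = 0 then 0 else Finsupp.single (insert (e τ) τ) 1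
  have c0 : ∀ τ, (∃ v ∈ τ, S.chi v = 0) → c (Finsupp.single τ 1) = 0 := fun τ h => by
    simp only [c, Finsupp.linearCombination_single, if_pos h, smul_zero]
  have c1 : ∀ τ, (¬ ∃ v ∈ τ, S.chi v = 0) →
      c (Finsupp.single τ 1) = Finsupp.single (insert (e τ) τ) 1 := fun τ h => by
    simp only [c, Finsupp.linearCombination_single, if_neg h, one_smul]
  have hnot : ∀ τ ∈ S.Y, (¬ ∃ v ∈ τ, S.chi v = 0) → e τ ∉ τ := fun τ hτ h h' =>
    h ⟨_, h', (he τ hτ).1⟩
  intro x hx hbd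
  have h1 : c x ∈ Cb S.Y (b + 2) := by
    refine map_mem_of_single c _ (fun σ hσ hb => ?_) hx
    by_cases h : ∃ v ∈ σ, S.chi v = 0
    · rw [c0 σ h]
      exact zero_mem _
    · rw [c1 σ h]
      exact single_mem_Cb (he σ hσ).2 (by rw [card_insert_of_notMem (hnot σ hσ h), hb])
  have h2 : c (bd x) ∈ Ib (S.N 1) S.Y (b + 1) := by
    refine (Submodule.span_le (p := (Ib (S.N 1) S.Y (b + 1)).comap c)).2 ?_ hbd
    rintro _ ⟨g, hg, τ, hτ, hb, rfl⟩
    change c _ ∈ Ib (S.N 1) S.Y (b + 1)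
    have hτ' := S.inv_Y g τ hτ
    have hiff : (∃ v ∈ τ.image (g • ·), S.chi v = 0) ↔ ∃ v ∈ τ, S.chi v = 0 := by
      simp [chi_smul]
    rw [map_sub]
    by_cases h : ∃ v ∈ τ, S.chi v = 0
    · rw [c0 τ h, c0 _ (hiff.2 h), sub_self]
      exact zero_mem _
    · rw [c1 τ h, c1 _ (mt hiff.1 h)]
      have hc : (insert (e τ) τ).card = b + 1 := by
        rw [card_insert_of_notMem (hnot τ hτ h), hb]
      have k1 := S.inv_Y g _ (he τ hτ).2
      have k2 : Finsupp.single ((insert (e τ) τ).image (g • ·)) (1 : F2) -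
          Finsupp.single (insert (e τ) τ) 1 ∈ Ib (S.N 1) S.Y (b + 1) :=
        Submodule.subset_span ⟨g, hg, _, (he τ hτ).2, hc, rfl⟩
      rw [← card_image_of_injective _ (MulAction.injective g)] at hc
      rw [image_insert] at k1 k2 hc
      have k3 := sub_mem_Ib k1 (he _ hτ').2 (by rw [chi_smul, (he τ hτ).1]) (he _ hτ').1 hc
      simpa using add_mem k3 k2
  have h3 : (c ∘ₗ bd + bd ∘ₗ c - LinearMap.id : Ch (Submodule F V) →ₗ[F2] Ch (Submodule F V)) x ∈
      Ib (S.N 1) S.Y (b + 1) := by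
    refine map_mem_of_single _ _ (fun σ hσ hb => ?_) hx
    simp only [LinearMap.sub_apply, LinearMap.add_apply, LinearMap.comp_apply, LinearMap.id_apply]
    have hd : ∀ w, σ.erase w ∈ S.Y := fun w => S.down_Y σ hσ _ (erase_subset _ _)
    by_cases h : ∃ v ∈ σ, S.chi v = 0
    · obtain ⟨v, hv, h0⟩ := h
      have hn : ¬ ∃ u ∈ σ.erase v, S.chi u = 0 := by
        rintro ⟨u, hu, hu0⟩
        exact (mem_erase.1 hu).1 (TransAux.eq_of_chi hσ (mem_erase.1 hu).2 hv (hu0.trans h0.symm))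
      rw [c0 σ ⟨v, hv, h0⟩, map_zero, add_zero, bd_single, map_sum, sum_eq_single v, c1 _ hn]
      · have := sub_mem_Ib (v := v) (τ := σ.erase v) (by rwa [insert_erase hv]) (he _ (hd v)).2 h0
          (he _ (hd v)).1 (b := b + 1) (by rwa [insert_erase hv])
        rwa [insert_erase hv] at this
      · exact fun w _ hw => c0 _ ⟨v, mem_erase.2 ⟨hw.symm, hv⟩, h0⟩
      · exact fun h => absurd hv h
    · have k1 := bd_cone (e σ) (Finsupp.single σ 1)
      rw [ChainAux.cone_single, if_neg (hnot σ hσ h), ← c1 σ h] at k1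
      have k2 : c (bd (Finsupp.single σ 1)) + bd (c (Finsupp.single σ 1)) - Finsupp.single σ 1 =
          c (bd (Finsupp.single σ 1)) - cone (e σ) (bd (Finsupp.single σ 1)) := by
        rw [← eq_sub_iff_add_eq] at k1
        rw [k1]
        abel
      rw [k2, bd_single, map_sum, map_sum, ← sum_sub_distrib]
      refine sum_mem fun w hw => ?_
      have hn : ¬ ∃ u ∈ σ.erase w, S.chi u = 0 := fun ⟨u, hu, hu0⟩ =>
        h ⟨u, mem_of_mem_erase hu, hu0⟩
      have hn' : e σ ∉ σ.erase w := fun h' => hnot σ hσ h (mem_of_mem_erase h')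
      rw [c1 _ hn, ChainAux.cone_single, if_neg hn']
      refine sub_mem_Ib (S.down_Y _ (he σ hσ).2 _ (insert_subset_insert _ (erase_subset _ _)))
        (he _ (hd w)).2 (he σ hσ).1 (he _ (hd w)).1 ?_
      rw [card_insert_of_notMem hn', card_erase_of_mem hw, hb]
      rfl
  refine ⟨c x, h1, ?_⟩
  have := sub_mem h2 h3
  simp only [LinearMap.sub_apply, LinearMap.add_apply, LinearMap.comp_apply,
    LinearMap.id_apply] at this
  convert this using 1
  abel

end Setup

end Crest.Agent.R66
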