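import Crest.Agent.R66.Induct
import Crest.Agent.R66.Simp
import Crest.Agent.R66.GFill
import Crest.Agent.R66.Free
import Crest.Agent.R66.Wcone
import Crest.Agent.R66.Bridge
import Crest.Agent.R66.Expand
import Crest.Agent.R66.Quot
import Crest.Agent.R66.Final

set_option autoImplicit false

namespace Crest.Agent.R66

open Finset Polynomial Crest.CombinatoricsR.Cochain

theorem hv_iff_of_bridge {F V : Type} [Field F] [AddCommGroup V] [Module F V] {n : ℕ}
    {S : Setup F V n} (e : GL (Fin n) F[X] ≃* S.Aut) (he : ∀ k g, g ∈ Ncg F n k ↔ e g ∈ S.N k)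
    (k i : ℕ) : HV (Ncg F n k) i ↔ HV (S.N k) i := by
  have hmap : (Ncg F n k).map (e : GL (Fin n) F[X] →* S.Aut) = S.N k := by
    ext g
    constructor
    · rintro ⟨g, hg, rfl⟩
      exact (he k g).1 hg
    · intro hg
      exact ⟨e.symm g, (he k _).2 (by simpa using hg), by simp⟩
  have e' : Ncg F n k ≃* S.N k := (e.subgroupMap (Ncg F n k)).trans (MulEquiv.subgroupCongr hmap)
  exact ⟨fun h => h.congr e', fun h => h.congr e'.symm⟩

theorem exists_cone_bound (n₀ : ℕ) : ∃ R q₀ : ℕ, ∀ n ≤ n₀, ∀ (F V : Type) [Field F] [Fintype F]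
    [AddCommGroup V] [Module F V] (S : Setup F V n), q₀ ≤ Fintype.card F →
    ∀ σ ∈ S.B, σ.Nonempty → Cone (S.G σ) (n - σ.card) R := by
  choose R q h using cone_G
  refine ⟨(range (n₀ + 1)).sup R, (range (n₀ + 1)).sup q, fun n hn F V _ _ _ _ S hq σ hσ hne => ?_⟩
  have hn' : n ∈ range (n₀ + 1) := mem_range.2 (by omega)
  exact (h n F V S ((le_sup (f := q) hn').trans hq) σ hσ hne).mono le_rfl (le_sup (f := R) hn')

theorem main (d : ℕ) (hd : 1 ≤ d) :
    ∃ D : ℕ, ∃ ε : ℝ, 0 < ε ∧ ∀ N : ℕ, ∃ n : ℕ, ∃ T : Finset (Finset (Fin n)), N ≤ n ∧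
      (∀ τ ∈ T, τ.card = d + 1) ∧
      (∀ v : Fin n, 1 ≤ vertexDegree T v ∧ vertexDegree T v ≤ D) ∧
      (skeleton T).Connected ∧
      ∀ i : ℕ, i < d → ∀ f : Finset (Fin n) → ZMod 2,
        ∃ b : Finset (Fin n) → ZMod 2, IsCoboundaryClass i b ∧
          ε * cochainNorm d T i (f - b) ≤ cochainNorm d T (i + 1) (coboundary i f) := by
  obtain ⟨R, q₀, hcone⟩ := exists_cone_bound (2 * d + 2)
  obtain ⟨q₁, hexp⟩ := expand (2 * d + 2) R
  obtain ⟨p, hpge, hp⟩ := Nat.exists_infinite_primes (q₀ + q₁ + 3)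
  haveI : Fact p.Prime := ⟨hp⟩
  have hodd : Odd p := hp.odd_of_ne_two (by omega)
  have hcard : Fintype.card (ZMod p) = p := ZMod.card p
  -- the homology of the congruence subgroup of level one
  have hW : ∀ n i, i + 3 ≤ n → n ≤ 2 * d + 2 → HV (Ncg (ZMod p) n 1) i := by
    intro n i hi hn
    obtain ⟨V, _, _, S, e, he⟩ := bridge (ZMod p) (n := n) (by omega)
    rw [hv_iff_of_bridge e he]
    refine (sVan_iff S.down_Y S.empty_mem_Y S.inv_Y (N := S.N 3) (Setup.N_anti (by norm_num))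
      (S.odd_relIndex_N hodd 3) (fun g hg σ hσ hne h => Setup.eq_one_of_fix le_rfl hg hσ hne h)
      fun a ha => S.sEx_Y (hcone n hn _ V S (by omega)) (by omega)).1 (S.sVan_one i)
  obtain ⟨V, _, _, S, e, he⟩ := bridge (ZMod p) (n := 2 * d + 2) (by omega)
  have hc := hcone _ le_rfl _ V S (by omega)
  obtain ⟨D, hD⟩ := S.deg_geo
  obtain ⟨C, hC⟩ := hexp D
  obtain ⟨D', ε, hε, hfin⟩ := final d (2 * d + 2) D C hd (by omega)
  refine ⟨D', ε, hε, fun N => ?_⟩
  haveI : Infinite S.Aut :=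
    haveI := infinite_GL (F := ZMod p) (n := 2 * d + 2) (by omega)
    Infinite.of_injective e e.injective
  obtain ⟨k, hk, s, hs, hsY, hsN⟩ := S.exists_many N
  haveI := S.finiteIndex_N k
  obtain ⟨V', _, _, X, G, hT, hv, hth, hr2, hco, hdeg, hs1, hvan, hsz⟩ :=
    quot (by omega) S.geo S.trans_geo (S.N k)
      fun v u g hg h₁ h₂ => Setup.smul_eq_of_adj hk hg h₁ h₂
  haveI : Fintype G := Fintype.ofFinite G
  have hX1 : SEx X.K 1 := hs1 (S.sEx_Y hc (by omega))
  have hY : ∀ a < d, SVan (S.N k) S.Y a := fun a ha => by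
    refine (sVan_iff S.down_Y S.empty_mem_Y S.inv_Y (N := S.N k) le_rfl (by simp)
      (fun g hg σ hσ hne h => Setup.eq_one_of_fix hk hg hσ hne h)
      fun b hb => S.sEx_Y hc (by omega)).2 ?_
    rw [← hv_iff_of_bridge e he]
    exact hv_Ncg hodd (by omega) (2 * d + 2) hW a _ (by omega) le_rfl
  obtain ⟨T, hT'⟩ := hfin V' X hv hX1 (hdeg D hD) fun a ha =>
    hC V' X G _ (by omega) hT (hth _ (S.thick_geo (by omega))) (hr2 _ (S.rank2_geo (by omega)))
      (hco R (S.cones_geo hc)) hX1 (hdeg D hD) a (by omega) (hvan a (hY a ha))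
  exact ⟨_, T, hs.trans (hsz s hsY hsN), hT'⟩

end Crest.Agent.R66
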