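import Crest.Agent.R66.Defs

set_option autoImplicit false

namespace Crest.Agent.R66

open Finset

/-- An orthogonal projection. -/
structure IsProj {E : Type} [NormedAddCommGroup E] [InnerProductSpace ℝ E] (P : E →ₗ[ℝ] E) :
    Prop where
  idem : ∀ v, P (P v) = P v
  symm : ∀ v w, inner ℝ (P v) w = inner ℝ v (P w)

namespace SpecAux

variable {E : Type} [NormedAddCommGroup E] [InnerProductSpace ℝ E]

theorem inner_self_proj {P : E →ₗ[ℝ] E} (hP : IsProj P) (v : E) :
    inner ℝ v (P v) = ‖P v‖ ^ 2 := by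
  rw [← real_inner_self_eq_norm_sq, hP.symm, hP.idem]

theorem comp_eq {P Q : E →ₗ[ℝ] E} (hP : IsProj P) (hQ : IsProj Q) (h : ∀ v, P (Q v) = Q v)
    (v : E) : Q (P v) = Q v := by
  refine ext_inner_right ℝ fun x => ?_
  rw [hQ.symm, hP.symm, h, hQ.symm]

theorem norm_sub_proj {P : E →ₗ[ℝ] E} (hP : IsProj P) (v : E) :
    ‖v - P v‖ ^ 2 = ‖v‖ ^ 2 - ‖P v‖ ^ 2 := by
  rw [norm_sub_sq_real, inner_self_proj hP]
  ring

theorem inner_sub_proj {P : E →ₗ[ℝ] E} (hP : IsProj P) (v : E) :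
    inner ℝ (v - P v) v = ‖v - P v‖ ^ 2 := by
  rw [norm_sub_proj hP, inner_sub_left, real_inner_self_eq_norm_sq, real_inner_comm,
    inner_self_proj hP]

/-- The two-subspace lemma. -/
theorem two_sub {P P' Q : E →ₗ[ℝ] E} {ε : ℝ} (hε : 0 ≤ ε) (hε1 : ε ≤ 1) (hP : IsProj P)
    (hP' : IsProj P') (hQ : IsProj Q) (h : ∀ v, P (Q v) = Q v ∧ P' (Q v) = Q v)
    (hang : ∀ a b, P a = a → P' b = b → Q a = 0 → Q b = 0 → inner ℝ a b ≤ ε * ‖a‖ * ‖b‖)
    (v : E) :
    -(ε * (‖v - P v‖ ^ 2 + ‖v - P' v‖ ^ 2)) ≤ 2 * inner ℝ (v - P v) (v - P' v) := by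
  obtain ⟨w, hw⟩ : ∃ w, w = v - Q v := ⟨_, rfl⟩
  have e1 : v - P v = w - P w := by rw [hw, map_sub, (h v).1]; abel
  have e2 : v - P' v = w - P' w := by rw [hw, map_sub, (h v).2]; abel
  have hQw : Q w = 0 := by rw [hw, map_sub, hQ.idem, sub_self]
  have hc := hang (P w) (P' w) (hP.idem w) (hP'.idem w)
    (by rw [comp_eq hP hQ (fun v => (h v).1), hQw])
    (by rw [comp_eq hP' hQ (fun v => (h v).2), hQw])
  rw [e1, e2, norm_sub_proj hP, norm_sub_proj hP', inner_sub_left, inner_sub_right,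
    inner_sub_right, real_inner_self_eq_norm_sq, inner_self_proj hP', real_inner_comm w (P w),
    inner_self_proj hP]
  have h0 : 0 ≤ ‖(1 + ε) • w - (P w + P' w)‖ ^ 2 := sq_nonneg _
  rw [norm_sub_sq_real, norm_add_sq_real, norm_smul, inner_smul_left, inner_add_right,
    inner_self_proj hP, inner_self_proj hP', Real.norm_of_nonneg (by linarith)] at h0
  simp only [conj_trivial] at h0
  have h1 : 2 * inner ℝ (P w) (P' w) ≤ ε * (‖P w‖ ^ 2 + ‖P' w‖ ^ 2) := by
    nlinarith [mul_nonneg hε (sq_nonneg (‖P w‖ - ‖P' w‖))]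
  have h2 := mul_nonneg (sub_nonneg.2 hε1) (sub_nonneg.2 h1)
  have h3 : 0 ≤ (1 + ε) * ((2 + 2 * ε) * ‖w‖ ^ 2 - (2 + ε) * (‖P w‖ ^ 2 + ‖P' w‖ ^ 2) +
      2 * inner ℝ (P w) (P' w)) := by nlinarith
  have h4 := nonneg_of_mul_nonneg_right h3 (by linarith)
  nlinarith

end SpecAux

open SpecAux

/-- Small angles between pairs of subspaces give a small angle between one subspace and the
intersection of the others. -/
theorem spec {E ι : Type} [NormedAddCommGroup E] [InnerProductSpace ℝ E] [FiniteDimensional ℝ E]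
    [Fintype ι] (P : ι → E →ₗ[ℝ] E) (Q : ι → ι → E →ₗ[ℝ] E) (T : E →ₗ[ℝ] E) {ε : ℝ} (hε : 0 ≤ ε)
    (hP : ∀ i, IsProj (P i)) (hQ : ∀ i j, IsProj (Q i j)) (hT : IsProj T)
    (hPQ : ∀ i j v, P i (Q i j v) = Q i j v ∧ P j (Q i j v) = Q i j v)
    (hPT : ∀ i v, P i (T v) = T v) (hker : ∀ v, (∀ i, P i v = v) → T v = v)
    (hang : ∀ i j, i ≠ j → ∀ a b, P i a = a → P j b = b → Q i j a = 0 → Q i j b = 0 →
      inner ℝ a b ≤ ε * ‖a‖ * ‖b‖)
    (u : ι) {v : E} (hv : ∀ i, i ≠ u → P i v = v) (hv' : T v = 0) :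
    ‖P u v‖ ^ 2 ≤ Fintype.card ι * ε * ‖v‖ ^ 2 := by
  classical
  set N : ℝ := (Fintype.card ι : ℝ) with hN
  have hN1 : 1 ≤ N := by
    rw [hN]
    exact_mod_cast Fintype.card_pos_iff.2 ⟨u⟩
  have hu := norm_sub_proj (hP u) v
  rcases le_total 1 (N * ε) with hbig | hsm
  · nlinarith [sq_nonneg ‖v - P u v‖, sq_nonneg ‖v‖]
  have hε1 : ε ≤ 1 := by nlinarith
  let D : E →ₗ[ℝ] E := ∑ i, (LinearMap.id - P i)
  have hD : ∀ x, D x = ∑ i, (x - P i x) := fun x => by simp [D, LinearMap.sum_apply]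
  have hDx : ∀ x, inner ℝ (D x) x = ∑ i, ‖x - P i x‖ ^ 2 := fun x => by
    rw [hD, sum_inner]
    exact Finset.sum_congr rfl fun i _ => inner_sub_proj (hP i) x
  have hDs : ∀ x y, inner ℝ (D x) y = inner ℝ x (D y) := fun x y => by
    rw [hD, hD, sum_inner, inner_sum]
    refine Finset.sum_congr rfl fun i _ => ?_
    rw [inner_sub_left, inner_sub_right, (hP i).symm]
  have hD0 : ∀ x, 0 ≤ inner ℝ (D x) x := fun x => by
    rw [hDx]
    exact Finset.sum_nonneg fun i _ => sq_nonneg _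
  have hTD : ∀ x, T (D x) = 0 := fun x => by
    rw [hD, map_sum]
    refine Finset.sum_eq_zero fun i _ => ?_
    rw [map_sub, comp_eq (hP i) hT (hPT i), sub_self]
  have hDD : ∀ x, (1 - N * ε) * inner ℝ (D x) x ≤ ‖D x‖ ^ 2 := fun x => by
    rw [hDx, ← real_inner_self_eq_norm_sq, hD, sum_inner]
    simp only [inner_sum]
    have h1 : ∀ i j, (if i = j then ‖x - P i x‖ ^ 2 else 0) -
        ε / 2 * (‖x - P i x‖ ^ 2 + ‖x - P j x‖ ^ 2) ≤ inner ℝ (x - P i x) (x - P j x) := by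
      intro i j
      split_ifs with hij
      · subst hij
        rw [real_inner_self_eq_norm_sq]
        nlinarith [mul_nonneg hε (sq_nonneg ‖x - P i x‖)]
      · have := two_sub hε hε1 (hP i) (hP j) (hQ i j) (hPQ i j) (hang i j hij) x
        linarith
    refine le_trans (le_of_eq ?_)
      (Finset.sum_le_sum fun i _ => Finset.sum_le_sum fun j _ => h1 i j)
    simp only [Finset.sum_sub_distrib, Finset.sum_ite_eq, Finset.mem_univ, if_true,
      ← Finset.mul_sum, Finset.sum_add_distrib, Finset.sum_const, Finset.card_univ, nsmul_eq_mul]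
    ring
  have hinj : Function.Injective (D + T) := by
    rw [injective_iff_map_eq_zero]
    intro x hx
    have h1 : T x = 0 := by
      have := congrArg T hx
      rwa [LinearMap.add_apply, map_add, hTD, hT.idem, zero_add, map_zero] at this
    have h2 : D x = 0 := by rwa [LinearMap.add_apply, h1, add_zero] at hx
    have h3 := hDx x
    rw [h2, inner_zero_left, eq_comm,
      Finset.sum_eq_zero_iff_of_nonneg fun i _ => sq_nonneg _] at h3
    rw [← hker x fun i => ?_, h1]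
    have := h3 i (Finset.mem_univ i)
    rw [sq_eq_zero_iff, norm_eq_zero, sub_eq_zero] at this
    exact this.symm
  obtain ⟨y, hy⟩ := LinearMap.injective_iff_surjective.1 hinj v
  have h1 : T y = 0 := by
    have := congrArg T hy
    rwa [LinearMap.add_apply, map_add, hTD, hT.idem, zero_add, hv'] at this
  have h2 : D y = v := by rwa [LinearMap.add_apply, h1, add_zero] at hy
  set κ := 1 - N * ε with hκ
  have hκ0 : 0 ≤ κ := by linarith
  have h3 := hD0 (v - κ • y)
  rw [map_sub, map_smul, inner_sub_left, inner_sub_right, inner_sub_right, inner_smul_left,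
    inner_smul_left, inner_smul_right, inner_smul_right, hDs v y, h2,
    real_inner_self_eq_norm_sq] at h3
  simp only [conj_trivial] at h3
  have h4 := hDD y
  rw [h2] at h4
  have h5 : inner ℝ (D v) v = ‖v - P u v‖ ^ 2 := by
    rw [hDx, Finset.sum_eq_single u]
    · intro i _ hi
      rw [hv i hi]
      simp
    · simp
  have h6 := mul_le_mul_of_nonneg_left h4 hκ0
  nlinarith

end Crest.Agent.R66
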