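import Crest.Agent.R66.R2
import Crest.Agent.R66.Spec

set_option autoImplicit false

namespace Crest.Agent.R66

open Finset

namespace MixAux

variable {Ω β : Type} [DecidableEq β] (s : Finset Ω) (κ : Ω → β)

theorem ce_congr (φ : Ω → ℝ) {c c' : Ω} (h : κ c = κ c') : ce s κ φ c = ce s κ φ c' := by
  simp only [ce, h]

theorem ce_congr_fun {φ ψ : Ω → ℝ} (h : ∀ c ∈ s, φ c = ψ c) (c : Ω) :
    ce s κ φ c = ce s κ ψ c := by
  unfold ce
  congr 1
  exact Finset.sum_congr rfl fun x hx => h x (Finset.mem_filter.1 hx).1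

theorem ce_of_const {φ : Ω → ℝ} {c : Ω} (hc : c ∈ s) (h : ∀ c' ∈ s, κ c' = κ c → φ c' = φ c) :
    ce s κ φ c = φ c := by
  unfold ce
  rw [Finset.sum_congr rfl fun x hx => h x (Finset.mem_filter.1 hx).1 (Finset.mem_filter.1 hx).2,
    Finset.sum_const, nsmul_eq_mul]
  have : (0 : ℝ) < (s.filter fun ω' => κ ω' = κ c).card := by
    have hm : c ∈ s.filter fun ω' => κ ω' = κ c := Finset.mem_filter.2 ⟨hc, rfl⟩
    exact_mod_cast Finset.card_pos.2 ⟨c, hm⟩
  field_simp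

theorem ce_symm (φ ψ : Ω → ℝ) :
    ∑ c ∈ s, ce s κ φ c * ψ c = ∑ c ∈ s, φ c * ce s κ ψ c := by
  simp only [ce, Finset.sum_filter, Finset.sum_div, Finset.sum_mul, Finset.mul_sum]
  rw [Finset.sum_comm]
  refine Finset.sum_congr rfl fun c _ => Finset.sum_congr rfl fun c' _ => ?_
  by_cases h : κ c = κ c'
  · rw [if_pos h, if_pos h.symm, h]
    ring
  · rw [if_neg h, if_neg fun e => h e.symm]
    simp

open Classical in
/-- Extension by zero. -/
noncomputable def ex (f : EuclideanSpace ℝ s) : Ω → ℝ := fun c => if h : c ∈ s then f ⟨c, h⟩ else 0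

/-- Restriction. -/
noncomputable def rs (φ : Ω → ℝ) : EuclideanSpace ℝ s := WithLp.toLp 2 fun c => φ c

variable {s}

theorem ex_coe (f : EuclideanSpace ℝ s) (c : s) : ex s f c = f c := by
  simp [ex]

theorem ex_of_mem (f : EuclideanSpace ℝ s) {c : Ω} (h : c ∈ s) : ex s f c = f ⟨c, h⟩ := by
  simp [ex, h]

theorem ex_rs (φ : Ω → ℝ) {c : Ω} (h : c ∈ s) : ex s (rs s φ) c = φ c := by
  rw [ex_of_mem _ h]
  rfl

theorem inner_eq (f g : EuclideanSpace ℝ s) : inner ℝ f g = ∑ c ∈ s, ex s f c * ex s g c := by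
  rw [← Finset.sum_coe_sort s, PiLp.inner_apply]
  refine Finset.sum_congr rfl fun c _ => ?_
  rw [ex_coe, ex_coe]
  simp [mul_comm]

theorem norm_eq (f : EuclideanSpace ℝ s) : ‖f‖ = √(∑ c ∈ s, ex s f c ^ 2) := by
  rw [norm_eq_sqrt_real_inner, inner_eq]
  simp only [sq]

variable (s)

/-- Conditional expectation as a linear map. -/
noncomputable def CE : EuclideanSpace ℝ s →ₗ[ℝ] EuclideanSpace ℝ s where
  toFun f := rs s (ce s κ (ex s f))
  map_add' f g := by
    ext c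
    have : ∀ c' ∈ s, ex s (f + g) c' = ex s f c' + ex s g c' := fun c' h => by
      simp only [ex_of_mem _ h]
      rfl
    change ce s κ (ex s (f + g)) c = ce s κ (ex s f) c + ce s κ (ex s g) c
    rw [ce_congr_fun s κ this]
    simp only [ce, Finset.sum_add_distrib, add_div]
  map_smul' a f := by
    ext c
    have : ∀ c' ∈ s, ex s (a • f) c' = a * ex s f c' := fun c' h => by
      simp only [ex_of_mem _ h]
      rfl
    change ce s κ (ex s (a • f)) c = a * ce s κ (ex s f) c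
    rw [ce_congr_fun s κ this]
    simp only [ce, ← Finset.mul_sum, mul_div_assoc]

theorem ex_CE (f : EuclideanSpace ℝ s) {c : Ω} (h : c ∈ s) :
    ex s (CE s κ f) c = ce s κ (ex s f) c := ex_rs _ h

theorem CE_eq_iff (f : EuclideanSpace ℝ s) :
    CE s κ f = f ↔ ∀ c ∈ s, ∀ c' ∈ s, κ c = κ c' → ex s f c = ex s f c' := by
  constructor
  · intro h c hc c' hc' e
    rw [← h, ex_CE s κ f hc, ex_CE s κ f hc', ce_congr s κ _ e]
  · intro h
    ext c
    rw [← ex_coe, ← ex_coe, ex_CE s κ f c.2]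
    exact ce_of_const s κ c.2 fun c' hc' e => h c' hc' c c.2 e

theorem CE_CE {β' : Type} [DecidableEq β'] (κ' : Ω → β') (h : ∀ c c', κ c = κ c' → κ' c = κ' c')
    (f : EuclideanSpace ℝ s) : CE s κ (CE s κ' f) = CE s κ' f := by
  rw [CE_eq_iff]
  intro c hc c' hc' e
  rw [ex_CE s κ' f hc, ex_CE s κ' f hc', ce_congr s κ' _ (h c c' e)]

theorem isProj_CE : IsProj (CE s κ) where
  idem := CE_CE s κ κ fun _ _ h => h
  symm v w := by
    rw [inner_eq, inner_eq, Finset.sum_congr rfl fun c hc => by rw [ex_CE s κ v hc], ce_symm]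
    exact Finset.sum_congr rfl fun c hc => by rw [ex_CE s κ w hc]

end MixAux

open MixAux

namespace Geo

variable {n : ℕ} {V : Type} [DecidableEq V] [Fintype V] (X : Geo n V)

/-- The mixing estimate between a vertex and the complementary panel, over a face of type `r`. -/
theorem mixing {G : Type} [Group G] [MulAction G V] (hT : X.Trans G) {q : ℕ} (hq : 2 ≤ q)
    (h₁ : X.Thick q) (h₂ : X.Rank2 q) (hc : ∀ σ ∈ X.K, σ.card + 2 ≤ n → SEx (lk X.K σ) 1)
    {r : Finset (Fin n)} {u : Fin n} (hu : u ∉ r) (a b : Finset V → ℝ)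
    (ha : ∀ c ∈ X.ch, ∀ c' ∈ X.ch, X.res (insert u r) c = X.res (insert u r) c' → a c = a c')
    (hb : ∀ c ∈ X.ch, ∀ c' ∈ X.ch, X.res (univ.erase u) c = X.res (univ.erase u) c' → b c = b c') :
    ∑ c ∈ X.ch, a c * b c ≤ ∑ c ∈ X.ch, ce X.ch (X.res r) a c * ce X.ch (X.res r) b c +
      √(n * √(3 / q)) * √(∑ c ∈ X.ch, a c ^ 2) * √(∑ c ∈ X.ch, b c ^ 2) := by
  have hres : ∀ {J J' : Finset (Fin n)}, J ⊆ J' → ∀ c c' : Finset V,
      X.res J' c = X.res J' c' → X.res J c = X.res J c' := fun h c c' e => by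
    rw [← X.res_res h c, e, X.res_res h c']
  let P : {i // i ∉ r} → EuclideanSpace ℝ X.ch →ₗ[ℝ] EuclideanSpace ℝ X.ch :=
    fun i => CE X.ch (X.res (univ.erase i.1))
  let Q : {i // i ∉ r} → {i // i ∉ r} → EuclideanSpace ℝ X.ch →ₗ[ℝ] EuclideanSpace ℝ X.ch :=
    fun i j => CE X.ch (X.res ((univ.erase i.1).erase j.1))
  let T : EuclideanSpace ℝ X.ch →ₗ[ℝ] EuclideanSpace ℝ X.ch := CE X.ch (X.res r)
  have hTp : IsProj T := isProj_CE _ _
  have hPp : ∀ i, IsProj (P i) := fun i => isProj_CE _ _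
  have hPT : ∀ i v, P i (T v) = T v := fun i v =>
    CE_CE _ _ _ (hres fun x hx => Finset.mem_erase.2
      ⟨fun e : x = i.1 => i.2 (e ▸ hx), Finset.mem_univ _⟩) v
  set A := rs X.ch a with hA
  set B := rs X.ch b with hB
  have hPA : ∀ i, i ≠ ⟨u, hu⟩ → P i A = A := fun i hi => by
    rw [CE_eq_iff]
    intro c hc c' hc' e
    rw [ex_rs _ hc, ex_rs _ hc']
    refine ha c hc c' hc' (hres (fun x hx => Finset.mem_erase.2 ⟨?_, Finset.mem_univ _⟩) c c' e)
    rintro rfl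
    rcases Finset.mem_insert.1 hx with h | h
    · exact hi (Subtype.ext h)
    · exact i.2 h
  have hPB : P ⟨u, hu⟩ B = B := by
    rw [CE_eq_iff]
    intro c hc c' hc' e
    rw [ex_rs _ hc, ex_rs _ hc']
    exact hb c hc c' hc' e
  have key := spec P Q T (Real.sqrt_nonneg (3 / q)) hPp (fun i j => isProj_CE _ _) hTp
    (fun i j v => ⟨CE_CE _ _ _ (hres (Finset.erase_subset _ _)) v,
      CE_CE _ _ _ (hres (Finset.erase_subset_erase _ (Finset.subset_univ _))) v⟩) hPT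
    (fun v hv => (CE_eq_iff _ _ v).2 (X.gallery hc (ex X.ch v) r fun c hc c' hc' i hi e =>
      (CE_eq_iff _ _ v).1 (hv ⟨i, hi⟩) c hc c' hc' e))
    (fun i j hij f g hf hg hf' hg' => by
      rw [inner_eq, norm_eq, norm_eq]
      refine X.rank2_ineq hT hq h₁ h₂ (fun e => hij (Subtype.ext e)) _ _
        ((CE_eq_iff _ _ f).1 hf) ((CE_eq_iff _ _ g).1 hg) (fun c hc => ?_) fun c hc => ?_
      · rw [← ex_CE _ _ f hc]
        change ex X.ch (Q i j f) c = 0
        rw [hf', ex_of_mem _ hc]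
        rfl
      · rw [← ex_CE _ _ g hc]
        change ex X.ch (Q i j g) c = 0
        rw [hg', ex_of_mem _ hc]
        rfl)
    ⟨u, hu⟩ (v := A - T A) (fun i hi => by rw [map_sub, hPA i hi, hPT])
    (by rw [map_sub, hTp.idem, sub_self])
  have e1 : ∑ c ∈ X.ch, a c * b c = inner ℝ A B := by
    rw [inner_eq]
    exact Finset.sum_congr rfl fun c hc => by rw [ex_rs _ hc, ex_rs _ hc]
  have e2 : ∑ c ∈ X.ch, ce X.ch (X.res r) a c * ce X.ch (X.res r) b c = inner ℝ (T A) (T B) := by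
    rw [inner_eq]
    refine Finset.sum_congr rfl fun c hc => ?_
    rw [ex_CE _ _ A hc, ex_CE _ _ B hc, ce_congr_fun _ _ (fun c hc => ex_rs a hc),
      ce_congr_fun _ _ (fun c hc => ex_rs b hc)]
  have e3 : √(∑ c ∈ X.ch, a c ^ 2) = ‖A‖ := by
    rw [norm_eq]
    congr 1
    exact Finset.sum_congr rfl fun c hc => by rw [ex_rs _ hc]
  have e4 : √(∑ c ∈ X.ch, b c ^ 2) = ‖B‖ := by
    rw [norm_eq]
    congr 1
    exact Finset.sum_congr rfl fun c hc => by rw [ex_rs _ hc]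
  rw [e1, e2, e3, e4]
  have e5 : inner ℝ A B = inner ℝ (T A) (T B) + inner ℝ (P ⟨u, hu⟩ (A - T A)) B := by
    rw [(hPp _).symm, hPB, inner_sub_left, ← hTp.symm, hTp.idem]
    ring
  have h6 : ‖A - T A‖ ^ 2 ≤ ‖A‖ ^ 2 := by
    rw [SpecAux.norm_sub_proj hTp]
    nlinarith [sq_nonneg ‖T A‖]
  have h7 : (Fintype.card {i // i ∉ r} : ℝ) ≤ n := by
    have := Fintype.card_subtype_le fun i : Fin n => i ∉ r
    rw [Fintype.card_fin] at this
    exact_mod_cast this
  have h8 : ‖P ⟨u, hu⟩ (A - T A)‖ ≤ √(n * √(3 / q)) * ‖A‖ := by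
    rw [← Real.sqrt_sq (norm_nonneg A), ← Real.sqrt_mul (by positivity)]
    refine Real.le_sqrt_of_sq_le (key.trans ?_)
    gcongr
  rw [e5]
  gcongr
  exact (real_inner_le_norm _ _).trans (mul_le_mul_of_nonneg_right h8 (norm_nonneg _))

end Geo

end Crest.Agent.R66
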