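import Mathlib

/-! Row 66: spectral estimates for biregular bipartite graphs. -/

set_option autoImplicit false

namespace Crest.Agent.R66.Bip

open Finset

variable {α β Ω : Type}

/-- The matrix estimate. -/
theorem mat_ineq [DecidableEq α] (P : Finset α) (L : Finset β) (m : α → β → ℝ) (f : α → ℝ)
    {A B : ℝ} (hA1 : 1 ≤ A) (hm : ∀ x y, m x y * m x y = m x y)
    (hA : ∀ x ∈ P, ∑ y ∈ L, m x y = A) (hB : ∀ y ∈ L, ∑ x ∈ P, m x y = B)
    (hco : ∀ x ∈ P, ∀ x' ∈ P, x ≠ x' → ∑ y ∈ L, m x y * m x' y ≤ 1) (hf : ∑ x ∈ P, f x = 0) :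
    ∑ y ∈ L, (∑ x ∈ P, m x y * f x) ^ 2 ≤ (P.card - A * B + 2 * A - 2) * ∑ x ∈ P, f x ^ 2 := by
  set co : α → α → ℝ := fun x x' => ∑ y ∈ L, m x y * m x' y with hco_def
  have hsym : ∀ x x', co x x' = co x' x := fun x x' => sum_congr rfl fun y _ => mul_comm _ _
  have hdiag : ∀ x ∈ P, co x x = A := fun x hx => by
    simp only [hco_def, hm]
    exact hA x hx
  have hrow : ∀ x ∈ P, ∑ x' ∈ P, co x x' = A * B := fun x hx => by
    simp only [hco_def]
    rw [sum_comm, ← hA x hx, sum_mul]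
    exact sum_congr rfl fun y hy => by rw [← mul_sum, hB y hy]
  have habs : ∀ x ∈ P, ∑ x' ∈ P, |co x x' - 1| = P.card - A * B + 2 * A - 2 := fun x hx => by
    have h1 : ∀ x' ∈ P, |co x x' - 1| = (1 - co x x') + if x = x' then 2 * A - 2 else 0 := by
      intro x' hx'
      split_ifs with h
      · rw [← h, hdiag x hx, abs_of_nonneg (by linarith)]
        ring
      · rw [abs_of_nonpos (sub_nonpos.2 (hco x hx x' hx' h))]
        ring
    rw [sum_congr rfl h1, sum_add_distrib, sum_sub_distrib, hrow x hx, sum_ite_eq, if_pos hx]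
    simp
    ring
  have h1 : ∑ y ∈ L, (∑ x ∈ P, m x y * f x) ^ 2 =
      ∑ x ∈ P, ∑ x' ∈ P, (co x x' - 1) * (f x * f x') := by
    have h2 : ∑ x ∈ P, ∑ x' ∈ P, f x * f x' = 0 := by rw [← sum_mul_sum, hf, zero_mul]
    have h3 : ∑ y ∈ L, (∑ x ∈ P, m x y * f x) ^ 2 =
        ∑ x ∈ P, ∑ x' ∈ P, co x x' * (f x * f x') := by
      simp only [sq, sum_mul_sum]
      simp only [hco_def, sum_mul]
      rw [sum_comm]
      refine sum_congr rfl fun x _ => ?_
      rw [sum_comm]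
      exact sum_congr rfl fun x' _ => sum_congr rfl fun y _ => by ring
    simp only [sub_mul, one_mul, sum_sub_distrib]
    rw [h2, h3, sub_zero]
  have h2 : ∑ x ∈ P, ∑ x' ∈ P, |co x x' - 1| * f x ^ 2 =
      (P.card - A * B + 2 * A - 2) * ∑ x ∈ P, f x ^ 2 := by
    rw [mul_sum]
    exact sum_congr rfl fun x hx => by rw [← sum_mul, habs x hx]
  have h3 : ∑ x ∈ P, ∑ x' ∈ P, |co x x' - 1| * f x' ^ 2 =
      (P.card - A * B + 2 * A - 2) * ∑ x ∈ P, f x ^ 2 := by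
    rw [sum_comm, ← h2]
    exact sum_congr rfl fun x _ => sum_congr rfl fun x' _ => by rw [hsym]
  have h4 : ∑ x ∈ P, ∑ x' ∈ P, (co x x' - 1) * (f x * f x') ≤
      ∑ x ∈ P, ∑ x' ∈ P, (|co x x' - 1| * f x ^ 2 + |co x x' - 1| * f x' ^ 2) / 2 := by
    refine sum_le_sum fun x _ => sum_le_sum fun x' _ => ?_
    rcases abs_cases (co x x' - 1) with ⟨h, h'⟩ | ⟨h, h'⟩ <;> rw [h]
    · nlinarith [mul_nonneg h' (sq_nonneg (f x - f x'))]
    · nlinarith [mul_nonneg (neg_nonneg.2 h'.le) (sq_nonneg (f x + f x'))]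
  simp only [← sum_div, sum_add_distrib] at h4
  rw [h2, h3] at h4
  rw [h1]
  linarith

theorem exists_factor {s : Finset Ω} {p : Ω → α} {a : Ω → ℝ}
    (ha : ∀ c ∈ s, ∀ c' ∈ s, p c = p c' → a c = a c') : ∃ f : α → ℝ, ∀ c ∈ s, a c = f (p c) := by
  classical
  refine ⟨fun x => if h : ∃ c ∈ s, p c = x then a h.choose else 0, fun c hc => ?_⟩
  have h : ∃ c' ∈ s, p c' = p c := ⟨c, hc, rfl⟩
  simp only [dif_pos h]
  exact ha c hc _ h.choose_spec.1 h.choose_spec.2.symm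

variable [DecidableEq α] [DecidableEq β]

theorem sum_edges {s : Finset Ω} {p : Ω → α} {l : Ω → β}
    (hinj : ∀ c ∈ s, ∀ c' ∈ s, p c = p c' → l c = l c' → c = c') (φ : α → β → ℝ) :
    ∑ c ∈ s, φ (p c) (l c) = ∑ x ∈ s.image p, ∑ y ∈ s.image l,
      (if (x, y) ∈ s.image (fun c => (p c, l c)) then (1 : ℝ) else 0) * φ x y := by
  rw [← sum_product' (f := fun x y =>
    (if (x, y) ∈ s.image (fun c => (p c, l c)) then (1 : ℝ) else 0) * φ x y)]
  simp only [ite_mul, one_mul, zero_mul, Prod.mk.eta]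
  rw [← sum_filter, filter_mem_eq_inter, inter_eq_right.2, sum_image]
  · intro c hc c' hc' h
    exact hinj c hc c' hc' (congrArg Prod.fst h) (congrArg Prod.snd h)
  · intro z hz
    obtain ⟨c, hc, rfl⟩ := mem_image.1 hz
    exact mem_product.2 ⟨mem_image_of_mem _ hc, mem_image_of_mem _ hc⟩

theorem sum_regular {s : Finset Ω} {p : Ω → α} {A : ℕ}
    (hA : ∀ c ∈ s, (s.filter fun d => p d = p c).card = A) (f : α → ℝ) :
    ∑ c ∈ s, f (p c) = A * ∑ x ∈ s.image p, f x := by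
  rw [sum_comp f p, mul_sum]
  refine sum_congr rfl fun x hx => ?_
  obtain ⟨c, hc, rfl⟩ := mem_image.1 hx
  rw [hA c hc, nsmul_eq_mul]

/-- complete bipartite graphs -/
theorem complete_eq {s : Finset Ω} {p : Ω → α} {l : Ω → β} {a b : Ω → ℝ} {A : ℕ} (hA0 : 0 < A)
    (hinj : ∀ c ∈ s, ∀ c' ∈ s, p c = p c' → l c = l c' → c = c')
    (ha : ∀ c ∈ s, ∀ c' ∈ s, p c = p c' → a c = a c')
    (hb : ∀ c ∈ s, ∀ c' ∈ s, l c = l c' → b c = b c')
    (hA : ∀ c ∈ s, (s.filter fun d => p d = p c).card = A)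
    (hc : ∀ c ∈ s, ∀ c' ∈ s, ∃ d ∈ s, p d = p c ∧ l d = l c') (ha0 : ∑ c ∈ s, a c = 0) :
    ∑ c ∈ s, a c * b c = 0 := by
  obtain ⟨f, hf⟩ := exists_factor ha
  obtain ⟨g, hg⟩ := exists_factor hb
  have hf0 : ∑ x ∈ s.image p, f x = 0 := by
    rw [sum_congr rfl hf, sum_regular hA] at ha0
    exact (mul_eq_zero.1 ha0).resolve_left (by positivity)
  rw [sum_congr rfl fun c hc => by rw [hf c hc, hg c hc], sum_edges hinj fun x y => f x * g y]
  calc _ = ∑ x ∈ s.image p, ∑ y ∈ s.image l, f x * g y := by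
        refine sum_congr rfl fun x hx => sum_congr rfl fun y hy => ?_
        obtain ⟨c, hc1, rfl⟩ := mem_image.1 hx
        obtain ⟨c', hc2, rfl⟩ := mem_image.1 hy
        obtain ⟨d, hd, h1, h2⟩ := hc c hc1 c' hc2
        rw [if_pos (mem_image.2 ⟨d, hd, by rw [h1, h2]⟩), one_mul]
    _ = 0 := by rw [← sum_mul_sum, hf0, zero_mul]

/-- partial planes -/
theorem plane_le {s : Finset Ω} {p : Ω → α} {l : Ω → β} {a b : Ω → ℝ} {A B q : ℕ} (hq : 2 ≤ q)
    (hqA : q ≤ A) (hqB : q ≤ B)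
    (hinj : ∀ c ∈ s, ∀ c' ∈ s, p c = p c' → l c = l c' → c = c')
    (ha : ∀ c ∈ s, ∀ c' ∈ s, p c = p c' → a c = a c')
    (hb : ∀ c ∈ s, ∀ c' ∈ s, l c = l c' → b c = b c')
    (hA : ∀ c ∈ s, (s.filter fun d => p d = p c).card = A)
    (hB : ∀ c ∈ s, (s.filter fun d => l d = l c).card = B)
    (hN : (s.image p).card ≤ q ^ 2 + q + 1)
    (hpl : ∀ c₁ ∈ s, ∀ c₂ ∈ s, ∀ c₃ ∈ s, ∀ c₄ ∈ s, p c₁ = p c₃ → p c₂ = p c₄ → l c₁ = l c₂ →
      l c₃ = l c₄ → p c₁ ≠ p c₂ → l c₁ = l c₃)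
    (ha0 : ∑ c ∈ s, a c = 0) :
    ∑ c ∈ s, a c * b c ≤ √(3 / q) * √(∑ c ∈ s, a c ^ 2) * √(∑ c ∈ s, b c ^ 2) := by
  obtain ⟨f, hf⟩ := exists_factor ha
  obtain ⟨g, hg⟩ := exists_factor hb
  have hq' : (2 : ℝ) ≤ q := by exact_mod_cast hq
  have hqA' : (q : ℝ) ≤ A := by exact_mod_cast hqA
  have hqB' : (q : ℝ) ≤ B := by exact_mod_cast hqB
  have hN' : ((s.image p).card : ℝ) ≤ q ^ 2 + q + 1 := by exact_mod_cast hN
  have hf0 : ∑ x ∈ s.image p, f x = 0 := by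
    rw [sum_congr rfl hf, sum_regular hA] at ha0
    exact (mul_eq_zero.1 ha0).resolve_left (by linarith)
  set m : α → β → ℝ := fun x y =>
    if (x, y) ∈ s.image (fun c => (p c, l c)) then (1 : ℝ) else 0 with hm
  have hmA : ∀ x ∈ s.image p, ∑ y ∈ s.image l, m x y = A := by
    intro x hx
    obtain ⟨c, hc, rfl⟩ := mem_image.1 hx
    have h1 := sum_edges hinj fun x _ => if x = p c then (1 : ℝ) else 0
    rw [sum_boole, hA c hc, sum_comm] at h1
    rw [h1]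
    refine sum_congr rfl fun y _ => ?_
    simp only [mul_ite, mul_one, mul_zero]
    rw [sum_ite_eq', if_pos hx]
  have hmB : ∀ y ∈ s.image l, ∑ x ∈ s.image p, m x y = B := by
    intro y hy
    obtain ⟨c, hc, rfl⟩ := mem_image.1 hy
    have h1 := sum_edges hinj fun _ y => if y = l c then (1 : ℝ) else 0
    rw [sum_boole, hB c hc] at h1
    rw [h1]
    refine sum_congr rfl fun x _ => ?_
    simp only [mul_ite, mul_one, mul_zero]
    rw [sum_ite_eq', if_pos hy]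
  have hco : ∀ x ∈ s.image p, ∀ x' ∈ s.image p, x ≠ x' → ∑ y ∈ s.image l, m x y * m x' y ≤ 1 := by
    intro x _ x' _ hxx
    simp only [hm, ite_zero_mul_ite_zero, mul_one]
    rw [sum_boole, Nat.cast_le_one, card_le_one]
    intro y hy y' hy'
    obtain ⟨-, h1, h2⟩ := mem_filter.1 hy
    obtain ⟨-, h3, h4⟩ := mem_filter.1 hy'
    obtain ⟨c₁, hc₁, e₁⟩ := mem_image.1 h1
    obtain ⟨c₂, hc₂, e₂⟩ := mem_image.1 h2
    obtain ⟨c₃, hc₃, e₃⟩ := mem_image.1 h3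
    obtain ⟨c₄, hc₄, e₄⟩ := mem_image.1 h4
    simp only [Prod.mk.injEq] at e₁ e₂ e₃ e₄
    rw [← e₁.2, ← e₃.2]
    exact hpl c₁ hc₁ c₂ hc₂ c₃ hc₃ c₄ hc₄ (e₁.1.trans e₃.1.symm) (e₂.1.trans e₄.1.symm)
      (e₁.2.trans e₂.2.symm) (e₃.2.trans e₄.2.symm) (by rw [e₁.1, e₂.1]; exact hxx)
  have hmat := mat_ineq (s.image p) (s.image l) m f (A := A) (B := B) (by linarith)
    (fun x y => by simp only [hm]; split_ifs <;> simp) hmA hmB hco hf0
  have e1 : ∑ c ∈ s, a c * b c = ∑ y ∈ s.image l, (∑ x ∈ s.image p, m x y * f x) * g y := by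
    rw [sum_congr rfl fun c hc => by rw [hf c hc, hg c hc], sum_edges hinj fun x y => f x * g y,
      sum_comm]
    refine sum_congr rfl fun y _ => ?_
    rw [sum_mul]
    exact sum_congr rfl fun x _ => (mul_assoc _ _ _).symm
  have e2 : ∑ c ∈ s, a c ^ 2 = A * ∑ x ∈ s.image p, f x ^ 2 := by
    rw [sum_congr rfl fun c hc => by rw [hf c hc], sum_regular hA fun x => f x ^ 2]
  have e3 : ∑ c ∈ s, b c ^ 2 = B * ∑ y ∈ s.image l, g y ^ 2 := by
    rw [sum_congr rfl fun c hc => by rw [hg c hc], sum_regular hB fun y => g y ^ 2]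
  have hcs := sum_mul_sq_le_sq_mul_sq (s.image l) (fun y => ∑ x ∈ s.image p, m x y * f x) g
  set F := ∑ x ∈ s.image p, f x ^ 2
  set G := ∑ y ∈ s.image l, g y ^ 2
  have hF : 0 ≤ F := sum_nonneg fun _ _ => sq_nonneg _
  have hG : 0 ≤ G := sum_nonneg fun _ _ => sq_nonneg _
  rw [← Real.sqrt_mul (by positivity), ← Real.sqrt_mul (by positivity)]
  refine Real.le_sqrt_of_sq_le ?_
  rw [e1, e2, e3]
  have h1 : ((s.image p).card : ℝ) - A * B + 2 * A - 2 ≤ 3 * q := by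
    nlinarith [mul_le_mul hqA' (sub_le_sub_right hqB' 2) (by linarith) (by linarith)]
  have h2 : (3 : ℝ) * q ≤ 3 / q * (A * B) := by
    rw [div_mul_eq_mul_div, le_div_iff₀ (by linarith)]
    nlinarith [mul_le_mul hqA' hqB' (by linarith) (by linarith)]
  calc _ ≤ (∑ y ∈ s.image l, (∑ x ∈ s.image p, m x y * f x) ^ 2) * G := hcs
    _ ≤ (3 / q * (A * B)) * F * G := by
        gcongr
        exact hmat.trans (by gcongr; linarith)
    _ = _ := by ring

end Crest.Agent.R66.Bip
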