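import Crest.Agent.R66.GeoB
import Crest.Agent.R66.R2Aux

set_option autoImplicit false

namespace Crest.Agent.R66

open Finset

namespace Geo

variable {n : ℕ} {V : Type} [DecidableEq V] [Fintype V] (X : Geo n V)

namespace R2

variable {X}

omit [Fintype V] in
theorem mem_res {J : Finset (Fin n)} {c : Finset V} {v : V} :
    v ∈ X.res J c ↔ v ∈ c ∧ X.ty v ∈ J := mem_filter

/-- a chamber is an edge in the link of its face of corank two -/
theorem exists_pair {c : Finset V} (hc : c ∈ X.ch) {i j : Fin n} (hij : i ≠ j) :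
    ∃ x y, X.ty x = j ∧ X.ty y = i ∧
      X.res (univ.erase i) c = insert x (X.res ((univ.erase i).erase j) c) ∧
      X.res (univ.erase j) c = insert y (X.res ((univ.erase i).erase j) c) ∧
      {x, y} ∈ lk X.K (X.res ((univ.erase i).erase j) c) := by
  obtain ⟨x, ⟨hx, hxj⟩, hxu⟩ := X.exists_ty hc j
  obtain ⟨y, ⟨hy, hyi⟩, hyu⟩ := X.exists_ty hc i
  refine ⟨x, y, hxj, hyi, ?_, ?_, ?_, ?_⟩
  · ext v
    simp only [mem_res, mem_insert, mem_erase, mem_univ, and_true]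
    constructor
    · rintro ⟨h1, h2⟩
      by_cases h : X.ty v = j
      · exact Or.inl (hxu v ⟨h1, h⟩)
      · exact Or.inr ⟨h1, h, h2⟩
    · rintro (rfl | ⟨h1, _, h3⟩)
      · exact ⟨hx, by rw [hxj]; exact hij.symm⟩
      · exact ⟨h1, h3⟩
  · ext v
    simp only [mem_res, mem_insert, mem_erase, mem_univ, and_true]
    constructor
    · rintro ⟨h1, h2⟩
      by_cases h : X.ty v = i
      · exact Or.inl (hyu v ⟨h1, h⟩)
      · exact Or.inr ⟨h1, h2, h⟩
    · rintro (rfl | ⟨h1, h2, _⟩)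
      · exact ⟨hy, by rw [hyi]; exact hij⟩
      · exact ⟨h1, h2⟩
  · rw [disjoint_left]
    intro v hv hv'
    simp only [mem_res, mem_erase, mem_univ, and_true] at hv'
    simp only [mem_insert, mem_singleton] at hv
    rcases hv with rfl | rfl
    · exact hv'.2.1 hxj
    · exact hv'.2.2 hyi
  · refine X.down c (X.mem_ch.1 hc).1 _ fun v hv => ?_
    simp only [mem_union, mem_insert, mem_singleton, mem_res] at hv
    rcases hv with (rfl | rfl) | hv
    · exact hx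
    · exact hy
    · exact hv.1

omit [Fintype V] in
theorem lk_mono {σ ρ ρ' : Finset V} (h : ρ ∈ lk X.K σ) (h' : ρ' ⊆ ρ) : ρ' ∈ lk X.K σ :=
  ⟨h.1.mono_left h', X.down _ h.2 _ (union_subset_union_left h')⟩

omit [Fintype V] in
theorem eq_of_insert_eq {σ : Finset V} {x x' y : V} (h : {x, y} ∈ lk X.K σ)
    (e : insert x σ = insert x' σ) : x = x' := by
  have h1 : x ∈ insert x' σ := e ▸ mem_insert_self x σ
  exact (mem_insert.1 h1).resolve_right (disjoint_left.1 h.1 (mem_insert_self _ _))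

omit [Fintype V] in
theorem eq_of_res_eq {c c' : Finset V} {i j : Fin n} (hij : i ≠ j)
    (h1 : X.res (univ.erase i) c = X.res (univ.erase i) c')
    (h2 : X.res (univ.erase j) c = X.res (univ.erase j) c') : c = c' := by
  ext v
  by_cases h : X.ty v = i
  · have := Finset.ext_iff.1 h2 v
    simpa [mem_res, h, hij] using this
  · have := Finset.ext_iff.1 h1 v
    simpa [mem_res, h] using this

theorem le_card_fiber {q : ℕ} (h₁ : X.Thick q) {c : Finset V} (hc : c ∈ X.ch) (i : Fin n) :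
    q ≤ (X.ch.filter fun d => X.res (univ.erase i) d = X.res (univ.erase i) c).card := by
  have hcard : (X.res (univ.erase i) c).card + 1 = n := by
    rw [X.card_res hc, card_erase_add_one (mem_univ i), card_univ, Fintype.card_fin]
  obtain ⟨s, hs, hs'⟩ := h₁ _ (X.res_mem hc _) hcard
  have hn : ∀ x ∈ s, x ∉ X.res (univ.erase i) c := fun x hx => disjoint_singleton_left.1 (hs' x hx).1
  refine hs.trans (card_le_card_of_injOn (fun x => insert x (X.res (univ.erase i) c))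
    (fun x hx => ?_) fun x hx x' _ h => ?_)
  · have h1 : insert x (X.res (univ.erase i) c) ∈ X.ch :=
      X.mem_ch.2 ⟨by rw [insert_eq]; exact (hs' x hx).2, by rw [card_insert_of_notMem (hn x hx), hcard]⟩
    exact mem_coe.2 (mem_filter.2 ⟨h1, (X.res_eq_iff hc h1 _).2 (subset_insert _ _)⟩)
  · have h1 : x ∈ insert x' (X.res (univ.erase i) c) := by
      simp only at h
      exact h ▸ mem_insert_self _ _
    exact (mem_insert.1 h1).resolve_right (hn x hx)

theorem card_fiber_pos {c : Finset V} (hc : c ∈ X.ch) (J : Finset (Fin n)) :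
    0 < (X.ch.filter fun d => X.res J d = X.res J c).card :=
  card_pos.2 ⟨c, by rw [mem_filter]; exact ⟨hc, rfl⟩⟩

variable {G : Type} [Group G] [MulAction G V]

theorem card_fiber (hT : X.Trans G) {c₀ : Finset V} (hc₀ : c₀ ∈ X.ch) {J J' : Finset (Fin n)}
    (hJ : J ⊆ J') : ∀ c ∈ X.ch.filter fun d => X.res J d = X.res J c₀,
      ((X.ch.filter fun d => X.res J d = X.res J c₀).filter
        fun d => X.res J' d = X.res J' c).card =
      (X.ch.filter fun d => X.res J' d = X.res J' c₀).card := by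
  intro c hc
  obtain ⟨hc1, hc2⟩ := mem_filter.1 hc
  rw [← hT.card_fiber_eq hc1 hc₀ J', filter_filter]
  congr 1
  refine filter_congr fun d _ => ⟨fun h => h.2, fun h => ⟨?_, h⟩⟩
  rw [← hc2, ← X.res_res hJ d, h, X.res_res hJ]

/-- the plane case in one fibre -/
theorem plane (hT : X.Trans G) {q : ℕ} (hq : 2 ≤ q) (h₁ : X.Thick q) {i j : Fin n} (hij : i ≠ j)
    {c₀ : Finset V} (hc₀ : c₀ ∈ X.ch) {σ : Finset V} (hσ : X.res ((univ.erase i).erase j) c₀ = σ)
    (hN : ∃ s : Finset V, s.card ≤ q ^ 2 + q + 1 ∧ ∀ x, {x} ∈ lk X.K σ → X.ty x = j → x ∈ s)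
    (hpl : ∀ x x' y y', X.ty x = j → X.ty x' = j → x ≠ x' → X.ty y ≠ j → X.ty y' ≠ j →
      {x, y} ∈ lk X.K σ → {x', y} ∈ lk X.K σ → {x, y'} ∈ lk X.K σ → {x', y'} ∈ lk X.K σ → y = y')
    {a b : Finset V → ℝ}
    (ha : ∀ c ∈ X.ch, ∀ c' ∈ X.ch, X.res (univ.erase i) c = X.res (univ.erase i) c' → a c = a c')
    (hb : ∀ c ∈ X.ch, ∀ c' ∈ X.ch, X.res (univ.erase j) c = X.res (univ.erase j) c' → b c = b c')
    (ha0 : ∑ c ∈ X.ch.filter (fun d => X.res ((univ.erase i).erase j) d = σ), a c = 0) :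
    ∑ c ∈ X.ch.filter (fun d => X.res ((univ.erase i).erase j) d = σ), a c * b c ≤
      √(3 / q) * √(∑ c ∈ X.ch.filter (fun d => X.res ((univ.erase i).erase j) d = σ), a c ^ 2) *
        √(∑ c ∈ X.ch.filter (fun d => X.res ((univ.erase i).erase j) d = σ), b c ^ 2) := by
  subst hσ
  have hpair : ∀ c ∈ X.ch.filter (fun d => X.res ((univ.erase i).erase j) d =
      X.res ((univ.erase i).erase j) c₀), ∃ x y, X.ty x = j ∧ X.ty y = i ∧
      X.res (univ.erase i) c = insert x (X.res ((univ.erase i).erase j) c₀) ∧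
      X.res (univ.erase j) c = insert y (X.res ((univ.erase i).erase j) c₀) ∧
      {x, y} ∈ lk X.K (X.res ((univ.erase i).erase j) c₀) := fun c hc => by
    rw [← (mem_filter.1 hc).2]
    exact exists_pair (mem_filter.1 hc).1 hij
  refine Bip.plane_le (p := X.res (univ.erase i)) (l := X.res (univ.erase j)) hq
    (le_card_fiber h₁ hc₀ i) (le_card_fiber h₁ hc₀ j) (fun c _ c' _ => eq_of_res_eq hij)
    (fun c hc c' hc' => ha c (mem_filter.1 hc).1 c' (mem_filter.1 hc').1)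
    (fun c hc c' hc' => hb c (mem_filter.1 hc).1 c' (mem_filter.1 hc').1)
    (card_fiber hT hc₀ (erase_subset _ _))
    (card_fiber hT hc₀ (erase_subset_erase _ (subset_univ _))) ?_ ?_ ha0
  · obtain ⟨s, hs, hs'⟩ := hN
    refine le_trans (card_le_card (t := s.image fun x =>
      insert x (X.res ((univ.erase i).erase j) c₀)) fun π hπ => ?_) (card_image_le.trans hs)
    obtain ⟨c, hc, rfl⟩ := mem_image.1 hπ
    obtain ⟨x, y, h1, -, h3, -, h5⟩ := hpair c hc
    exact mem_image.2 ⟨x, hs' x (lk_mono h5 (by simp)) h1, h3.symm⟩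
  · intro c₁ hc₁ c₂ hc₂ c₃ hc₃ c₄ hc₄ e13 e24 e12 e34 hne
    obtain ⟨x₁, y₁, a₁, b₁, p₁, l₁, k₁⟩ := hpair c₁ hc₁
    obtain ⟨x₂, y₂, a₂, -, p₂, l₂, k₂⟩ := hpair c₂ hc₂
    obtain ⟨x₃, y₃, -, b₃, p₃, l₃, k₃⟩ := hpair c₃ hc₃
    obtain ⟨x₄, y₄, -, -, p₄, l₄, k₄⟩ := hpair c₄ hc₄
    rw [p₁, p₃] at e13
    rw [p₂, p₄] at e24
    rw [l₁, l₂] at e12
    rw [l₃, l₄] at e34
    rw [p₁, p₂] at hne
    obtain rfl := eq_of_insert_eq k₁ e13
    obtain rfl := eq_of_insert_eq k₂ e24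
    obtain rfl := eq_of_insert_eq (pair_comm x₁ y₁ ▸ k₁) e12
    obtain rfl := eq_of_insert_eq (pair_comm x₁ y₃ ▸ k₃) e34
    rw [l₁, l₃, hpl x₁ x₂ y₁ y₃ a₁ a₂ (fun h => hne (by rw [h])) (by rw [b₁]; exact hij)
      (by rw [b₃]; exact hij) k₁ k₂ k₃ k₄]

/-- the complete bipartite case in one fibre -/
theorem complete (hT : X.Trans G) {i j : Fin n} (hij : i ≠ j)
    {c₀ : Finset V} (hc₀ : c₀ ∈ X.ch) {σ : Finset V} (hσ : X.res ((univ.erase i).erase j) c₀ = σ)
    (hcard : σ.card + 2 = n)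
    (hco : ∀ x y, {x} ∈ lk X.K σ → {y} ∈ lk X.K σ → X.ty x ≠ X.ty y → {x, y} ∈ lk X.K σ)
    {a b : Finset V → ℝ}
    (ha : ∀ c ∈ X.ch, ∀ c' ∈ X.ch, X.res (univ.erase i) c = X.res (univ.erase i) c' → a c = a c')
    (hb : ∀ c ∈ X.ch, ∀ c' ∈ X.ch, X.res (univ.erase j) c = X.res (univ.erase j) c' → b c = b c')
    (ha0 : ∑ c ∈ X.ch.filter (fun d => X.res ((univ.erase i).erase j) d = σ), a c = 0) :
    ∑ c ∈ X.ch.filter (fun d => X.res ((univ.erase i).erase j) d = σ), a c * b c = 0 := by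
  subst hσ
  refine Bip.complete_eq (p := X.res (univ.erase i)) (l := X.res (univ.erase j))
    (card_fiber_pos hc₀ _) (fun c _ c' _ => eq_of_res_eq hij)
    (fun c hc c' hc' => ha c (mem_filter.1 hc).1 c' (mem_filter.1 hc').1)
    (fun c hc c' hc' => hb c (mem_filter.1 hc).1 c' (mem_filter.1 hc').1)
    (card_fiber hT hc₀ (erase_subset _ _)) ?_ ha0
  intro c hc c' hc'
  obtain ⟨hc1, hc2⟩ := mem_filter.1 hc
  obtain ⟨hc1', hc2'⟩ := mem_filter.1 hc'
  obtain ⟨x, y, a₁, -, p₁, -, k₁⟩ := exists_pair hc1 hij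
  obtain ⟨x', y', -, b₂, -, l₂, k₂⟩ := exists_pair hc1' hij
  rw [hc2] at p₁ k₁
  rw [hc2'] at l₂ k₂
  have hne : X.ty x ≠ X.ty y' := by rw [a₁, b₂]; exact hij.symm
  have k := hco x y' (lk_mono k₁ (by simp)) (lk_mono k₂ (by simp)) hne
  have hd : {x, y'} ∪ X.res ((univ.erase i).erase j) c₀ ∈ X.ch := by
    refine X.mem_ch.2 ⟨k.2, ?_⟩
    rw [card_union_of_disjoint k.1, card_pair fun h => hne (by rw [h])]
    omega
  refine ⟨_, mem_filter.2 ⟨hd, (X.res_eq_iff hc₀ hd _).2 subset_union_right⟩,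
    (X.res_eq_iff hc1 hd _).2 ?_, (X.res_eq_iff hc1' hd _).2 ?_⟩
  · rw [p₁, insert_eq]
    exact union_subset_union_left (by simp)
  · rw [l₂, insert_eq]
    exact union_subset_union_left (by simp)

theorem sum_eq_zero_of_ce {J : Finset (Fin n)} {a : Finset V → ℝ} {c : Finset V} (hc : c ∈ X.ch)
    (h : ce X.ch (X.res J) a c = 0) :
    ∑ d ∈ X.ch.filter (fun d => X.res J d = X.res J c), a d = 0 := by
  refine (div_eq_zero_iff.1 h).resolve_right ?_
  exact Nat.cast_ne_zero.2 (card_fiber_pos hc J).ne'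

end R2

/-- The spectral estimate in links of corank two. -/
theorem rank2_ineq {G : Type} [Group G] [MulAction G V] (hT : X.Trans G) {q : ℕ} (hq : 2 ≤ q)
    (h₁ : X.Thick q) (h₂ : X.Rank2 q) {i j : Fin n} (hij : i ≠ j) (a b : Finset V → ℝ)
    (ha : ∀ c ∈ X.ch, ∀ c' ∈ X.ch, X.res (univ.erase i) c = X.res (univ.erase i) c' → a c = a c')
    (hb : ∀ c ∈ X.ch, ∀ c' ∈ X.ch, X.res (univ.erase j) c = X.res (univ.erase j) c' → b c = b c')
    (ha' : ∀ c ∈ X.ch, ce X.ch (X.res ((univ.erase i).erase j)) a c = 0)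
    (hb' : ∀ c ∈ X.ch, ce X.ch (X.res ((univ.erase i).erase j)) b c = 0) :
    ∑ c ∈ X.ch, a c * b c ≤ √(3 / q) * √(∑ c ∈ X.ch, a c ^ 2) * √(∑ c ∈ X.ch, b c ^ 2) := by
  have hmaps : ∀ c ∈ X.ch, X.res ((univ.erase i).erase j) c ∈
      X.ch.image (X.res ((univ.erase i).erase j)) := fun c hc => mem_image_of_mem _ hc
  rw [← sum_fiberwise_of_maps_to hmaps fun c => a c * b c,
    ← sum_fiberwise_of_maps_to hmaps fun c => a c ^ 2,
    ← sum_fiberwise_of_maps_to hmaps fun c => b c ^ 2, mul_assoc]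
  refine le_trans ?_ (mul_le_mul_of_nonneg_left (Real.sum_sqrt_mul_sqrt_le _
    (fun σ => sum_nonneg fun _ _ => sq_nonneg _) fun σ => sum_nonneg fun _ _ => sq_nonneg _)
    (Real.sqrt_nonneg _))
  rw [mul_sum]
  refine sum_le_sum fun σ hσ => ?_
  obtain ⟨c₀, hc₀, hσ⟩ := mem_image.1 hσ
  have ha0 := R2.sum_eq_zero_of_ce hc₀ (ha' c₀ hc₀)
  have hb0 := R2.sum_eq_zero_of_ce hc₀ (hb' c₀ hc₀)
  rw [hσ] at ha0 hb0
  have hcard : σ.card + 2 = n := by
    have h1 := card_erase_add_one (mem_erase.2 ⟨hij.symm, mem_univ j⟩)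
    have h2 := card_erase_add_one (mem_univ i)
    rw [card_univ, Fintype.card_fin] at h2
    rw [← hσ, X.card_res hc₀]
    omega
  rcases h₂ σ (hσ ▸ X.res_mem hc₀ _) hcard with hco | ⟨k, hk, hN, hpl⟩
  · rw [R2.complete hT hij hc₀ hσ hcard hco ha hb ha0]
    positivity
  · have hk' : k = j ∨ k = i := by
      by_contra h
      rw [not_or] at h
      have h1 : k ∈ σ.image X.ty := by
        rw [← hσ, X.image_ty_res hc₀]
        simp [h.1, h.2]
      obtain ⟨v, hv, hv'⟩ := mem_image.1 h1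
      exact hk v hv hv'
    rcases hk' with rfl | rfl
    · rw [← mul_assoc]
      exact R2.plane hT hq h₁ hij hc₀ hσ hN hpl ha hb ha0
    · rw [erase_right_comm] at hσ hb0 ⊢
      have := R2.plane hT hq h₁ hij.symm hc₀ hσ hN hpl hb ha hb0
      rw [mul_comm (√_) (√_), ← mul_assoc]
      simpa only [mul_comm (a _) (b _)] using this

end Geo

end Crest.Agent.R66
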