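import Crest.Agent.R66.Mix
import Crest.Agent.R66.Local
import Crest.Agent.R66.Morse

/-! Row 66: conditional expectations on finite sets and the recursion for locally minimal
cocycles. -/

set_option autoImplicit false

namespace Crest.Agent.R66.Small

open Finset

section ce

variable {Ω β β' : Type} [DecidableEq β] [DecidableEq β'] {s : Finset Ω} {κ : Ω → β} {κ' : Ω → β'}
  {φ ψ : Ω → ℝ}

theorem ce_congr {ω ω' : Ω} (h : κ ω = κ ω') : ce s κ φ ω = ce s κ φ ω' := by
  simp only [ce, h]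

theorem ce_mono (h : ∀ ω ∈ s, φ ω ≤ ψ ω) (ω : Ω) : ce s κ φ ω ≤ ce s κ ψ ω :=
  div_le_div_of_nonneg_right (sum_le_sum fun ω' h' => h ω' (mem_filter.1 h').1) (Nat.cast_nonneg _)

theorem ce_nonneg (h : ∀ ω ∈ s, 0 ≤ φ ω) (ω : Ω) : 0 ≤ ce s κ φ ω :=
  div_nonneg (sum_nonneg fun ω' h' => h ω' (mem_filter.1 h').1) (Nat.cast_nonneg _)

theorem fib_pos {ω : Ω} (hω : ω ∈ s) : (0 : ℝ) < (s.filter fun ω' => κ ω' = κ ω).card := by
  have : ω ∈ s.filter fun ω' => κ ω' = κ ω := mem_filter.2 ⟨hω, rfl⟩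
  exact_mod_cast card_pos.2 ⟨ω, this⟩

theorem ce_le {M : ℝ} (h : ∀ ω ∈ s, φ ω ≤ M) {ω : Ω} (hω : ω ∈ s) : ce s κ φ ω ≤ M := by
  rw [ce, div_le_iff₀ (fib_pos hω)]
  refine (sum_le_card_nsmul _ _ M fun ω' h' => h ω' (mem_filter.1 h').1).trans_eq ?_
  rw [nsmul_eq_mul, mul_comm]

theorem ce_of_meas (h : ∀ ω ∈ s, ∀ ω' ∈ s, κ ω = κ ω' → φ ω = φ ω') {ω : Ω} (hω : ω ∈ s) :
    ce s κ φ ω = φ ω := by
  rw [ce, div_eq_iff (fib_pos hω).ne', sum_congr rfl fun ω' h' =>
    h ω' (mem_filter.1 h').1 ω hω (mem_filter.1 h').2, sum_const, nsmul_eq_mul, mul_comm]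

theorem sum_mul_ce (h : ∀ ω ∈ s, ∀ ω' ∈ s, κ ω = κ ω' → ψ ω = ψ ω') :
    ∑ ω ∈ s, ψ ω * ce s κ φ ω = ∑ ω ∈ s, ψ ω * φ ω := by
  have h1 : ∀ ω ∈ s, ψ ω * ce s κ φ ω = ∑ ω' ∈ s, if κ ω = κ ω' then
      ψ ω' * φ ω' / (s.filter fun x => κ x = κ ω').card else 0 := by
    intro ω hω
    rw [ce, sum_filter, sum_div, mul_sum]
    refine sum_congr rfl fun ω' h' => ?_
    by_cases hk : κ ω = κ ω'
    · rw [if_pos hk, if_pos hk.symm, h ω hω ω' h' hk, hk, mul_div_assoc]
    · rw [if_neg hk, if_neg (Ne.symm hk), zero_div, mul_zero]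
  rw [sum_congr rfl h1, sum_comm]
  refine sum_congr rfl fun ω' h' => ?_
  rw [← sum_filter, sum_const, nsmul_eq_mul, mul_div_cancel₀ _ (fib_pos h').ne']

theorem ce_ce (h : ∀ ω ∈ s, ∀ ω' ∈ s, κ ω = κ ω' → κ' ω = κ' ω') (ω : Ω) :
    ce s κ' (ce s κ φ) ω = ce s κ' φ ω := by
  have := sum_mul_ce (s := s) (κ := κ) (φ := φ) (ψ := fun ω' => if κ' ω' = κ' ω then 1 else 0)
    fun a ha b hb hab => by rw [h a ha b hb hab]
  simp only [ite_mul, one_mul, zero_mul, ← sum_filter] at this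
  conv_lhs => rw [ce, this]
  rfl

end ce

variable {n : ℕ} {V : Type} [DecidableEq V] [Fintype V] (X : Geo n V) (g : Finset V → F2) (a : ℕ)

/-- the number of faces of `c` in the support of `g` whose type contains `r` -/
def P (r : Finset (Fin n)) (c : Finset V) : ℝ :=
  ∑ J ∈ (univ : Finset (Fin n)).powersetCard a, if r ⊆ J ∧ g (X.res J c) ≠ 0 then 1 else 0

/-- the number of faces of `c` in the support of `g` whose type contains `r` and avoids `u` -/
def Q (r : Finset (Fin n)) (u : Fin n) (c : Finset V) : ℝ :=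
  ∑ J ∈ (univ : Finset (Fin n)).powersetCard a,
    if r ⊆ J ∧ u ∉ J ∧ g (X.res J c) ≠ 0 then 1 else 0

/-- the conditional density -/
noncomputable def ρ (r : Finset (Fin n)) : Finset V → ℝ := ce X.ch (X.res r) (P X g a r)

/-- the second moment of the conditional density -/
noncomputable def A (r : Finset (Fin n)) : ℝ := ∑ c ∈ X.ch, ρ X g a r c ^ 2

omit [Fintype V] in
theorem P_nonneg (r : Finset (Fin n)) (c : Finset V) : 0 ≤ P X g a r c :=
  sum_nonneg fun _ _ => by split_ifs <;> norm_num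

omit [Fintype V] in
theorem Q_nonneg (r : Finset (Fin n)) (u : Fin n) (c : Finset V) : 0 ≤ Q X g a r u c :=
  sum_nonneg fun _ _ => by split_ifs <;> norm_num

omit [Fintype V] in
theorem Q_le_P (r : Finset (Fin n)) (u : Fin n) (c : Finset V) : Q X g a r u c ≤ P X g a r c := by
  refine sum_le_sum fun J _ => ?_
  by_cases h : r ⊆ J ∧ u ∉ J ∧ g (X.res J c) ≠ 0
  · rw [if_pos h, if_pos ⟨h.1, h.2.2⟩]
  · rw [if_neg h]; split_ifs <;> norm_num

omit [Fintype V] in
theorem P_anti {r r' : Finset (Fin n)} (h : r' ⊆ r) (c : Finset V) :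
    P X g a r c ≤ P X g a r' c := by
  refine sum_le_sum fun J _ => ?_
  by_cases h' : r ⊆ J ∧ g (X.res J c) ≠ 0
  · rw [if_pos h', if_pos ⟨h.trans h'.1, h'.2⟩]
  · rw [if_neg h']; split_ifs <;> norm_num

theorem card_types_le : (((univ : Finset (Fin n)).powersetCard a).card : ℝ) ≤ 2 ^ n := by
  rw [card_powersetCard, card_univ, Fintype.card_fin]
  exact_mod_cast Nat.choose_le_two_pow n a

omit [Fintype V] in
theorem P_le (r : Finset (Fin n)) (c : Finset V) : P X g a r c ≤ 2 ^ n := by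
  refine (sum_le_card_nsmul _ _ 1 fun J _ => by split_ifs <;> norm_num).trans ?_
  rw [nsmul_eq_mul, mul_one]
  exact card_types_le a

theorem W_eq : (X.W g a : ℝ) = ∑ c ∈ X.ch, P X g a ∅ c := by
  rw [Geo.W, Nat.cast_sum]
  refine sum_congr rfl fun c hc => ?_
  rw [card_filter, X.sum_powersetCard hc, P]
  simp

theorem sum_P_le (r : Finset (Fin n)) : ∑ c ∈ X.ch, P X g a r c ≤ X.W g a := by
  rw [W_eq]
  exact sum_le_sum fun c _ => P_anti X g a (empty_subset _) c

theorem res_subset_res {c : Finset V} (hc : c ∈ X.ch) {r J : Finset (Fin n)} :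
    X.res r c ⊆ X.res J c ↔ r ⊆ J := by
  constructor
  · intro h
    rw [← X.image_ty_res hc r, ← X.image_ty_res hc J]
    exact image_subset_image h
  · intro h v hv
    exact mem_filter.2 ⟨(mem_filter.1 hv).1, h (mem_filter.1 hv).2⟩

theorem res_erase {c : Finset V} (hc : c ∈ X.ch) (r : Finset (Fin n)) {v : V} (hv : v ∈ c) :
    (X.res r c).erase v = X.res (r.erase (X.ty v)) c := by
  ext x
  simp only [Geo.res, mem_erase, mem_filter]
  constructor
  · rintro ⟨h1, h2, h3⟩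
    exact ⟨h2, fun h => h1 (X.inj c (X.mem_ch.1 hc).1 h2 hv h), h3⟩
  · rintro ⟨h1, h2, h3⟩
    exact ⟨fun h => h2 (by rw [h]), h1, h3⟩

theorem ρ_nonneg (r : Finset (Fin n)) (c : Finset V) : 0 ≤ ρ X g a r c :=
  ce_nonneg (fun c _ => P_nonneg X g a r c) c

theorem ρ_meas (r : Finset (Fin n)) :
    ∀ c ∈ X.ch, ∀ c' ∈ X.ch, X.res r c = X.res r c' → ρ X g a r c = ρ X g a r c' :=
  fun _ _ _ _ h => ce_congr h

theorem A_nonneg (r : Finset (Fin n)) : 0 ≤ A X g a r := sum_nonneg fun _ _ => sq_nonneg _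

theorem A_le (r : Finset (Fin n)) : A X g a r ≤ 2 ^ n * X.W g a := by
  have h1 : A X g a r = ∑ c ∈ X.ch, ρ X g a r c * P X g a r c := by
    rw [← sum_mul_ce (ρ_meas X g a r)]
    exact sum_congr rfl fun c _ => sq _
  rw [h1]
  refine le_trans (sum_le_sum fun c hc => mul_le_mul_of_nonneg_right
    (ce_le (fun c _ => P_le X g a r c) hc) (P_nonneg X g a r c)) ?_
  rw [← mul_sum]
  exact mul_le_mul_of_nonneg_left (sum_P_le X g a r) (by positivity)

theorem A_empty : A X g a ∅ * X.ch.card = (X.W g a : ℝ) ^ 2 := by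
  have hN : (0 : ℝ) < X.ch.card := by exact_mod_cast card_pos.2 X.ch_nonempty
  have h1 : ∀ c, ρ X g a ∅ c = X.W g a / X.ch.card := fun c => by
    rw [ρ, ce, W_eq]
    simp [Geo.res]
  simp only [A, h1, sum_const, nsmul_eq_mul]
  field_simp

theorem W_eq_sum_A : (X.W g a : ℝ) = ∑ r ∈ (univ : Finset (Fin n)).powersetCard a, A X g a r := by
  rw [W_eq]
  simp only [P]
  rw [sum_comm]
  refine sum_congr rfl fun r hr => ?_
  have hP : ∀ c, P X g a r c = if g (X.res r c) ≠ 0 then 1 else 0 := fun c => by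
    rw [P, sum_eq_single_of_mem r hr]
    · simp
    · intro J hJ hne
      rw [if_neg]
      rintro ⟨h, -⟩
      refine hne (eq_of_subset_of_card_le h ?_).symm
      rw [(mem_powersetCard.1 hJ).2, (mem_powersetCard.1 hr).2]
  refine sum_congr rfl fun c hc => ?_
  rw [ρ, ce_of_meas (fun x _ y _ h => by rw [hP, hP, h]) hc, hP]
  by_cases h : g (X.res r c) ≠ 0
  · rw [if_pos h, if_pos ⟨empty_subset _, h⟩, one_pow]
  · rw [if_neg h, if_neg fun h' => h h'.2]; norm_num

variable {X g a}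

/-- the local inequality, divided by the size of the fibre -/
theorem ρ_le {G : Type} [Group G] [Fintype G] [MulAction G V] (hT : X.Trans G) {R : ℕ}
    (hR : X.Cones R) (ha : a < n) (hg : ∀ τ ∈ X.K, τ.card = a + 1 → cob g τ = 0)
    (hmin : ∀ σ ∈ X.K, σ.Nonempty → X.MinAt g a σ) {r : Finset (Fin n)} (hr : r.Nonempty)
    {c : Finset V} (hc : c ∈ X.ch) :
    ρ X g a r c ≤ 2 ^ n * R * ce X.ch (X.res r) (fun c => ∑ u ∈ r, Q X g a (r.erase u) u c) c := by
  have hne : (X.res r c).Nonempty := by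
    rw [← card_pos, X.card_res hc, card_pos]; exact hr
  have h := X.local_ineq hT hR ha hg (X.res_mem hc r) hne (hmin _ (X.res_mem hc r) hne)
  have hfib : X.ch.filter (X.res r c ⊆ ·) = X.ch.filter fun c' => X.res r c' = X.res r c :=
    filter_congr fun c' hc' => (X.res_eq_iff hc hc' r).symm
  rw [hfib] at h
  rw [ρ, ce, ce, ← mul_div_assoc]
  refine div_le_div_of_nonneg_right ?_ (Nat.cast_nonneg _)
  have h' := (Nat.cast_le (α := ℝ)).2 h
  push_cast at h'
  refine le_of_eq_of_le ?_ (h'.trans_eq ?_)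
  · refine sum_congr rfl fun c' hc' => ?_
    obtain ⟨h1, h2⟩ := mem_filter.1 hc'
    rw [card_filter, X.sum_powersetCard h1, P, ← h2]
    push_cast
    refine sum_congr rfl fun J _ => ?_
    simp only [res_subset_res X h1]
  · congr 1
    refine sum_congr rfl fun c' hc' => ?_
    obtain ⟨h1, h2⟩ := mem_filter.1 hc'
    rw [← h2]
    conv_rhs => rw [← X.image_ty_res h1 r, sum_image (X.inj _ (X.res_mem h1 r)),
      X.image_ty_res h1 r]
    refine sum_congr rfl fun v hv => ?_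
    have hv' : v ∈ c' := (mem_filter.1 hv).1
    rw [card_filter, X.sum_powersetCard h1, Q, res_erase X h1 r hv']
    push_cast
    refine sum_congr rfl fun J _ => ?_
    have : v ∈ X.res J c' ↔ X.ty v ∈ J := by simp [Geo.res, hv']
    simp only [res_subset_res X h1, this]

/-- one step of the recursion -/
theorem A_step {G : Type} [Group G] [Fintype G] [MulAction G V] (hT : X.Trans G) {R : ℕ}
    (hR : X.Cones R) (ha : a < n) (hg : ∀ τ ∈ X.K, τ.card = a + 1 → cob g τ = 0)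
    (hmin : ∀ σ ∈ X.K, σ.Nonempty → X.MinAt g a σ) {q : ℕ} (hq : 2 ≤ q) (h₁ : X.Thick q)
    (h₂ : X.Rank2 q) (hc : ∀ σ ∈ X.K, σ.card + 2 ≤ n → SEx (lk X.K σ) 1)
    {r : Finset (Fin n)} (hr : r.Nonempty) :
    A X g a r ≤ 2 ^ n * R * ∑ u ∈ r,
      (A X g a (r.erase u) + √(n * √(3 / q)) * (2 ^ n * X.W g a)) := by
  have h1 : A X g a r ≤ 2 ^ n * R * ∑ c ∈ X.ch, ρ X g a r c *
      ce X.ch (X.res r) (fun c => ∑ u ∈ r, Q X g a (r.erase u) u c) c := by
    rw [A, mul_sum]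
    refine sum_le_sum fun c hc => ?_
    rw [sq, mul_left_comm]
    exact mul_le_mul_of_nonneg_left (ρ_le hT hR ha hg hmin hr hc) (ρ_nonneg X g a r c)
  rw [sum_mul_ce (ρ_meas X g a r)] at h1
  refine h1.trans (mul_le_mul_of_nonneg_left ?_ (by positivity))
  simp only [mul_sum]
  rw [sum_comm]
  refine sum_le_sum fun u hu => ?_
  have hmix := X.mixing hT hq h₁ h₂ hc (notMem_erase u r) (ρ X g a r) (Q X g a (r.erase u) u)
    (by rw [insert_erase hu]; exact ρ_meas X g a r)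
    (by
      intro c _ c' _ h
      refine sum_congr rfl fun J _ => ?_
      by_cases hJ : u ∈ J
      · rw [if_neg fun h => h.2.1 hJ, if_neg fun h => h.2.1 hJ]
      · have hsub : J ⊆ univ.erase u := fun x hx =>
          mem_erase.2 ⟨fun h => hJ (h ▸ hx), mem_univ _⟩
        rw [← X.res_res hsub c, ← X.res_res hsub c', h])
  refine hmix.trans (add_le_add ?_ ?_)
  · refine sum_le_sum fun c _ => ?_
    rw [sq]
    refine mul_le_mul ?_ (ce_mono (fun c _ => Q_le_P X g a _ u c) c)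
      (ce_nonneg (fun c _ => Q_nonneg X g a _ u c) c) (ρ_nonneg X g a _ c)
    rw [ρ, ce_ce fun x _ y _ h => by
      rw [← X.res_res (erase_subset u r) x, ← X.res_res (erase_subset u r) y, h]]
    exact ce_mono (fun c _ => P_anti X g a (erase_subset u r) c) c
  · rw [mul_assoc]
    refine mul_le_mul_of_nonneg_left ?_ (Real.sqrt_nonneg _)
    have hw : (0 : ℝ) ≤ 2 ^ n * X.W g a := by positivity
    have hQ : ∑ c ∈ X.ch, Q X g a (r.erase u) u c ^ 2 ≤ 2 ^ n * X.W g a := by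
      refine le_trans (sum_le_sum fun c _ => ?_) ((mul_sum _ _ _).symm.trans_le
        (mul_le_mul_of_nonneg_left (sum_P_le X g a (r.erase u)) (by positivity)))
      rw [sq]
      exact mul_le_mul ((Q_le_P X g a _ u c).trans (P_le X g a _ c)) (Q_le_P X g a _ u c)
        (Q_nonneg X g a _ u c) (by positivity)
    calc _ ≤ √(2 ^ n * X.W g a) * √(2 ^ n * X.W g a) :=
          mul_le_mul (Real.sqrt_le_sqrt (A_le X g a r)) (Real.sqrt_le_sqrt hQ)
            (Real.sqrt_nonneg _) (Real.sqrt_nonneg _)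
      _ = _ := Real.mul_self_sqrt hw

end Crest.Agent.R66.Small
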