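import Crest.Agent.R66.Mix
import Crest.Agent.R66.Local
import Crest.Agent.R66.Morse
import Crest.Agent.R66.SmallA

set_option autoImplicit false

namespace Crest.Agent.R66

open Finset

/-- Small locally minimal cocycles vanish. -/
theorem small_zero (n R : ℕ) : ∃ q₀ m : ℕ, 0 < m ∧ ∀ (V : Type) [DecidableEq V] [Fintype V]
    (X : Geo n V) (G : Type) [Group G] [Fintype G] [MulAction G V] (q : ℕ), q₀ ≤ q → X.Trans G →
    X.Thick q → X.Rank2 q → X.Cones R → SEx X.K 1 → ∀ a, 1 ≤ a → a < n → ∀ g : Finset V → F2,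
    (∀ τ ∈ X.K, τ.card = a + 1 → cob g τ = 0) → (∀ σ ∈ X.K, σ.Nonempty → X.MinAt g a σ) →
    m * X.W g a < X.ch.card → X.W g a = 0 := by
  set K : ℕ := max 1 (2 ^ n * R * n) with hK
  have hK1 : (1 : ℝ) ≤ K := by exact_mod_cast le_max_left _ _
  have hK2 : (2 : ℝ) ^ n * R * n ≤ K := by exact_mod_cast le_max_right _ _
  have hlim : Filter.Tendsto (fun q : ℕ => (2 : ℝ) ^ n * (K ^ n * (n * (√(n * √(3 / q)) * 2 ^ n))))
      Filter.atTop (nhds 0) := by
    have h1 : Filter.Tendsto (fun q : ℕ => (3 : ℝ) / q) Filter.atTop (nhds 0) :=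
      tendsto_const_div_atTop_nhds_zero_nat 3
    have h2 : Continuous fun x : ℝ => (2 : ℝ) ^ n * (K ^ n * (n * (√(n * √x) * 2 ^ n))) := by
      fun_prop
    exact (h2.tendsto' 0 0 (by simp)).comp h1
  obtain ⟨q₀, hq₀⟩ := Filter.eventually_atTop.1
    (hlim.eventually (ge_mem_nhds (show (0 : ℝ) < 1 / 2 by norm_num)))
  refine ⟨max q₀ 2, 2 ^ (n + 1) * K ^ n, by positivity, ?_⟩
  intro V _ _ X G _ _ _ q hq hT h₁ h₂ hR hS a _ ha g hg hmin hsmall
  have hc : ∀ σ ∈ X.K, σ.card + 2 ≤ n → SEx (lk X.K σ) 1 := by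
    intro σ hσ hn
    rcases σ.eq_empty_or_nonempty with rfl | hne
    · rwa [lk_empty]
    · exact (hR σ hσ hne).sEx (X.down.lk σ) (by omega)
  have hlam := hq₀ q (le_of_max_le_left hq)
  set lam : ℝ := √(n * √(3 / q)) with hlamdef
  have hlam0 : 0 ≤ lam := Real.sqrt_nonneg _
  set w : ℝ := ((X.W g a : ℕ) : ℝ) with hw
  have hw0 : 0 ≤ w := Nat.cast_nonneg _
  set E : ℝ := lam * (2 ^ n * w) with hE
  have hE0 : 0 ≤ E := by positivity
  have hA0 := Small.A_nonneg X g a ∅
  have hrec : ∀ j, ∀ r : Finset (Fin n), r.card = j →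
      Small.A X g a r ≤ K ^ j * (Small.A X g a ∅ + j * E) := by
    intro j
    induction j with
    | zero =>
      intro r hr
      rw [card_eq_zero.1 hr]; simp
    | succ j ih =>
      intro r hr
      have hne : r.Nonempty := card_pos.1 (by omega)
      have hKj : (1 : ℝ) ≤ K ^ j := one_le_pow₀ hK1
      have hB : 0 ≤ (K : ℝ) ^ j * (Small.A X g a ∅ + (j + 1) * E) := by positivity
      have hrn : (r.card : ℝ) ≤ n := by
        exact_mod_cast (card_le_univ r).trans_eq (Fintype.card_fin n)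
      refine (Small.A_step hT hR ha hg hmin (le_of_max_le_right hq) h₁ h₂ hc hne).trans ?_
      have h3 : ∑ u ∈ r, (Small.A X g a (r.erase u) + E) ≤
          n * (K ^ j * (Small.A X g a ∅ + (j + 1) * E)) := by
        refine (sum_le_card_nsmul _ _ _ fun u hu => ?_).trans
          ((nsmul_eq_mul _ _).trans_le (mul_le_mul_of_nonneg_right hrn hB))
        have h4 := ih (r.erase u) (by rw [card_erase_of_mem hu]; omega)
        nlinarith
      calc _ ≤ 2 ^ n * R * (n * (K ^ j * (Small.A X g a ∅ + (j + 1) * E))) :=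
            mul_le_mul_of_nonneg_left h3 (by positivity)
        _ = 2 ^ n * R * n * (K ^ j * (Small.A X g a ∅ + (j + 1) * E)) := by ring
        _ ≤ K * (K ^ j * (Small.A X g a ∅ + (j + 1) * E)) := mul_le_mul_of_nonneg_right hK2 hB
        _ = _ := by push_cast; ring
  have hsum : w ≤ 2 ^ n * (K ^ n * (Small.A X g a ∅ + n * E)) := by
    rw [hw, Small.W_eq_sum_A]
    refine (sum_le_card_nsmul _ _ (K ^ n * (Small.A X g a ∅ + n * E)) fun r hr => ?_).trans
      ((nsmul_eq_mul _ _).trans_le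
        (mul_le_mul_of_nonneg_right (Small.card_types_le a) (by positivity)))
    refine (hrec a r (mem_powersetCard.1 hr).2).trans ?_
    have han : (a : ℝ) ≤ n := by exact_mod_cast ha.le
    have hal := ha.le
    gcongr
  have hhalf : w ≤ 2 ^ (n + 1) * K ^ n * Small.A X g a ∅ := by
    have h5 := mul_le_mul_of_nonneg_right hlam hw0
    have h6 : 2 ^ n * (K ^ n * (Small.A X g a ∅ + n * E)) = 2 ^ n * K ^ n * Small.A X g a ∅ +
        2 ^ n * (K ^ n * (n * (lam * 2 ^ n))) * w := by rw [hE]; ring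
    rw [pow_succ]
    linarith
  have hN : (0 : ℝ) < X.ch.card := by exact_mod_cast card_pos.2 X.ch_nonempty
  have h7 := mul_le_mul_of_nonneg_right hhalf hN.le
  rw [mul_assoc, Small.A_empty, ← hw] at h7
  have h8 : (2 : ℝ) ^ (n + 1) * K ^ n * w < X.ch.card := by rw [hw]; exact_mod_cast hsmall
  by_contra hne
  have hpos : 0 < w := by rw [hw]; exact_mod_cast Nat.pos_of_ne_zero hne
  nlinarith

end Crest.Agent.R66
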