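import Crest.Agent.R66.Std
import Crest.Agent.R66.Chain

set_option autoImplicit false

namespace Crest.Agent.R66

open Finset

namespace StairAux

/-- Orbit representatives. -/
theorem exists_rep {Γ S : Type} [Group Γ] [MulAction Γ S] (N : Subgroup Γ) :
    ∃ (r : S → S) (k : S → Γ), (∀ s, k s ∈ N) ∧ (∀ s, k s • r s = s) ∧
      ∀ g ∈ N, ∀ s, r (g • s) = r s := by
  let R := MulAction.orbitRel N S
  have h : ∀ s : S, ∃ g : N, g • (Quotient.mk R s).out = s := fun s => by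
    have : R.r s (Quotient.mk R s).out := Quotient.exact (Quotient.out_eq _).symm
    exact this
  choose k hk using h
  refine ⟨fun s => (Quotient.mk R s).out, fun s => k s, fun s => (k s).2, hk, fun g hg s => ?_⟩
  have : Quotient.mk R (g • s) = Quotient.mk R s := Quotient.sound ⟨⟨g, hg⟩, rfl⟩
  simp only [this]

theorem F2_eq_one {r : F2} (h : r ≠ 0) : r = 1 := by
  revert r; decide

theorem F_ind {X : Type} {p : (X →₀ F2) → Prop} (Q : X → Prop) (h0 : p 0)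
    (hadd : ∀ x y, p x → p y → p (x + y)) (he : ∀ s, Q s → p (Finsupp.single s 1)) (u : X →₀ F2)
    (hu : ∀ s ∈ u.support, Q s) : p u := by
  have h1 : u = ∑ s ∈ u.support, Finsupp.single s 1 := by
    conv_lhs => rw [← Finsupp.sum_single u, Finsupp.sum]
    refine Finset.sum_congr rfl fun s hs => ?_
    rw [F2_eq_one (Finsupp.mem_support_iff.1 hs)]
  rw [h1]
  exact Finset.sum_induction _ p hadd h0 fun s hs => he s (hu s hs)

section lin

variable {X W W' : Type} [AddCommGroup W] [Module F2 W] [AddCommGroup W'] [Module F2 W']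

theorem F_eq (f g : (X →₀ F2) →ₗ[F2] W) (Q : X → Prop)
    (he : ∀ s, Q s → f (Finsupp.single s 1) = g (Finsupp.single s 1)) (u : X →₀ F2)
    (hu : ∀ s ∈ u.support, Q s) : f u = g u :=
  F_ind (p := fun u => f u = g u) Q (by simp only [map_zero])
    (fun x y hx hy => by simp only [map_add, hx, hy]) he u hu

theorem F_mem (f : (X →₀ F2) →ₗ[F2] W) (U : Submodule F2 W) (Q : X → Prop)
    (he : ∀ s, Q s → f (Finsupp.single s 1) ∈ U) (u : X →₀ F2)
    (hu : ∀ s ∈ u.support, Q s) : f u ∈ U :=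
  F_ind (p := fun u => f u ∈ U) Q (by simp only [map_zero, zero_mem])
    (fun x y hx hy => by rw [map_add]; exact add_mem hx hy) he u hu

theorem F_eq' (f g : (X →₀ F2) →ₗ[F2] W)
    (he : ∀ s, f (Finsupp.single s 1) = g (Finsupp.single s 1)) (u : X →₀ F2) : f u = g u :=
  F_eq f g (fun _ => True) (fun s _ => he s) u fun _ _ => trivial

theorem F_mem' (f : (X →₀ F2) →ₗ[F2] W) (U : Submodule F2 W)
    (he : ∀ s, f (Finsupp.single s 1) ∈ U) (u : X →₀ F2) : f u ∈ U :=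
  F_mem f U (fun _ => True) (fun s _ => he s) u fun _ _ => trivial

/-- A linear map given on the basis. -/
noncomputable def lc (f : X → W) : (X →₀ F2) →ₗ[F2] W := Finsupp.linearCombination F2 f

theorem lc_single (f : X → W) (s : X) : lc f (Finsupp.single s 1) = f s := by
  rw [lc, Finsupp.linearCombination_single, one_smul]

attribute [irreducible] lc

theorem decomp {ι : Type} [DecidableEq ι] (κ : X → ι) (φ : X → W) (J : ι → W →ₗ[F2] W')
    (u : X →₀ F2) :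
    ∑ t ∈ u.support.image κ, J t (lc (fun x => if κ x = t then φ x else 0) u) =
      lc (fun x => J (κ x) (φ x)) u := by
  have := F_eq (∑ t ∈ u.support.image κ, J t ∘ₗ lc (fun x => if κ x = t then φ x else 0))
    (lc (fun x => J (κ x) (φ x))) (fun x => κ x ∈ u.support.image κ) (fun s hs => by
      rw [LinearMap.sum_apply, lc_single, Finset.sum_eq_single_of_mem (κ s) hs]
      · rw [LinearMap.comp_apply, lc_single, if_pos rfl]
      · intro t _ ht
        rw [LinearMap.comp_apply, lc_single, if_neg (Ne.symm ht), map_zero]) u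
    (fun s hs => Finset.mem_image_of_mem κ hs)
  rwa [LinearMap.sum_apply] at this

end lin

variable {Γ V : Type} [Group Γ] [DecidableEq V] [MulAction Γ V] {K : Set (Finset V)}

/-- The double complex. -/
abbrev T (A V : Type) : Type := (A × Finset V) →₀ F2

/-- Basis elements of the double complex. -/
noncomputable abbrev e {A V : Type} (s : A) (σ : Finset V) : T A V := Finsupp.single (s, σ) 1

/-- The inclusion of a column. -/
noncomputable def ci {A V : Type} (τ : Finset V) : (A →₀ F2) →ₗ[F2] T A V := lc fun s => e s τ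

/-- The inclusion of a row. -/
noncomputable def ri {A V : Type} (s : A) : Ch V →ₗ[F2] T A V := lc fun τ => e s τ

theorem ci_single {A V : Type} (τ : Finset V) (s : A) : ci τ (Finsupp.single s 1) = e s τ :=
  lc_single _ _

theorem ri_single {A V : Type} (s : A) (τ : Finset V) : ri s (Finsupp.single τ 1) = e s τ :=
  lc_single _ _

/-- The vertical differential. -/
noncomputable def d1 (Γ V : Type) (l : ℕ) : T (Fin (l + 1) → Γ) V →ₗ[F2] T (Fin l → Γ) V :=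
  lc fun p => ci p.2 (stdD Γ l (Finsupp.single p.1 1))

/-- The horizontal differential. -/
noncomputable def d2 {A : Type} : T A V →ₗ[F2] T A V :=
  lc fun p => ri p.1 (bd (Finsupp.single p.2 1))

theorem d1_ci {Γ V : Type} {l : ℕ} (τ : Finset V) (x : (Fin (l + 1) → Γ) →₀ F2) :
    d1 Γ V l (ci τ x) = ci τ (stdD Γ l x) :=
  F_eq' (d1 Γ V l ∘ₗ ci τ) (ci τ ∘ₗ stdD Γ l) (fun s => by
    rw [LinearMap.comp_apply, ci_single, d1, lc_single, LinearMap.comp_apply]) x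

theorem d2_ri {A : Type} (s : A) (x : Ch V) : d2 (ri s x) = ri s (bd x) :=
  F_eq' (d2 ∘ₗ ri s) (ri s ∘ₗ bd) (fun τ => by
    rw [LinearMap.comp_apply, ri_single, d2, lc_single, LinearMap.comp_apply]) x

theorem d1_e {Γ V : Type} {l : ℕ} (s : Fin (l + 1) → Γ) (σ : Finset V) :
    d1 Γ V l (e s σ) = ∑ i : Fin (l + 1), e (s ∘ i.succAbove) σ := by
  rw [← ci_single, d1_ci, stdD_single, map_sum]
  simp only [ci_single]

theorem d2_e {A : Type} (s : A) (σ : Finset V) : d2 (e s σ) = ∑ v ∈ σ, e s (σ.erase v) := by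
  rw [← ri_single, d2_ri, bd_single, map_sum]
  simp only [ri_single]

theorem d1_d1 {Γ V : Type} {l : ℕ} (u : T (Fin (l + 2) → Γ) V) :
    d1 Γ V l (d1 Γ V (l + 1) u) = 0 :=
  F_eq' (d1 Γ V l ∘ₗ d1 Γ V (l + 1)) 0 (fun p => by
    change d1 Γ V l (d1 Γ V (l + 1) (e p.1 p.2)) = 0
    rw [← ci_single, d1_ci, d1_ci, stdD_stdD, map_zero]) u

theorem d2_d2 {A : Type} (u : T A V) : d2 (d2 u) = 0 :=
  F_eq' (d2 ∘ₗ d2) 0 (fun p => by
    change d2 (d2 (e p.1 p.2)) = 0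
    rw [← ri_single, d2_ri, d2_ri, bd_bd, map_zero]) u

theorem d1_d2 {Γ : Type} {l : ℕ} (u : T (Fin (l + 1) → Γ) V) :
    d1 Γ V l (d2 u) = d2 (d1 Γ V l u) :=
  F_eq' (d1 Γ V l ∘ₗ d2) (d2 ∘ₗ d1 Γ V l) (fun p => by
    change d1 Γ V l (d2 (e p.1 p.2)) = d2 (d1 Γ V l (e p.1 p.2))
    rw [d2_e, d1_e, map_sum, map_sum]
    simp only [d1_e, d2_e]
    exact Finset.sum_comm) u

/-- The image of a finite set. -/
def im (g : Γ) (σ : Finset V) : Finset V := σ.image (g • ·)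

theorem im_im (g h : Γ) (σ : Finset V) : im g (im h σ) = im (g * h) σ := by
  unfold im
  rw [Finset.image_image]
  exact Finset.image_congr fun x _ => (mul_smul g h x).symm

theorem im_one (σ : Finset V) : im (1 : Γ) σ = σ := by simp [im]

theorem card_im (g : Γ) (σ : Finset V) : (im g σ).card = σ.card :=
  Finset.card_image_of_injective _ (MulAction.injective g)

theorem im_mem_iff (hinv : Inv Γ K) (g : Γ) (σ : Finset V) : im g σ ∈ K ↔ σ ∈ K := by
  refine ⟨fun h => ?_, hinv g σ⟩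
  have : im g⁻¹ (im g σ) ∈ K := hinv g⁻¹ _ h
  rwa [im_im, inv_mul_cancel, im_one] at this

open Pointwise in
theorem exists_rep_im (N : Subgroup Γ) :
    ∃ (r : Finset V → Finset V) (k : Finset V → Γ), (∀ s, k s ∈ N) ∧ (∀ s, im (k s) (r s) = s) ∧
      ∀ g ∈ N, ∀ s, r (im g s) = r s :=
  exists_rep (S := Finset V) N

theorem sum_im {W : Type} [AddCommGroup W] (g : Γ) (σ : Finset V) (f : Finset V → W) :
    ∑ v ∈ im g σ, f ((im g σ).erase v) = ∑ v ∈ σ, f (im g (σ.erase v)) := by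
  rw [im, Finset.sum_image fun x _ y _ h => MulAction.injective g h]
  refine Finset.sum_congr rfl fun v _ => ?_
  rw [im, Finset.image_erase (MulAction.injective g)]

/-- The augmentation submodule of the double complex. -/
noncomputable def IT (V : Type) [DecidableEq V] [MulAction Γ V] (N : Subgroup Γ) (l : ℕ) :
    Submodule F2 (T (Fin l → Γ) V) :=
  Submodule.span F2 {z | ∃ g ∈ N, ∃ (s : Fin l → Γ) (σ : Finset V), z = e (g • s) (im g σ) - e s σ}

/-- The part of the double complex on faces with `j` vertices. -/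
def DT (A : Type) {V : Type} (K : Set (Finset V)) (j : ℕ) : Submodule F2 (T A V) :=
  Finsupp.supported F2 F2 {p | p.2 ∈ K ∧ p.2.card = j}

theorem e_mem_DT {A V : Type} {K : Set (Finset V)} {j : ℕ} (s : A) {σ : Finset V} (h : σ ∈ K)
    (hj : σ.card = j) : e s σ ∈ DT A K j := Finsupp.single_mem_supported _ _ ⟨h, hj⟩

theorem DT_mem {A V W : Type} {K : Set (Finset V)} {j : ℕ} [AddCommGroup W] [Module F2 W]
    (f : T A V →ₗ[F2] W) (U : Submodule F2 W) (he : ∀ s σ, σ ∈ K → σ.card = j → f (e s σ) ∈ U)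
    {u : T A V} (hu : u ∈ DT A K j) : f u ∈ U :=
  F_mem f U (fun p => p.2 ∈ K ∧ p.2.card = j) (fun p h => he p.1 p.2 h.1 h.2) u fun _ hp => hu hp

theorem ri_mem_DT {A : Type} {j : ℕ} (s : A) {c : Ch V} (hc : c ∈ Cb K j) : ri s c ∈ DT A K j :=
  F_mem (ri s) _ (fun σ => σ ∈ K ∧ σ.card = j)
    (fun _ h => by rw [ri_single]; exact e_mem_DT s h.1 h.2) c (mem_Cb.1 hc)

theorem ci_mem_DT {A V : Type} {K : Set (Finset V)} {j : ℕ} {τ : Finset V} (h : τ ∈ K)
    (hj : τ.card = j) (x : A →₀ F2) : ci τ x ∈ DT A K j :=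
  F_mem' (ci τ) _ (fun s => by rw [ci_single]; exact e_mem_DT s h hj) x

variable {N : Subgroup Γ} {l j : ℕ}

theorem sub_mem_IT {g : Γ} (hg : g ∈ N) (s : Fin l → Γ) (σ : Finset V) :
    e (g • s) (im g σ) - e s σ ∈ IT V N l :=
  Submodule.subset_span ⟨g, hg, s, σ, rfl⟩

theorem IT_le_comap {W : Type} [AddCommGroup W] [Module F2 W]
    (f : T (Fin l → Γ) V →ₗ[F2] W) (U : Submodule F2 W)
    (h : ∀ g ∈ N, ∀ s σ, f (e (g • s) (im g σ)) - f (e s σ) ∈ U) {u : T (Fin l → Γ) V}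
    (hu : u ∈ IT V N l) : f u ∈ U := by
  have : IT V N l ≤ U.comap f := by
    refine Submodule.span_le.2 ?_
    rintro _ ⟨g, hg, s, σ, rfl⟩
    change f _ ∈ U
    rw [map_sub]
    exact h g hg s σ
  exact this hu

theorem d1_mem_IT {u : T (Fin (l + 1) → Γ) V} (hu : u ∈ IT V N (l + 1)) :
    d1 Γ V l u ∈ IT V N l := by
  refine IT_le_comap _ _ (fun g hg s σ => ?_) hu
  rw [d1_e, d1_e, ← Finset.sum_sub_distrib]
  exact Submodule.sum_mem _ fun i _ => sub_mem_IT hg (s ∘ i.succAbove) σ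

theorem d2_mem_IT {u : T (Fin l → Γ) V} (hu : u ∈ IT V N l) : d2 u ∈ IT V N l := by
  refine IT_le_comap _ _ (fun g hg s σ => ?_) hu
  rw [d2_e, d2_e, sum_im g σ (fun τ => e (g • s) τ), ← Finset.sum_sub_distrib]
  exact Submodule.sum_mem _ fun v _ => sub_mem_IT hg s (σ.erase v)

theorem d1_mem_DT {Γ V : Type} {K : Set (Finset V)} {u : T (Fin (l + 1) → Γ) V}
    (hu : u ∈ DT _ K j) : d1 Γ V l u ∈ DT _ K j :=
  DT_mem _ _ (fun s σ h1 h2 => by
    rw [d1_e]
    exact Submodule.sum_mem _ fun i _ => e_mem_DT _ h1 h2) hu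

theorem d2_mem_DT {A : Type} (hK : Down K) {u : T A V} (hu : u ∈ DT A K (j + 1)) :
    d2 u ∈ DT A K j :=
  DT_mem _ _ (fun s σ h1 h2 => by
    rw [← ri_single, d2_ri]
    exact ri_mem_DT s (bd_mem_Cb hK (single_mem_Cb h1 h2))) hu

/-- Exactness of the rows. -/
theorem row (hinv : Inv Γ K) (hK : SEx K j) {u : T (Fin (l + 1) → Γ) V} (hu : u ∈ DT _ K j)
    (hd : d2 u ∈ IT V N (l + 1)) : ∃ v ∈ DT _ K (j + 1), u - d2 v ∈ IT V N (l + 1) := by
  classical
  obtain ⟨r, k, hk, hkr, hr⟩ := exists_rep (S := Fin (l + 1) → Γ) N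
  have hkg : ∀ g ∈ N, ∀ s, k (g • s) = g * k s := by
    intro g hg s
    have h1 := congrFun (hkr (g • s)) 0
    have h2 := congrFun (hkr s) 0
    rw [hr g hg] at h1
    simp only [Pi.smul_apply, smul_eq_mul] at h1 h2
    rw [← h2, ← mul_assoc] at h1
    exact mul_right_cancel h1
  let φ : (Fin (l + 1) → Γ) × Finset V → Ch V := fun p => Finsupp.single (im (k p.1)⁻¹ p.2) 1
  let Φ : (Fin (l + 1) → Γ) → (T (Fin (l + 1) → Γ) V →ₗ[F2] Ch V) := fun t =>
    lc fun p => if r p.1 = t then φ p else 0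
  have hΦ : ∀ t s σ, Φ t (e s σ) = if r s = t then Finsupp.single (im (k s)⁻¹ σ) 1 else 0 :=
    fun t s σ => lc_single _ _
  have h1 : u - lc (fun p => ri (r p.1) (φ p)) u ∈ IT V N (l + 1) :=
    F_mem' (LinearMap.id - lc (fun p => ri (r p.1) (φ p))) _ (fun p => by
      rw [LinearMap.sub_apply, lc_single, LinearMap.id_apply, ri_single]
      have := sub_mem_IT (hk p.1) (r p.1) (im (k p.1)⁻¹ p.2)
      rwa [hkr, im_im, mul_inv_cancel, im_one] at this) u
  have h2 : ∀ t, Φ t (d2 u) = 0 := fun t => by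
    refine (Submodule.mem_bot F2).1 (IT_le_comap (Φ t) ⊥ (fun g hg s σ => ?_) hd)
    rw [hΦ, hΦ, hr g hg, hkg g hg, im_im, mul_inv_rev, inv_mul_cancel_right, sub_self]
    exact zero_mem _
  have h3 : ∀ t, bd (Φ t u) = Φ t (d2 u) := fun t =>
    F_eq' (bd ∘ₗ Φ t) (Φ t ∘ₗ d2) (fun p => by
      change bd (Φ t (e p.1 p.2)) = Φ t (d2 (e p.1 p.2))
      rw [d2_e, map_sum]
      simp only [hΦ]
      split_ifs
      · rw [bd_single, sum_im _ _ (fun τ => Finsupp.single τ (1 : F2))]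
      · rw [map_zero, Finset.sum_const_zero]) u
  have h4 : ∀ t, Φ t u ∈ Cb K j := fun t => DT_mem _ _ (fun s σ h1 h2 => by
    rw [hΦ]
    split_ifs
    · exact single_mem_Cb (hinv _ _ h1) ((card_im _ _).trans h2)
    · exact zero_mem _) hu
  choose y hy hy' using fun t => hK _ (h4 t) ((h3 t).trans (h2 t))
  refine ⟨∑ t ∈ u.support.image (fun p => r p.1), ri t (y t),
    Submodule.sum_mem _ fun t _ => ri_mem_DT t (hy t), ?_⟩
  rw [map_sum]
  simp only [d2_ri, hy']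
  rwa [← decomp (fun p => r p.1) φ ri u] at h1

/-- The augmentation submodule of the standard complex. -/
noncomputable def IP (S : Subgroup Γ) (l : ℕ) : Submodule F2 ((Fin l → Γ) →₀ F2) :=
  Submodule.span F2 {z | ∃ g ∈ S, ∃ x, z = perm Γ (Fin l → Γ) g x - x}

theorem sub_mem_IP {S : Subgroup Γ} {g : Γ} (hg : g ∈ S) (s : Fin l → Γ) :
    Finsupp.single (g • s) (1 : F2) - Finsupp.single s 1 ∈ IP S l :=
  Submodule.subset_span ⟨g, hg, Finsupp.single s 1, by rw [perm_single]⟩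

theorem ci_mem_IT {S : Subgroup Γ} {τ : Finset V} (hS : ∀ g ∈ S, g ∈ N ∧ im g τ = τ)
    {x : (Fin l → Γ) →₀ F2} (hx : x ∈ IP S l) : ci τ x ∈ IT V N l := by
  have : IP S l ≤ (IT V N l).comap (ci τ) := by
    refine Submodule.span_le.2 ?_
    rintro _ ⟨g, hg, x, rfl⟩
    refine F_mem' (ci τ ∘ₗ (perm Γ (Fin l → Γ) g - LinearMap.id)) (IT V N l) (fun s => ?_) x
    rw [LinearMap.comp_apply, LinearMap.sub_apply, LinearMap.id_apply, perm_single, map_sub,
      ci_single, ci_single]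
    have := sub_mem_IT (hS g hg).1 s τ
    rwa [(hS g hg).2] at this
  exact this hx

/-- Decomposition into columns. -/
theorem col_decomp (hinv : Inv Γ K) {u : T (Fin (l + 1) → Γ) V} (hu : u ∈ DT _ K j)
    (hd : d1 Γ V l u ∈ IT V N l) :
    ∃ (F : Finset (Finset V)) (x : Finset V → (Fin (l + 1) → Γ) →₀ F2),
      (∀ τ ∈ F, τ ∈ K ∧ τ.card = j ∧ stdD Γ l (x τ) ∈ IP (N ⊓ fstab Γ τ) l) ∧
      u - ∑ τ ∈ F, ci τ (x τ) ∈ IT V N (l + 1) := by
  classical
  obtain ⟨r, k, hk, hkr, hr⟩ := exists_rep_im (V := V) N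
  have hr' : ∀ σ, r σ = im (k σ)⁻¹ σ := fun σ => by
    have := congrArg (im (k σ)⁻¹) (hkr σ)
    rwa [im_im, inv_mul_cancel, im_one] at this
  let φ : ∀ m : ℕ, (Fin m → Γ) × Finset V → ((Fin m → Γ) →₀ F2) := fun m p =>
    Finsupp.single ((k p.2)⁻¹ • p.1) 1
  let Ψ : ∀ m : ℕ, Finset V → (T (Fin m → Γ) V →ₗ[F2] ((Fin m → Γ) →₀ F2)) := fun m τ =>
    lc fun p => if r p.2 = τ then φ m p else 0
  have hΨ : ∀ m τ s σ, Ψ m τ (e s σ) =
      if r σ = τ then Finsupp.single ((k σ)⁻¹ • s) 1 else 0 := fun m τ s σ => lc_single _ _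
  have h1 : u - lc (fun p => ci (r p.2) (φ _ p)) u ∈ IT V N (l + 1) :=
    F_mem' (LinearMap.id - lc (fun p => ci (r p.2) (φ _ p))) _ (fun p => by
      rw [LinearMap.sub_apply, lc_single, LinearMap.id_apply, ci_single]
      have := sub_mem_IT (hk p.2) ((k p.2)⁻¹ • p.1) (r p.2)
      rwa [hkr, smul_inv_smul] at this) u
  have h2 : ∀ τ, Ψ l τ (d1 Γ V l u) ∈ IP (N ⊓ fstab Γ τ) l := fun τ => by
    refine IT_le_comap (Ψ l τ) _ (fun g hg s σ => ?_) hd
    rw [hΨ, hΨ, hr g hg]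
    split_ifs with h
    · subst h
      have hm : (k (im g σ))⁻¹ * g * k σ ∈ N ⊓ fstab Γ (r σ) := by
        refine ⟨N.mul_mem (N.mul_mem (N.inv_mem (hk _)) hg) (hk _), ?_⟩
        change im _ (r σ) = r σ
        rw [← im_im, hkr, ← im_im, ← hr', hr g hg]
      have := sub_mem_IP hm ((k σ)⁻¹ • s)
      rwa [mul_smul, smul_inv_smul, mul_smul] at this
    · rw [sub_self]; exact zero_mem _
  have h3 : ∀ τ, stdD Γ l (Ψ _ τ u) = Ψ l τ (d1 Γ V l u) := fun τ =>
    F_eq' (stdD Γ l ∘ₗ Ψ _ τ) (Ψ l τ ∘ₗ d1 Γ V l) (fun p => by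
      change stdD Γ l (Ψ _ τ (e p.1 p.2)) = Ψ l τ (d1 Γ V l (e p.1 p.2))
      rw [d1_e, map_sum]
      simp only [hΨ]
      split_ifs
      · rw [stdD_single]; rfl
      · rw [map_zero, Finset.sum_const_zero]) u
  refine ⟨u.support.image (fun p => r p.2), fun τ => Ψ _ τ u, fun τ hτ => ?_, ?_⟩
  · obtain ⟨p, hp, rfl⟩ := Finset.mem_image.1 hτ
    have := hu hp
    refine ⟨?_, ?_, (h3 _).symm ▸ h2 _⟩
    · rw [hr']; exact hinv _ _ this.1
    · rw [hr', card_im]; exact this.2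
  · rwa [← decomp (fun p => r p.2) (φ _) ci u] at h1

theorem van_iff (S : Subgroup Γ) (l : ℕ) : (std Γ).Van S l ↔
    (IP S l).comap (stdD Γ l) ≤ LinearMap.range (stdD Γ (l + 1)) ⊔ IP S (l + 1) := Iff.rfl

/-- Exactness of the columns. -/
theorem col (hinv : Inv Γ K) (hV : ∀ σ ∈ K, σ.card = j → (std Γ).Van (N ⊓ fstab Γ σ) l)
    {u : T (Fin (l + 1) → Γ) V} (hu : u ∈ DT _ K j) (hd : d1 Γ V l u ∈ IT V N l) :
    ∃ w ∈ DT _ K j, u - d1 Γ V (l + 1) w ∈ IT V N (l + 1) := by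
  obtain ⟨F, x, hF, hx⟩ := col_decomp hinv hu hd
  have h : ∀ τ, ∃ y : (Fin (l + 1 + 1) → Γ) →₀ F2, τ ∈ F →
      x τ - stdD Γ (l + 1) y ∈ IP (N ⊓ fstab Γ τ) (l + 1) := fun τ => by
    by_cases hτ : τ ∈ F
    · obtain ⟨h1, h2, h3⟩ := hF τ hτ
      obtain ⟨_, ⟨y, rfl⟩, z, hz, hyz⟩ := Submodule.mem_sup.1 ((van_iff _ _).1 (hV τ h1 h2) h3)
      refine ⟨y, fun _ => ?_⟩
      rw [← hyz, add_sub_cancel_left]
      exact hz
    · exact ⟨0, fun h => absurd h hτ⟩
  choose y hy using h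
  refine ⟨∑ τ ∈ F, ci τ (y τ),
    Submodule.sum_mem _ fun τ hτ => ci_mem_DT (hF τ hτ).1 (hF τ hτ).2.1 _, ?_⟩
  have h1 : ∑ τ ∈ F, ci τ (x τ) - d1 Γ V (l + 1) (∑ τ ∈ F, ci τ (y τ)) ∈ IT V N (l + 1) := by
    rw [map_sum, ← Finset.sum_sub_distrib]
    refine Submodule.sum_mem _ fun τ hτ => ?_
    rw [d1_ci, ← map_sub]
    exact ci_mem_IT (fun g hg => hg) (hy τ hτ)
  have := add_mem hx h1
  rwa [sub_add_sub_cancel] at this

/-- The bottom row. -/
theorem bot (hinv : Inv Γ K) (hK : Down K) (hbot : SVan N K j) {u : T (Fin 0 → Γ) V}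
    (hu : u ∈ DT _ K (j + 1)) (hd : d2 u ∈ IT V N 0) :
    ∃ w ∈ DT (Fin (0 + 1) → Γ) K (j + 2), u - d2 (d1 Γ V 0 w) ∈ IT V N 0 := by
  classical
  let s0 : Fin 0 → Γ := fun i => i.elim0
  let π : T (Fin 0 → Γ) V →ₗ[F2] Ch V := lc fun p =>
    if p.2 ∈ K ∧ p.2.card = j then Finsupp.single p.2 1 else 0
  have hπ : ∀ s σ, π (e s σ) = if σ ∈ K ∧ σ.card = j then Finsupp.single σ 1 else 0 :=
    fun s σ => lc_single _ _
  let ev : T (Fin 0 → Γ) V →ₗ[F2] Ch V := lc fun p => Finsupp.single p.2 1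
  have hev : ∀ s σ, ev (e s σ) = Finsupp.single σ 1 := fun s σ => lc_single _ _
  have h1 : π (d2 u) ∈ Ib N K j := by
    refine IT_le_comap π _ (fun g hg s σ => ?_) hd
    simp only [hπ, im_mem_iff hinv, card_im]
    split_ifs with h
    · exact Submodule.subset_span ⟨g, hg, σ, h.1, h.2, rfl⟩
    · rw [sub_self]; exact zero_mem _
  have h2 : π (d2 u) = ev (d2 u) :=
    F_eq π ev (fun p => p.2 ∈ K ∧ p.2.card = j) (fun p hp => by
      change π (e p.1 p.2) = ev (e p.1 p.2)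
      rw [hπ, hev, if_pos hp]) _ fun _ hp => d2_mem_DT hK hu hp
  have h3 : ev (d2 u) = bd (ev u) := F_eq' (ev ∘ₗ d2) (bd ∘ₗ ev) (fun p => by
    change ev (d2 (e p.1 p.2)) = bd (ev (e p.1 p.2))
    rw [d2_e, map_sum, hev, bd_single]
    simp only [hev]) u
  have h4 : ev u ∈ Cb K (j + 1) :=
    DT_mem _ _ (fun s σ h1 h2 => by rw [hev]; exact single_mem_Cb h1 h2) hu
  have h5 : ri s0 (ev u) = u := F_eq' (ri s0 ∘ₗ ev) LinearMap.id (fun p => by
    change ri s0 (ev (e p.1 p.2)) = e p.1 p.2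
    rw [hev, ri_single, Subsingleton.elim s0 p.1]) u
  rw [h2, h3] at h1
  obtain ⟨y, hy, hy'⟩ := hbot _ h4 h1
  refine ⟨ri (fun _ => 1) y, ri_mem_DT _ hy, ?_⟩
  have h6 : d1 Γ V 0 (ri (fun _ => 1) y) = ri s0 y :=
    F_eq' (d1 Γ V 0 ∘ₗ ri (fun _ => 1)) (ri s0) (fun σ => by
      rw [LinearMap.comp_apply, ri_single, ri_single, d1_e, Fin.sum_univ_succ, Fin.sum_univ_zero,
        add_zero, Subsingleton.elim s0]) y
  have h7 : Ib N K (j + 1) ≤ (IT V N 0).comap (ri s0) := by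
    refine Submodule.span_le.2 ?_
    rintro _ ⟨g, hg, σ, -, -, rfl⟩
    change ri s0 _ ∈ IT V N 0
    rw [map_sub, ri_single, ri_single]
    have := sub_mem_IT hg s0 σ
    rwa [Subsingleton.elim (g • s0) s0] at this
  have h8 : ri s0 (ev u - bd y) ∈ IT V N 0 := h7 hy'
  rwa [map_sub, h5, ← d2_ri, ← h6] at h8

/-- The zigzag. -/
theorem zig (hK : Down K) (hinv : Inv Γ K) (i : ℕ) (hrow : ∀ j, j ≤ i → SEx K j)
    (hbot : SVan N K i)
    (hcol : ∀ σ ∈ K, ∀ a, 1 ≤ a → 2 ≤ σ.card → a + σ.card = i + 1 →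
      (std Γ).Van (N ⊓ fstab Γ σ) a) (l : ℕ) :
    ∀ j, l + j = i → ∀ x ∈ DT (Fin (l + 1) → Γ) K (j + 1), d2 (d1 Γ V l x) ∈ IT V N l →
      ∃ w ∈ DT (Fin (l + 1) → Γ) K (j + 2), d1 Γ V l (x - d2 w) ∈ IT V N l := by
  induction l with
  | zero =>
    intro j hj x hx hd
    obtain rfl : j = i := by omega
    obtain ⟨w, hw, hw'⟩ := bot hinv hK hbot (d1_mem_DT hx) hd
    exact ⟨w, hw, by rwa [map_sub, d1_d2]⟩
  | succ l ih =>
    intro j hj x hx hd
    obtain ⟨x', hx', h1⟩ := row hinv (hrow (j + 1) (by omega)) (d1_mem_DT hx) hd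
    have h2 : d2 (d1 Γ V l x') ∈ IT V N l := by
      have := d1_mem_IT h1
      rwa [map_sub, d1_d1, zero_sub, neg_mem_iff, d1_d2] at this
    obtain ⟨w', hw', h3⟩ := ih (j + 1) (by omega) x' hx' h2
    have hV : ∀ σ ∈ K, σ.card = j + 2 → (std Γ).Van (N ⊓ fstab Γ σ) l := fun σ hσ hc => by
      rcases Nat.eq_zero_or_pos l with rfl | hl
      · exact Cx.van_zero _ (std_ex Γ 1) _
      · exact hcol σ hσ l hl (by omega) (by omega)
    obtain ⟨w, hw, h4⟩ := col hinv hV (sub_mem hx' (d2_mem_DT hK hw')) h3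
    refine ⟨w, hw, ?_⟩
    have h5 := d2_mem_IT h4
    rw [map_sub, map_sub, d2_d2, sub_zero, ← d1_d2] at h5
    have := add_mem h1 h5
    rwa [sub_add_sub_cancel, ← map_sub] at this

theorem stair' (hK : Down K) (h0 : ∅ ∈ K) (hinv : Inv Γ K) (N : Subgroup Γ) (i : ℕ)
    (hrow : ∀ j, j ≤ i → SEx K j) (hbot : SVan N K i)
    (hcol : ∀ σ ∈ K, ∀ a, 1 ≤ a → 2 ≤ σ.card → a + σ.card = i + 1 →
      (std Γ).Van (N ⊓ fstab Γ σ) a) :
    (IP N i).comap (stdD Γ i) ≤ IP N (i + 1) ⊔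
      ⨆ v : {v : V // {v} ∈ K}, (IP (N ⊓ fstab Γ {v.1}) i).comap (stdD Γ i) := by
  classical
  intro x hx
  have hx' : stdD Γ i x ∈ IP N i := hx
  have hN : ∀ g ∈ N, g ∈ N ∧ im g (∅ : Finset V) = ∅ := fun g hg => ⟨hg, Finset.image_empty _⟩
  have hb0 : d2 (ci (∅ : Finset V) x) ∈ IT V N (i + 1) :=
    F_mem' (d2 ∘ₗ ci (∅ : Finset V)) _ (fun s => by
      rw [LinearMap.comp_apply, ci_single, d2_e, Finset.sum_empty]; exact zero_mem _) x
  obtain ⟨x0, hx0, h1⟩ := row hinv (hrow 0 (Nat.zero_le _)) (ci_mem_DT h0 Finset.card_empty x) hb0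
  have h2 : d2 (d1 Γ V i x0) ∈ IT V N i := by
    have a1 := d1_mem_IT h1
    rw [map_sub, d1_ci, d1_d2] at a1
    have := sub_mem (ci_mem_IT hN hx') a1
    rwa [sub_sub_cancel] at this
  obtain ⟨w, hw, h3⟩ := zig hK hinv i hrow hbot hcol i 0 rfl x0 hx0 h2
  obtain ⟨F, z, hF, h4⟩ := col_decomp hinv (sub_mem hx0 (d2_mem_DT hK hw)) h3
  have h5 := d2_mem_IT h4
  rw [map_sub, map_sub, d2_d2, sub_zero] at h5
  have h6 := add_mem h1 h5
  rw [sub_add_sub_cancel] at h6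
  let π : T (Fin (i + 1) → Γ) V →ₗ[F2] ((Fin (i + 1) → Γ) →₀ F2) :=
    lc fun p => if p.2 = ∅ then Finsupp.single p.1 1 else 0
  have hπ : ∀ s σ, π (e s σ) = if σ = ∅ then Finsupp.single s 1 else 0 := fun s σ => lc_single _ _
  have h7 := IT_le_comap π (IP N (i + 1)) (fun g hg s σ => by
    rw [hπ, hπ]
    by_cases hσ : σ = ∅
    · subst hσ
      rw [if_pos (hN g hg).2, if_pos rfl]
      exact sub_mem_IP hg s
    · rw [if_neg hσ, if_neg fun h : im g σ = ∅ => hσ (Finset.image_eq_empty.1 h), sub_self]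
      exact zero_mem _) h6
  have e1 : π (ci ∅ x) = x := F_eq' (π ∘ₗ ci ∅) LinearMap.id (fun s => by
    rw [LinearMap.comp_apply, ci_single, hπ, if_pos rfl, LinearMap.id_apply]) x
  have e2 : ∀ τ ∈ F, π (d2 (ci τ (z τ))) = z τ := fun τ hτ => by
    obtain ⟨v, rfl⟩ := Finset.card_eq_one.1 (hF τ hτ).2.1
    exact F_eq' (π ∘ₗ d2 ∘ₗ ci {v}) LinearMap.id (fun s => by
      rw [LinearMap.comp_apply, LinearMap.comp_apply, ci_single, d2_e, Finset.sum_singleton, hπ,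
        if_pos (Finset.erase_singleton v), LinearMap.id_apply]) _
  rw [map_sub, e1, map_sum, map_sum, Finset.sum_congr rfl e2] at h7
  have h8 : ∑ τ ∈ F, z τ ∈ ⨆ v : {v : V // {v} ∈ K},
      (IP (N ⊓ fstab Γ {v.1}) i).comap (stdD Γ i) := by
    refine Submodule.sum_mem _ fun τ hτ => ?_
    obtain ⟨h9, h10, h11⟩ := hF τ hτ
    obtain ⟨v, rfl⟩ := Finset.card_eq_one.1 h10
    exact Submodule.mem_iSup_of_mem (⟨v, h9⟩ : {v : V // {v} ∈ K}) h11
  have := Submodule.add_mem_sup h7 h8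
  rwa [sub_add_cancel] at this

end StairAux

variable {Γ V : Type} [Group Γ] [DecidableEq V] [MulAction Γ V] {K : Set (Finset V)}

/-- The homology of `N` is generated by the homology of vertex stabilisers. -/
theorem stair (hK : Down K) (h0 : ∅ ∈ K) (hinv : Inv Γ K) (N : Subgroup Γ) (i : ℕ)
    (hrow : ∀ j, j ≤ i → SEx K j) (hbot : SVan N K i)
    (hcol : ∀ σ ∈ K, ∀ a, 1 ≤ a → 2 ≤ σ.card → a + σ.card = i + 1 →
      (std Γ).Van (N ⊓ fstab Γ σ) a) :
    (std Γ).Z N i ≤ (std Γ).I N (i + 1) ⊔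
      ⨆ v : {v : V // {v} ∈ K}, (std Γ).Z (N ⊓ fstab Γ {v.1}) i :=
  StairAux.stair' hK h0 hinv N i hrow hbot hcol

end Crest.Agent.R66
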