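import Crest.Agent.R66.Comp

set_option autoImplicit false

namespace Crest.Agent.R66

open Finset

variable {H Γ : Type} [Group H] [Group Γ]

theorem stdD_cons (b : ℕ) (x : (Fin (b + 1) → Γ) →₀ F2) :
    stdD Γ (b + 1) (Finsupp.mapDomain (fun s => Fin.cons (α := fun _ => Γ) 1 s) x) =
      x + Finsupp.mapDomain (fun s => Fin.cons (α := fun _ => Γ) 1 s) (stdD Γ b x) := by
  induction x using Finsupp.induction_linear with
  | zero => simp
  | add x y hx hy => simp only [Finsupp.mapDomain_add, map_add, hx, hy]; abel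
  | single s r =>
    rw [Finsupp.mapDomain_single, stdD_single, stdD_single, Fin.sum_univ_succ,
      Finsupp.mapDomain_finsetSum]
    congr 1
    refine Finset.sum_congr rfl fun i _ => ?_
    rw [Finsupp.mapDomain_single]
    congr 1
    funext k
    refine Fin.cases ?_ (fun k => ?_) k <;> simp

theorem std_ex (Γ : Type) [Group Γ] (b : ℕ) : (std Γ).Ex b := by
  cases b with
  | zero =>
    intro x
    refine ⟨Finsupp.mapDomain (fun s => Fin.cons (α := fun _ => Γ) 1 s) x, ?_⟩
    change stdD Γ 0 _ = x
    induction x using Finsupp.induction_linear with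
    | zero => simp
    | add x y hx hy => simp only [Finsupp.mapDomain_add, map_add, hx, hy]
    | single s r =>
      rw [Finsupp.mapDomain_single, stdD_single, Fin.sum_univ_succ]
      simp only [Finset.univ_eq_empty, Finset.sum_empty, add_zero]
      congr 1
  | succ b =>
    intro x hx
    refine ⟨Finsupp.mapDomain (fun s => Fin.cons (α := fun _ => Γ) 1 s) x, ?_⟩
    change stdD Γ b x = 0 at hx
    change stdD Γ (b + 1) _ = x
    rw [stdD_cons, hx, Finsupp.mapDomain_zero, add_zero]

theorem std_lift (φ : H →* Γ) (hφ : Function.Injective φ) {b : ℕ} (hb : 1 ≤ b) :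
    Lift (((std Γ).comap φ).ρ b) := by
  refine lift_perm (S := Fin b → Γ) φ fun g s h => hφ ?_
  have h1 := congrFun h ⟨0, hb⟩
  rw [Pi.smul_apply, smul_eq_mul, mul_eq_right] at h1
  rw [h1, map_one]

theorem std_lift' (H : Type) [Group H] {b : ℕ} (hb : 1 ≤ b) : Lift ((std H).ρ b) :=
  std_lift (MonoidHom.id H) Function.injective_id hb

theorem van_std_iff (φ : H →* Γ) (hφ : Function.Injective φ) (i : ℕ) :
    (std Γ).Van φ.range i ↔ HV H i := by
  rw [MonoidHom.range_eq_map, ← Cx.comap_Van]
  have he : ∀ a, ((std Γ).comap φ).Ex a := fun a => (Cx.comap_Ex _ φ a).2 (std_ex Γ a)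
  exact ⟨Cx.van_of_van (fun a ha _ => std_lift' H ha) (fun a _ => std_ex H a)
      (fun a ha _ => std_lift φ hφ ha) fun a _ => he a,
    Cx.van_of_van (fun a ha _ => std_lift φ hφ ha) (fun a _ => he a)
      (fun a ha _ => std_lift' H ha) fun a _ => std_ex H a⟩

theorem van_std_subgroup (S : Subgroup Γ) (i : ℕ) : (std Γ).Van S i ↔ HV S i := by
  rw [← van_std_iff S.subtype S.subtype_injective, S.range_subtype]

theorem HV.congr (e : H ≃* Γ) {i : ℕ} (h : HV H i) : HV Γ i := by
  have := (van_std_iff e.toMonoidHom e.injective i).2 h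
  rwa [MonoidHom.range_eq_top.2 e.surjective] at this

theorem hv_zero (H : Type) [Group H] : HV H 0 := (std H).van_zero (std_ex H 1) ⊤

end Crest.Agent.R66
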