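import Crest.Agent.R66.Aut
import Crest.Agent.R66.YGeo

set_option autoImplicit false

namespace Crest.Agent.R66

open Finset

namespace TransAux

variable {F V : Type} [Field F] [AddCommGroup V] [Module F V]

/-- A complete flag of length `n`. -/
structure Flag (n : ℕ) (A : ℕ → Submodule F V) : Prop where
  le : ∀ j, j < n → A j ≤ A (j + 1)
  fin : ∀ j, j ≤ n → FiniteDimensional F (A j)
  rank : ∀ j, j ≤ n → Module.finrank F (A j) = j

variable {n : ℕ} {A A' : ℕ → Submodule F V}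

theorem Flag.mono (h : Flag n A) {i j : ℕ} (hij : i ≤ j) (hj : j ≤ n) : A i ≤ A j := by
  induction j, hij using Nat.le_induction with
  | base => exact le_rfl
  | succ j _ ih => exact (ih (by omega)).trans (h.le j (by omega))

theorem Flag.step (h : Flag n A) {j : ℕ} (hj : j < n) :
    ∃ x, x ∉ A j ∧ A (j + 1) = A j ⊔ Submodule.span F {x} := by
  have := h.fin (j + 1) hj
  have h1 := h.rank j hj.le
  have h2 := h.rank (j + 1) hj
  have hlt : A j < A (j + 1) := lt_of_le_of_ne (h.le j hj) fun e => by rw [← e] at h2; omega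
  obtain ⟨x, hx, hx'⟩ := SetLike.exists_of_lt hlt
  have hle : A j ⊔ Submodule.span F {x} ≤ A (j + 1) :=
    sup_le hlt.le ((Submodule.span_singleton_le_iff_mem _ _).2 hx)
  refine ⟨x, hx', (Submodule.eq_of_le_of_finrank_le hle ?_).symm⟩
  have := Submodule.finiteDimensional_of_le hle
  have h3 : A j < A j ⊔ Submodule.span F {x} := lt_of_le_of_ne le_sup_left fun e =>
    hx' (e ▸ Submodule.mem_sup_right (Submodule.mem_span_singleton_self x))
  have := Submodule.finrank_lt_finrank_of_lt h3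
  omega

theorem Flag.exists_map (h : Flag n A) (h' : Flag n A') (j : ℕ) (hj : j ≤ n) :
    ∃ ψ : V →ₗ[F] V, ∀ i, i ≤ j → (A i).map ψ = A' i := by
  induction j with
  | zero =>
    refine ⟨0, fun i hi => ?_⟩
    obtain rfl : i = 0 := by omega
    have := h'.fin 0 hj
    rw [Submodule.map_zero, Submodule.finrank_eq_zero.1 (h'.rank 0 hj)]
  | succ j ih =>
    obtain ⟨ψ, hψ⟩ := ih (by omega)
    obtain ⟨x, hx, ex⟩ := h.step hj
    obtain ⟨y, -, ey⟩ := h'.step hj
    obtain ⟨χ, h1, h2⟩ := LinearMap.exists_extend_of_notMem (ψ.comp (A j).subtype) hx y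
    have key : ∀ i, i ≤ j → (A i).map χ = A' i := by
      intro i hi
      rw [← hψ i hi]
      have hc : ∀ z ∈ A i, χ z = ψ z := fun z hz =>
        LinearMap.congr_fun h1 ⟨z, h.mono hi (by omega) hz⟩
      ext v
      simp only [Submodule.mem_map]
      exact exists_congr fun z => and_congr_right fun hz => by rw [hc z hz]
    refine ⟨χ, fun i hi => ?_⟩
    rcases hi.lt_or_eq with hi | rfl
    · exact key i (by omega)
    · rw [ex, ey, Submodule.map_sup, key j le_rfl, Submodule.map_span, Set.image_singleton, h2]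

theorem Flag.exists_equiv (h : Flag n A) (h' : Flag n A') {L L' : Submodule F V} (e : A n = L)
    (e' : A' n = L') : ∃ (ψ : V →ₗ[F] V) (φ : L ≃ₗ[F] L'), (∀ x : L, (φ x : V) = ψ x) ∧
      ∀ i, i ≤ n → (A i).map ψ = A' i := by
  subst e e'
  obtain ⟨ψ, hψ⟩ := h.exists_map h' n le_rfl
  have := h.fin n le_rfl
  have := h'.fin n le_rfl
  have hm : ∀ x ∈ A n, ψ x ∈ A' n := fun x hx => hψ n le_rfl ▸ Submodule.mem_map_of_mem hx
  have hs : Function.Surjective (ψ.restrict hm) := by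
    rintro ⟨y, hy⟩
    rw [← hψ n le_rfl] at hy
    obtain ⟨x, hx, rfl⟩ := hy
    exact ⟨⟨x, hx⟩, rfl⟩
  exact ⟨ψ, LinearEquiv.ofBijective _ ⟨(LinearMap.injective_iff_surjective_of_finrank_eq_finrank
    ((h.rank n le_rfl).trans (h'.rank n le_rfl).symm)).2 hs, hs⟩, fun _ => rfl, hψ⟩

variable {S : Setup F V n} {σ : Finset (Submodule F V)} {u v : Submodule F V}

theorem vert (h : σ ∈ S.Y) (hu : u ∈ σ) : S.Vert u := ((S.mem_Y.1 h).1).1 u hu

theorem comp (h : σ ∈ S.Y) (hu : u ∈ σ) (hv : v ∈ σ) : S.Comp u v :=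
  ((S.mem_Y.1 h).1).2 u hu v hv

theorem le_of_chi (h : σ ∈ S.Y) (hu : u ∈ σ) (hv : v ∈ σ) (hc : S.chi u ≤ S.chi v) : u ≤ v :=
  (comp h hu hv).le_of_chi (vert h hu).1 (vert h hv).1 hc

theorem eq_of_chi (h : σ ∈ S.Y) (hu : u ∈ σ) (hv : v ∈ σ) (hc : S.chi u = S.chi v) : u = v :=
  le_antisymm (le_of_chi h hu hv hc.le) (le_of_chi h hv hu hc.ge)

theorem isCompl (h : σ ∈ S.Y) (hv : v ∈ σ) (h0 : S.chi v = 0) : IsCompl v S.M :=
  Setup.isCompl_of_mem_Y (S.down_Y σ h _ (singleton_subset_iff.2 hv)) h0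

theorem le_tr (h : σ ∈ S.Y) (hv : v ∈ σ) (h0 : S.chi v = 0) (hu : u ∈ σ) : u ≤ S.tr 1 v := by
  refine ((S.comp_tr_right 1).2 (comp h hu hv)).le_of_chi (vert h hu).1 ((vert h hv).1.tr 1) ?_
  rw [(vert h hv).1.chi_tr, h0]
  have := (vert h hu).2.2
  omega

theorem eq_sup (h : σ ∈ S.Y) (hv : v ∈ σ) (h0 : S.chi v = 0) (hu : u ∈ σ) :
    u = v ⊔ u ⊓ S.M := by
  rw [inf_comm, ← sup_inf_assoc_of_le _ (le_of_chi h hv hu (h0 ▸ (vert h hu).2.1)),
    (isCompl h hv h0).sup_eq_top, top_inf_eq]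

theorem h0_eq (hu : S.Lat u) (hv : IsCompl v S.M) (hle : v ≤ u) : (S.h0 u : ℤ) = S.chi u := by
  have : S.h1 u = 0 := hu.h1_eq_zero.2 (top_le_iff.1 (hv.sup_eq_top ▸ sup_le_sup_right hle _))
  simp [Setup.chi, this]

theorem chamber_flag (h : σ ∈ S.Y) (hc : σ.card = n) :
    ∃ (v : Submodule F V) (A : ℕ → Submodule F V), v ∈ σ ∧ S.chi v = 0 ∧ Flag n A ∧
      A n = S.tr 1 v ⊓ S.M ∧ (∀ u ∈ σ, ∃ j, j < n ∧ u = v ⊔ A j) ∧ ∀ j, j < n → v ⊔ A j ∈ σ := by
  have hB := (S.mem_Y.1 h).1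
  have hn := S.pos
  have ex : ∀ j : ℕ, ∃ u, j < n → u ∈ σ ∧ S.chi u = j := fun j => by
    by_cases hj : j < n
    · obtain ⟨u, hu⟩ := Setup.exists_of_chamber hB hc (j := j) (by omega) (by omega)
      exact ⟨u, fun _ => hu⟩
    · exact ⟨⊥, fun h => absurd h hj⟩
  choose w hw using ex
  obtain ⟨hv, h0⟩ := hw 0 hn
  replace h0 : S.chi (w 0) = 0 := by simpa using h0
  have hL := (vert h hv).1
  have hC := isCompl h hv h0
  refine ⟨w 0, fun j => (if j < n then w j else S.tr 1 (w 0)) ⊓ S.M, hv, h0, ⟨?_, ?_, ?_⟩, by simp,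
    ?_, ?_⟩
  · intro j hj
    refine inf_le_inf_right _ ?_
    rw [if_pos hj]
    split_ifs with hj'
    · refine le_of_chi h (hw j hj).1 (hw _ hj').1 ?_
      rw [(hw j hj).2, (hw _ hj').2]
      omega
    · exact le_tr h hv h0 (hw j hj).1
  · intro j _
    by_cases hj : j < n
    · rw [if_pos hj]
      exact (vert h (hw j hj).1).1.finite_inf
    · rw [if_neg hj]
      exact (hL.tr 1).finite_inf
  · intro j hj'
    by_cases hj : j < n
    · rw [if_pos hj]
      have := h0_eq (vert h (hw j hj).1).1 hC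
        (le_of_chi h hv (hw j hj).1 (h0 ▸ (vert h (hw j hj).1).2.1))
      rw [(hw j hj).2] at this
      exact_mod_cast this
    · rw [if_neg hj]
      have := h0_eq (hL.tr 1) hC hL.1
      rw [hL.chi_tr, h0, zero_add, one_mul] at this
      obtain rfl : j = n := by omega
      exact_mod_cast this
  · intro u hu
    have h1 := (vert h hu).2
    have hj : (S.chi u).toNat < n := by omega
    refine ⟨_, hj, ?_⟩
    have : w (S.chi u).toNat = u := eq_of_chi h (hw _ hj).1 hu (by rw [(hw _ hj).2]; omega)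
    simp only [if_pos hj, this]
    exact eq_sup h hv h0 hu
  · intro j hj
    simp only [if_pos hj]
    rw [← eq_sup h hv h0 (hw j hj).1]
    exact (hw j hj).1

theorem smul_eq_map (g : S.Aut) {ψ : V →ₗ[F] V} (h : ∀ x ∈ u, S.val g x = ψ x) :
    g • u = u.map ψ := by
  rw [Setup.smul_def]
  ext v
  simp only [Submodule.mem_map]
  exact exists_congr fun z => and_congr_right fun hz => by rw [← h z hz]; rfl

end TransAux

namespace Setup

variable {F V : Type} [Field F] [AddCommGroup V] [Module F V] {n : ℕ} (S : Setup F V n)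

theorem inv_Y : Inv S.Aut S.Y := by
  intro g σ h
  rw [mem_Y] at h ⊢
  refine ⟨inv_B g σ h.1, fun u hu => ?_⟩
  obtain ⟨w, hw, rfl⟩ := mem_image.1 hu
  rw [pts_smul]
  exact h.2 w hw

theorem trans_geo [Fintype F] : S.geo.Trans S.Aut := by
  refine ⟨fun g v _ => ty_smul g v, S.inv_Y, fun c hc c' hc' hn hn' => ?_⟩
  obtain ⟨v, A, hv, h0, hA, e, h1, -⟩ := TransAux.chamber_flag (S := S) hc hn
  obtain ⟨v', A', hv', h0', hA', e', -, h2⟩ := TransAux.chamber_flag (S := S) hc' hn'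
  obtain ⟨ψ, φ, hφ, hψ⟩ := hA.exists_equiv hA' e e'
  obtain ⟨g, hg, hgv⟩ := exists_aut (TransAux.vert hc hv).1 (TransAux.vert hc' hv').1
    (TransAux.isCompl hc hv h0) (TransAux.isCompl hc' hv' h0') φ
  refine ⟨g, eq_of_subset_of_card_le (fun u hu => ?_) ?_⟩
  · obtain ⟨w, hw, rfl⟩ := mem_image.1 hu
    obtain ⟨j, hj, rfl⟩ := h1 w hw
    have : g • A j = A' j := by
      rw [← hψ j hj.le]
      refine TransAux.smul_eq_map g fun x hx => ?_
      have hx' : x ∈ S.tr 1 v ⊓ S.M := e ▸ hA.mono hj.le le_rfl hx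
      exact (hg ⟨x, hx'⟩).trans (hφ ⟨x, hx'⟩)
    rw [smul_sup, hgv, this]
    exact h2 j hj
  · rw [card_image_of_injective _ (MulAction.injective g), hn, hn']

end Setup

end Crest.Agent.R66
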