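import Crest.Agent.R66.Std

set_option autoImplicit false

namespace Crest.Agent.R66

open Finset

namespace UT

variable {H : Type} [Group H]

/-- The action on the coinvariants of a normal subgroup. -/
noncomputable def qρ (c : Cx H) (U : Subgroup H) [hU : U.Normal] (b : ℕ) :
    Representation F2 H (c.X b ⧸ c.I U b) where
  toFun g := (c.I U b).mapQ (c.I U b) (c.ρ b g)
    fun _ hx => c.ρ_mem_I (fun s hs => hU.conj_mem s hs g) hx
  map_one' := by
    refine Submodule.linearMap_qext _ ?_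
    ext x
    simp
  map_mul' g h := by
    refine Submodule.linearMap_qext _ ?_
    ext x
    simp

theorem qρ_mk (c : Cx H) (U : Subgroup H) [U.Normal] (b : ℕ) (g : H) (x : c.X b) :
    qρ c U b g ((c.I U b).mkQ x) = (c.I U b).mkQ (c.ρ b g x) := rfl

/-- The differential on the coinvariants. -/
noncomputable def qd (c : Cx H) (U : Subgroup H) (b : ℕ) :
    (c.X (b + 1) ⧸ c.I U (b + 1)) →ₗ[F2] (c.X b ⧸ c.I U b) :=
  (c.I U (b + 1)).mapQ (c.I U b) (c.d b) fun _ hx => c.d_mem_I hx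

theorem qd_mk (c : Cx H) (U : Subgroup H) (b : ℕ) (x : c.X (b + 1)) :
    qd c U b ((c.I U (b + 1)).mkQ x) = (c.I U b).mkQ (c.d b x) := rfl

/-- The complex of coinvariants of a normal subgroup. -/
noncomputable def quot (c : Cx H) (U : Subgroup H) [U.Normal] : Cx H where
  X b := c.X b ⧸ c.I U b
  ρ b := qρ c U b
  d b := qd c U b
  d_ρ b g x := by
    obtain ⟨x, rfl⟩ := (c.I U (b + 1)).mkQ_surjective x
    rw [qρ_mk, qd_mk, qd_mk, qρ_mk, c.d_ρ]
  dd b x := by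
    obtain ⟨x, rfl⟩ := (c.I U (b + 2)).mkQ_surjective x
    rw [qd_mk, qd_mk, c.dd, map_zero]
  ε := ((c.I U 0).quotEquivOfEqBot (c.I_zero U)).trans c.ε
  ρ_zero g x := by
    obtain ⟨x, rfl⟩ := (c.I U 0).mkQ_surjective x
    rw [qρ_mk, c.ρ_zero]

/-- The projection onto the coinvariants. -/
noncomputable def mk (c : Cx H) (U : Subgroup H) [U.Normal] (b : ℕ) :
    c.X b →ₗ[F2] (quot c U).X b := (c.I U b).mkQ

variable (c : Cx H) (U : Subgroup H) [U.Normal]

theorem mk_surjective (b : ℕ) : Function.Surjective (mk c U b) := (c.I U b).mkQ_surjective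

theorem ρ_mk (b : ℕ) (g : H) (x : c.X b) :
    (quot c U).ρ b g (mk c U b x) = mk c U b (c.ρ b g x) := rfl

theorem d_mk (b : ℕ) (x : c.X (b + 1)) :
    (quot c U).d b (mk c U (b + 1) x) = mk c U b (c.d b x) := rfl

theorem ε_mk (x : c.X 0) : (quot c U).ε (mk c U 0 x) = c.ε x := rfl

theorem mk_eq_zero {b : ℕ} {x : c.X b} : mk c U b x = 0 ↔ x ∈ c.I U b :=
  Submodule.Quotient.mk_eq_zero _

theorem mk_eq_mk {b : ℕ} {x y : c.X b} : mk c U b x = mk c U b y ↔ x - y ∈ c.I U b :=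
  Submodule.Quotient.eq _

theorem exists_of_mem_I {b : ℕ} {z : (quot c U).X b} (hz : z ∈ (quot c U).I ⊤ b) :
    ∃ y ∈ c.I ⊤ b, mk c U b y = z := by
  induction hz using Submodule.span_induction with
  | mem z hz =>
    obtain ⟨g, -, x, rfl⟩ := hz
    obtain ⟨x, rfl⟩ := mk_surjective c U b x
    exact ⟨_, c.sub_mem_I (Subgroup.mem_top g) b x, by rw [map_sub, ρ_mk]⟩
  | zero => exact ⟨0, zero_mem _, map_zero _⟩
  | add x y _ _ hx hy =>
    obtain ⟨x, hx, rfl⟩ := hx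
    obtain ⟨y, hy, rfl⟩ := hy
    exact ⟨x + y, add_mem hx hy, map_add _ _ _⟩
  | smul r x _ hx =>
    obtain ⟨x, hx, rfl⟩ := hx
    exact ⟨r • x, Submodule.smul_mem _ r hx, map_smul _ _ _⟩

theorem mem_Bd_of_mk {b : ℕ} {x : c.X (b + 1)} (hx : mk c U (b + 1) x ∈ (quot c U).Bd ⊤ b) :
    x ∈ c.Bd ⊤ b := by
  obtain ⟨_, ⟨y, rfl⟩, z, hz, h⟩ := Submodule.mem_sup.1 hx
  obtain ⟨y, rfl⟩ := mk_surjective c U _ y
  obtain ⟨z, hz', rfl⟩ := exists_of_mem_I c U hz
  rw [d_mk, ← map_add, eq_comm, mk_eq_mk] at h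
  have h' := c.I_mono (le_top : U ≤ ⊤) _ h
  have : x = c.d (b + 1) y + (z + (x - (c.d (b + 1) y + z))) := by abel
  rw [this]
  exact Submodule.add_mem_sup ⟨y, rfl⟩ (add_mem hz' h')

/-- Operators that are congruent to the identity and commute with `d` and with `U`. -/
structure Good (ν : ∀ b, c.X b →ₗ[F2] c.X b) : Prop where
  sub : ∀ b x, ν b x - x ∈ c.I U b
  d : ∀ b x, c.d b (ν (b + 1) x) = ν b (c.d b x)
  ρ : ∀ u ∈ U, ∀ b x, ν b (c.ρ b u x) = c.ρ b u (ν b x)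

omit [U.Normal] in
theorem good_id : Good c U fun _ => LinearMap.id :=
  ⟨fun _ _ => by simp, fun _ _ => rfl, fun _ _ _ _ => rfl⟩

omit [U.Normal] in
theorem Good.comp {c : Cx H} {U : Subgroup H} {ν μ : ∀ b, c.X b →ₗ[F2] c.X b} (hν : Good c U ν)
    (hμ : Good c U μ) : Good c U fun b => (ν b).comp (μ b) := by
  refine ⟨fun b x => ?_, fun b x => ?_, fun u hu b x => ?_⟩
  · have := add_mem (hν.sub b (μ b x)) (hμ.sub b x)
    simpa using this
  · simp [hν.d, hμ.d]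
  · simp [hν.ρ u hu, hμ.ρ u hu]

omit [U.Normal] in
theorem good_norm (hcomm : ∀ u ∈ U, ∀ u' ∈ U, u * u' = u' * u) {p : ℕ} (hp : Odd p) {u : H}
    (hu : u ∈ U) : Good c U fun b => ∑ i ∈ range p, c.ρ b (u ^ i) := by
  refine ⟨fun b x => ?_, fun b x => ?_, fun u' hu' b x => ?_⟩
  · have h1 : ∑ i ∈ range p, (c.ρ b (u ^ i) x - x) ∈ c.I U b :=
      sum_mem fun i _ => c.sub_mem_I (pow_mem hu i) b x
    have h2 : p • x = x := by
      rw [← Nat.cast_smul_eq_nsmul F2, (ZMod.natCast_eq_one_iff_odd).2 hp, one_smul]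
    rw [sum_sub_distrib, sum_const, card_range, h2] at h1
    rw [LinearMap.sum_apply]
    exact h1
  · simp only [LinearMap.sum_apply, map_sum, c.d_ρ]
  · simp only [LinearMap.sum_apply, map_sum]
    refine sum_congr rfl fun i _ => ?_
    rw [← Module.End.mul_apply, ← map_mul, hcomm _ (pow_mem hu i) _ hu', map_mul,
      Module.End.mul_apply]

omit [U.Normal] in
theorem exists_kill (hcomm : ∀ u ∈ U, ∀ u' ∈ U, u * u' = u' * u) {p : ℕ} (hp : Odd p)
    (hpow : ∀ u ∈ U, u ^ p = 1) {b : ℕ} {z : c.X b} (hz : z ∈ c.I U b) :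
    ∀ μ, Good c U μ → ∃ ν, Good c U ν ∧ ν b (μ b z) = 0 := by
  induction hz using Submodule.span_induction with
  | mem z hz =>
    obtain ⟨u, hu, x, rfl⟩ := hz
    intro μ hμ
    refine ⟨_, good_norm c U hcomm hp hu, ?_⟩
    rw [map_sub, hμ.ρ u hu, LinearMap.sum_apply]
    have : ∀ i ∈ range p, c.ρ b (u ^ i) (c.ρ b u (μ b x) - μ b x)
        = c.ρ b (u ^ (i + 1)) (μ b x) - c.ρ b (u ^ i) (μ b x) := fun i _ => by
      rw [map_sub, pow_succ, map_mul, Module.End.mul_apply]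
    rw [sum_congr rfl this, sum_range_sub fun i => c.ρ b (u ^ i) (μ b x), hpow u hu, pow_zero,
      sub_self]
  | zero => exact fun μ _ => ⟨_, good_id c U, by simp⟩
  | add x y _ _ hx hy =>
    intro μ hμ
    obtain ⟨ν₁, h₁, e₁⟩ := hx μ hμ
    obtain ⟨ν₂, h₂, e₂⟩ := hy _ (h₁.comp hμ)
    refine ⟨_, h₂.comp h₁, ?_⟩
    simp only [LinearMap.comp_apply] at e₂ ⊢
    rw [map_add, map_add, map_add, e₁, e₂, map_zero, add_zero]
  | smul r x _ hx =>
    intro μ hμ
    obtain ⟨ν, h, e⟩ := hx μ hμ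
    exact ⟨ν, h, by rw [map_smul, map_smul, e, smul_zero]⟩

/-- The coinvariants of an abelian group of odd exponent are exact. -/
theorem quot_ex (hcomm : ∀ u ∈ U, ∀ u' ∈ U, u * u' = u' * u) {p : ℕ} (hp : Odd p)
    (hpow : ∀ u ∈ U, u ^ p = 1) {b : ℕ} (hex : c.Ex b) : (quot c U).Ex b := by
  cases b with
  | zero =>
    intro x
    obtain ⟨x, rfl⟩ := mk_surjective c U 0 x
    obtain ⟨y, rfl⟩ := hex x
    exact ⟨mk c U 1 y, d_mk c U 0 y⟩
  | succ b =>
    intro x hx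
    obtain ⟨x, rfl⟩ := mk_surjective c U _ x
    rw [d_mk, mk_eq_zero] at hx
    obtain ⟨ν, hν, e⟩ := exists_kill c U hcomm hp hpow hx _ (good_id c U)
    obtain ⟨y, hy⟩ := hex (ν (b + 1) x) (by rw [hν.d]; exact e)
    refine ⟨mk c U _ y, ?_⟩
    rw [d_mk, mk_eq_mk, hy]
    exact hν.sub _ x

omit [U.Normal] in
theorem mem_Z {c c' : Cx H} {m : ℕ} {f : ∀ b, c.X b →ₗ[F2] c'.X b} (hf : Cx.IsMap c c' m f)
    {S : Subgroup H} {b : ℕ} (hb : b + 1 ≤ m) {x : c.X (b + 1)} (hx : x ∈ c.Z S b) :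
    f (b + 1) x ∈ c'.Z S b := by
  change c'.d b (f (b + 1) x) ∈ c'.I S b
  rw [hf.map_d b hb]
  exact hf.mem_I (by omega) hx

theorem map_top_subtype (P : Subgroup H) : (⊤ : Subgroup P).map P.subtype = P := by
  rw [← MonoidHom.range_eq_map, Subgroup.range_subtype]

end UT

variable {Γ : Type} [Group Γ]

/-- A subgroup `P` with a retraction onto `L` whose kernel is abelian of odd exponent. -/
structure Retr (P L : Subgroup Γ) (π : P →* L) : Prop where
  le : L ≤ P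
  left_inv : ∀ l : L, π (Subgroup.inclusion le l) = l
  comm : ∀ u u' : P, π u = 1 → π u' = 1 → u * u' = u' * u
  pow : ∃ p : ℕ, Odd p ∧ ∀ u : P, π u = 1 → u ^ p = 1

theorem Retr.quot_ex {P L : Subgroup Γ} {π : P →* L} (h : Retr P L π) (b : ℕ) :
    (UT.quot ((std Γ).comap P.subtype) π.ker).Ex b := by
  obtain ⟨p, hp, hpow⟩ := h.pow
  exact UT.quot_ex _ _ (fun u hu u' hu' => h.comm u u' hu hu') hp (fun u hu => hpow u hu)
    ((Cx.comap_Ex _ _ _).2 (std_ex Γ b))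

/-- Every class for `P` comes from `L`. -/
theorem Retr.exists_cycle {P L : Subgroup Γ} {π : P →* L} (h : Retr P L π) {b : ℕ}
    {x : (std Γ).X (b + 1)} (hx : x ∈ (std Γ).Z P b) :
    ∃ x' ∈ (std Γ).Z L b, x - x' ∈ (std Γ).Bd P b := by
  let C : Cx P := (std Γ).comap P.subtype
  have hlC : ∀ a, 1 ≤ a → a ≤ b + 1 → Lift (C.ρ a) := fun a ha _ =>
    std_lift P.subtype P.subtype_injective ha
  obtain ⟨f, hf⟩ := Cx.exists_isMap C ((std L).comap π) (b + 1) hlC
    fun a _ => (Cx.comap_Ex _ _ _).2 (std_ex L a)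
  obtain ⟨g, hg⟩ := Cx.exists_isMap (std L) ((std Γ).comap L.subtype) (b + 1)
    (fun a ha _ => std_lift (MonoidHom.id L) Function.injective_id ha)
    fun a _ => (Cx.comap_Ex _ _ _).2 (std_ex Γ a)
  have hxC : x ∈ C.Z ⊤ b := by
    have := Cx.comap_Z (std Γ) P.subtype ⊤ b
    rw [UT.map_top_subtype] at this
    exact this.ge hx
  have h1 : f (b + 1) x ∈ (std L).Z ⊤ b :=
    (std L).Z_mono le_top b ((Cx.comap_Z (std L) π ⊤ b).le (UT.mem_Z hf le_rfl hxC))
  have h2 : g (b + 1) (f (b + 1) x) ∈ (std Γ).Z L b := by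
    have := Cx.comap_Z (std Γ) L.subtype ⊤ b
    rw [UT.map_top_subtype] at this
    exact this.le (UT.mem_Z hg le_rfl h1)
  refine ⟨_, h2, ?_⟩
  let k : ∀ a, C.X a →ₗ[F2] C.X a := fun a => (g a).comp (f a)
  have hk : ∀ a y, k a y = g a (f a y) := fun _ _ => rfl
  have hm1 : Cx.IsMap C (UT.quot C π.ker) (b + 1) (UT.mk C π.ker) :=
    ⟨fun _ _ _ _ => rfl, fun _ _ _ => rfl, fun _ => rfl⟩
  have hm2 : Cx.IsMap C (UT.quot C π.ker) (b + 1) fun a => (UT.mk C π.ker a).comp (k a) := by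
    refine ⟨fun a ha p y => ?_, fun a ha y => ?_, fun y => ?_⟩
    · have e1 : k a (C.ρ a p y) = C.ρ a (Subgroup.inclusion h.le (π p)) (k a y) := by
        rw [hk, hf.map_ρ a ha]
        exact hg.map_ρ a ha (π p) (f a y)
      rw [LinearMap.comp_apply, LinearMap.comp_apply, UT.ρ_mk, e1, eq_comm, UT.mk_eq_mk]
      have hu : p * (Subgroup.inclusion h.le (π p))⁻¹ ∈ π.ker := by
        rw [MonoidHom.mem_ker, map_mul, map_inv, h.left_inv, mul_inv_cancel]
      have := C.sub_mem_I hu a (C.ρ a (Subgroup.inclusion h.le (π p)) (k a y))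
      rwa [← Module.End.mul_apply, ← map_mul, inv_mul_cancel_right] at this
    · rw [LinearMap.comp_apply, LinearMap.comp_apply, UT.d_mk, hk, hk, ← hf.map_d a ha]
      exact congrArg _ (hg.map_d a ha (f (a + 1) y))
    · rw [LinearMap.comp_apply, UT.ε_mk, hk]
      exact (hg.map_ε (f 0 y)).trans (hf.map_ε y)
  have h3 := hm1.sub_mem_Bd hm2 hlC (fun a _ => h.quot_ex a) hxC
  rw [LinearMap.comp_apply, ← map_sub] at h3
  have h4 := UT.mem_Bd_of_mk C π.ker h3
  have := Cx.comap_Bd (std Γ) P.subtype ⊤ b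
  rw [UT.map_top_subtype] at this
  exact this.le h4

/-- An element that centralises `L` modulo the kernel acts trivially on the classes from `L`. -/
theorem Retr.sub_mem {P L : Subgroup Γ} {π : P →* L} (h : Retr P L π) {w : Γ}
    (hw : ∀ l ∈ L, ∃ u : P, π u = 1 ∧ (u : Γ) = w * l * w⁻¹ * l⁻¹) {b : ℕ}
    {x : (std Γ).X (b + 1)} (hx : x ∈ (std Γ).Z L b) :
    (std Γ).ρ (b + 1) w x - x ∈ (std Γ).Bd P b := by
  let C : Cx P := (std Γ).comap P.subtype
  let C' : Cx L := (std Γ).comap L.subtype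
  let D : Cx L := (UT.quot C π.ker).comap (Subgroup.inclusion h.le)
  have hxC : x ∈ C'.Z ⊤ b := by
    have := Cx.comap_Z (std Γ) L.subtype ⊤ b
    rw [UT.map_top_subtype] at this
    exact this.ge hx
  let k : ∀ a, C.X a →ₗ[F2] C.X a := fun a => (std Γ).ρ a w
  have hm1 : Cx.IsMap C' D (b + 1) (UT.mk C π.ker) :=
    ⟨fun _ _ _ _ => rfl, fun _ _ _ => rfl, fun _ => rfl⟩
  have hm2 : Cx.IsMap C' D (b + 1) fun a => (UT.mk C π.ker a).comp (k a) := by
    refine ⟨fun a ha l y => ?_, fun a ha y => ?_, fun y => ?_⟩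
    · obtain ⟨u, hu, e⟩ := hw l l.2
      have h1 := C.sub_mem_I (S := π.ker) hu a ((std Γ).ρ a l ((std Γ).ρ a w y))
      have h2 : C.ρ a u ((std Γ).ρ a l ((std Γ).ρ a w y)) = (std Γ).ρ a w ((std Γ).ρ a l y) := by
        change (std Γ).ρ a (u : Γ) ((std Γ).ρ a l ((std Γ).ρ a w y)) = _
        rw [← Module.End.mul_apply, ← Module.End.mul_apply, ← Module.End.mul_apply, ← map_mul,
          ← map_mul, ← map_mul, e]
        congr 2
        group
      rw [h2] at h1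
      exact (UT.mk_eq_mk C π.ker).2 h1
    · exact congrArg (UT.mk C π.ker a) ((std Γ).d_ρ a w y)
    · exact congrArg (std Γ).ε ((std Γ).ρ_zero w y)
  have h3 := hm2.sub_mem_Bd hm1 (fun a ha _ => std_lift L.subtype L.subtype_injective ha)
    (fun a _ => (Cx.comap_Ex _ _ _).2 (h.quot_ex a)) hxC
  let x₀ : C.X (b + 1) := x
  have h4 : UT.mk C π.ker (b + 1) (k (b + 1) x₀ - x₀) ∈ (UT.quot C π.ker).Bd ⊤ b := by
    rw [map_sub]
    exact (UT.quot C π.ker).Bd_mono le_top b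
      ((Cx.comap_Bd (UT.quot C π.ker) (Subgroup.inclusion h.le) ⊤ b).le h3)
  have h5 := UT.mem_Bd_of_mk C π.ker h4
  have := Cx.comap_Bd (std Γ) P.subtype ⊤ b
  rw [UT.map_top_subtype] at this
  exact this.le h5

theorem Retr.van {P L : Subgroup Γ} {π : P →* L} (h : Retr P L π) {b : ℕ}
    (hL : (std Γ).Van L b) : (std Γ).Van P b := by
  intro x hx
  obtain ⟨x', hx', hsub⟩ := h.exists_cycle hx
  have := add_mem hsub ((std Γ).Bd_mono h.le b (hL hx'))
  rwa [sub_add_cancel] at this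

end Crest.Agent.R66
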